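import Crest.Agent.N228.H.PS

/-!
# Row 228, part A' (helper71): schedule, one level, all levels.  FROZEN statements

`RoundStmt`, `ConvStmt`, `SchedStmt` ⇒ `RunStmt` (one level) ⇒ `LevStmt` (all levels, colours).
The label `none` is the dummy.  Notes h71-A'1, h71-A'2, h10-A', h28-A'ref, h62-A'.
-/

set_option autoImplicit false
set_option linter.dupNamespace false
open Finset

noncomputable section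

namespace Crest.Agent.N228.H

open Crest.Agent.N222.A

/-- the world with the buffer: the band `m0 ≤ m ≤ m1` becomes long; nothing changes on `th < 0` -/
structure W3 (n : ℝ) extends W2 n where
  buf : ∀ (st : St) (m th : Z → ℝ) (m0 m1 σ T ε : ℝ), A.Sm m → A.Sm th → m0 < m1 → 0 ≤ σ → 0 < T →
    0 < ε → (∀ x, (5 ≤ om x → th x < 0) ∧ (th x ≤ 1 → m x ≤ m0)) →
    (∀ x ∈ L, m0 ≤ m x → m x ≤ m1 → (ps st x).T.Γ m m ≤ σ) →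
    ∃ (st' : St) (z : Z → ℝ), R st st' ∧ A.Sm z ∧
      (∀ x, (m x ≤ m0 → z x ≤ 0) ∧ (m1 ≤ m x → T ≤ z x)) ∧ ∀ x ∈ L,
      (∀ f, A.Sm f → (ps st' x).T.Γ f f ≤ (ps st x).T.Γ f f) ∧ (ps st' x).T.Γ z z ≤ 1 ∧
      (ps st x).E - ε - 48 * σ / (m1 - m0) ^ 2 ≤ (ps st' x).E ∧
      (m x ≤ m0 → (ps st x).E - ε ≤ (ps st' x).E) ∧ (th x < 0 → (ps st' x).bn ≤ (ps st x).bn)

/-- the metric only grows -/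
def W2.Le {n : ℝ} (W : W2 n) (st st' : W.St) : Prop :=
  ∀ x ∈ W.L, ∀ f, W.A.Sm f → (W.ps st' x).T.Γ f f ≤ (W.ps st x).T.Γ f f

/-- the price of a round of length `1` -/
def price (n α w lam γ1 γ2 : ℝ) : ℝ :=
  α * lam + n * γ1 ^ 2 / (4 * w) + 2 * n * γ2 ^ 2 / w ^ 2

/-- the numbers of a round -/
structure Num (w0 w1 α c1 h w w' lam γ1 γ1' γ2 : ℝ) : Prop where
  w0_le : w0 ≤ w
  le_w' : w ≤ w'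
  le_w1 : w' ≤ w1
  lam0 : 0 < lam
  lam1 : lam ≤ c1
  g1 : 0 ≤ γ1 ∧ γ1 ≤ c1
  g1' : |γ1' - γ1| ≤ c1 * h
  g2 : 0 ≤ γ2 ∧ γ2 ≤ c1
  sum : α / lam + (w' - w) / (2 * h) ≤ γ1 + γ2

/-- **SCHEDULE** -/
def SchedStmt : Prop := ∀ n μ w0 T : ℝ, 1 ≤ n → 0 < μ → 0 < w0 → w0 ≤ 1 → 0 < T →
  ∃ w1 c1 h0 : ℝ, 1 ≤ c1 ∧ 0 < h0 ∧ ∀ (h : ℝ) (N : ℕ), 0 < h → h ≤ h0 → N * h ≤ T →
  ∃ w lam γ1 γ2 : ℕ → ℝ, w 0 = w0 ∧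
    (∀ r < N, Num w0 w1 (μ ^ 3 / (2 * n)) c1 h (w r) (w (r + 1)) (lam r) (γ1 r) (γ1 (r + 1)) (γ2 r)) ∧
    ∑ r ∈ range N, price n (μ ^ 3 / (2 * n)) (w r) (lam r) (γ1 r) (γ2 r) * h ≤ 32 / 5 * μ ^ 2

/-- **RUN**: one level.  `χ` : the initial partition, `a` : the weights, `ϖ = 1` : the free zone,
`o` : the long collar (walls in `0 ≤ o ≤ 1`).  `q` stands for `(∑ P - 1)²`. -/
def RunStmt : Prop := ∀ (n : ℝ) (W : W2 n) (G : Type) [Fintype G] [DecidableEq G]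
  (μ t Λ Am K0 : ℝ), 1 ≤ n → 0 < μ → 0 < t → 0 ≤ Λ → 0 ≤ Am → 0 ≤ K0 →
  ∃ τ1, 0 < τ1 ∧ ∀ B0 : ℝ, ∃ τ, 0 < τ ∧
  ∀ (st : W.St) (χ a : Option G → W.Z → ℝ) (ϖ o : W.Z → ℝ), (∀ y, W.A.Sm (χ y) ∧ W.A.Sm (a y)) →
    W.A.Sm ϖ → W.A.Sm o →
    (∀ x, ∑ y, χ y x = 1 ∧ (∀ y, 0 ≤ χ y x ∧ 0 ≤ a y x ∧ a y x ≤ Am ∧ (ϖ x ≠ 0 → a y x = 0)) ∧
      0 ≤ ϖ x ∧ ϖ x ≤ 1 ∧ (-1 ≤ o x → χ none x = 1 ∧ ϖ x = 1) ∧ (5 ≤ W.om x → 1 ≤ o x)) →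
    (∀ x ∈ W.L, (∀ y, (W.ps st x).T.Γ (χ y) (χ y) ≤ K0 ∧
      (W.ps st x).T.Γ (a y) (a y) ≤ (μ ^ 3 / (2 * n)) ^ 2) ∧ (W.ps st x).T.Γ ϖ ϖ ≤ τ1 ∧
      (W.ps st x).T.Γ o o ≤ τ ∧ (ϖ x < 1 → (W.ps st x).bn ≤ B0)) →
    ∃ (st' : W.St) (P : Option G → W.Z → ℝ) (q : W.Z → ℝ), W.R st st' ∧ W.Le st st' ∧
      (∀ y, W.A.Sm (P y)) ∧ W.A.Sm q ∧
      (∀ x, (∀ y, 0 ≤ P y x ∧ P y x ≤ 1) ∧ 0 ≤ q x ∧ (ϖ x < 1 → q x = del P x ^ 2) ∧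
        (0 ≤ o x → q x = 0)) ∧
      ∀ x ∈ W.L, (∀ y, (W.ps st' x).T.Γ (P y) (P y) ≤ t) ∧ (W.ps st' x).T.Γ q q ≤ t ∧
        (W.ps st x).E - (if ϖ x = 1 then 0 else 13 / 2 * μ ^ 2) - t - 2 * ∑ y, a y x * χ y x
          + 2 * ∑ y, a y x * P y x + Λ * q x ≤ (W.ps st' x).E

/-- **LEVELS**.  `s` grows inwards, `101 ≤ s` is the core.  `χ` is a partition of unity on `1 ≤ s`,
`ρ y` is the cut distance from the label `y`; the colour `c` collects the labels in `S c`;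
`f c` is an a priori colour. -/
def LevStmt : Prop := ∀ (n : ℝ) (W : W3 n) (G C : Type) [Fintype G] [DecidableEq G] [Fintype C]
  (Λ K0 : ℝ) (st : W.St) (χ ρ : G → W.Z → ℝ) (f : C → W.Z → ℝ) (s : W.Z → ℝ) (S : C → Finset G)
  (Pos Neg : C → Set W.Z), 3 ≤ n → 0 ≤ Λ → 0 ≤ K0 → (∀ y, W.A.Sm (χ y) ∧ W.A.Sm (ρ y)) →
  (∀ c, W.A.Sm (f c)) → W.A.Sm s →
  (∀ x, (5 ≤ W.om x → s x < 0) ∧ (1 ≤ s x → ∑ y, χ y x = 1) ∧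
    (∀ y, 0 ≤ χ y x ∧ χ y x ≤ 1 ∧ 0 ≤ ρ y x ∧ ρ y x ≤ 1 ∧ χ y x * ρ y x = 0) ∧
    ∀ c, |f c x| ≤ 1 ∧ (x ∈ Pos c → f c x = 1 ∧ ∀ y, y ∉ S c → ρ y x = 1) ∧
      (x ∈ Neg c → f c x = -1 ∧ ∀ y ∈ S c, ρ y x = 1)) →
  (∀ x ∈ W.L, (1 ≤ s x → s x ≤ 101 → (W.ps st x).T.Γ s s ≤ 2) ∧
    (∀ y, (W.ps st x).T.Γ (χ y) (χ y) ≤ K0 ∧ (W.ps st x).T.Γ (ρ y) (ρ y) ≤ 1 / (81 * n) ^ 2) ∧
    ∀ c, (W.ps st x).T.Γ (f c) (f c) ≤ K0) →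
  ∃ (st' : W.St) (F : C → W.Z → ℝ) (lam : W.Z → ℝ), W.R st st' ∧ W.Le st st' ∧
    (∀ c, W.A.Sm (F c)) ∧ W.A.Sm lam ∧
    (∀ x, 0 ≤ lam x ∧ lam x ≤ 1 ∧ (s x ≤ 1 → lam x = 0) ∧ (101 ≤ s x → lam x = 1) ∧
      ∀ c, |F c x| ≤ lam x ∧ (x ∈ Pos c → F c x = lam x) ∧ (x ∈ Neg c → F c x = -lam x)) ∧
    ∀ x ∈ W.L, (∀ c, (W.ps st' x).T.Γ (F c) (F c) ≤ 3 * K0 + 1) ∧ (W.ps st' x).T.Γ lam lam ≤ 1 ∧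
      (W.ps st x).E - 97 / 200 + Λ * (∑ c, (W.ps st' x).T.Γ (F c) (F c)
        + (W.ps st' x).T.Γ lam lam) ≤ (W.ps st' x).E

end Crest.Agent.N228.H

end
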