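import Crest.Agent.N228.T.Defs
import Crest.Agent.N228.O.Net
import Crest.Agent.N228.I.O1
import Crest.Agent.N228.I.Buf0

/-!
# Row 228, part A' (helper10): from the levels on immersions (`LevI`) to `T.Runs`
-/

set_option autoImplicit false
set_option linter.dupNamespace false
set_option linter.unusedSectionVars false
open Set Filter Topology Function
open scoped ContDiff

noncomputable section

namespace Crest.Agent.N228.H

open Crest.Agent.N222 Crest.Agent.N222.A Crest.Agent.N222.Imm Crest.Agent.N228.I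

/-- `LevStmt` for immersions; the inequalities are tracked on `om ≤ 7` -/
def LevI (n : ℕ) : Prop := ∀ (ι : Type) [Fintype ι] [DecidableEq ι] (X : Type) [MetricSpace X]
  [ProperSpace X] [MeasurableSpace X] [BorelSpace X] [ConnectedSpace X] (M : Imm n ι X)
  (B : ι → X → ℝ) (om : X → ℝ) (G C : Type) [Fintype G] [DecidableEq G] [Fintype C] (Λ K0 : ℝ)
  (χ ρ : G → X → ℝ) (f : C → X → ℝ) (s : X → ℝ) (S : C → Finset G) (Pos Neg : C → Set X),
  Injective M.x → (∀ a, M.Sm (B a)) → M.pre.Tan B → M.Sm om → IsCompact {p | om p ≤ 7} →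
  0 ≤ Λ → 0 ≤ K0 → (∀ y, M.Sm (χ y) ∧ M.Sm (ρ y)) → (∀ c, M.Sm (f c)) → M.Sm s →
  (∀ x, (5 ≤ om x → s x < 0) ∧ (1 ≤ s x → ∑ y, χ y x = 1) ∧
    (∀ y, 0 ≤ χ y x ∧ χ y x ≤ 1 ∧ 0 ≤ ρ y x ∧ ρ y x ≤ 1 ∧ χ y x * ρ y x = 0) ∧
    ∀ c, |f c x| ≤ 1 ∧ (x ∈ Pos c → f c x = 1 ∧ ∀ y, y ∉ S c → ρ y x = 1) ∧
      (x ∈ Neg c → f c x = -1 ∧ ∀ y ∈ S c, ρ y x = 1)) →
  (∀ x, om x ≤ 7 → (1 ≤ s x → s x ≤ 101 → M.pre.gam s s x ≤ 2) ∧
    (∀ y, M.pre.gam (χ y) (χ y) x ≤ K0 ∧ M.pre.gam (ρ y) (ρ y) x ≤ 1 / (81 * (n : ℝ)) ^ 2) ∧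
    ∀ c, M.pre.gam (f c) (f c) x ≤ K0) →
  ∃ (κ : Type) (_ : Fintype κ) (_ : DecidableEq κ) (M' : Imm n κ X) (B' : κ → X → ℝ)
    (F : C → X → ℝ) (lam : X → ℝ), Nx {p | 7 ≤ om p} M B M' B' ∧ (∀ a, M.Sm (B' a)) ∧
    M'.pre.Tan B' ∧ (∀ c, M.Sm (F c)) ∧ M.Sm lam ∧
    (∀ x, 0 ≤ lam x ∧ lam x ≤ 1 ∧ (s x ≤ 1 → lam x = 0) ∧ (101 ≤ s x → lam x = 1) ∧
      ∀ c, |F c x| ≤ lam x ∧ (x ∈ Pos c → F c x = lam x) ∧ (x ∈ Neg c → F c x = -lam x)) ∧
    ∀ x, om x ≤ 7 → (∀ h : X → ℝ, M.Sm h → M'.pre.gam h h x ≤ M.pre.gam h h x) ∧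
      (∀ c, M'.pre.gam (F c) (F c) x ≤ 3 * K0 + 1) ∧ M'.pre.gam lam lam x ≤ 1 ∧
      M.pre.Eb B x - 97 / 200 + Λ * (∑ c, M'.pre.gam (F c) (F c) x + M'.pre.gam lam lam x) ≤
        M'.pre.Eb B' x

variable {n : ℕ} {ι : Type} [Fintype ι] [DecidableEq ι] {X : Type} [TopologicalSpace X]
  {M : Imm n ι X}

theorem gam_col {F l : X → ℝ} (hF : M.Sm F) (hl : M.Sm l) (p : X) :
    M.pre.gam (fun q => F q + l q - 1) (fun q => F q + l q - 1) p ≤
      2 * M.pre.gam F F p + 2 * M.pre.gam l l p := by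
  have e : ∀ a, M.pre.D a (fun q => F q + l q - 1) p = M.pre.D a F p + M.pre.D a l p := fun a => by
    have := D_add (M := M) ((hF.add hl).diffAt p) ((sm_const (M := M) (-1 : ℝ)).diffAt p) a
    rw [D_const, add_zero, D_add (hF.diffAt p) (hl.diffAt p)] at this
    exact this
  simp only [gam_apply, e, Finset.mul_sum, ← Finset.sum_add_distrib]
  exact Finset.sum_le_sum fun a _ => by nlinarith [sq_nonneg (M.pre.D a F p - M.pre.D a l p)]

theorem exists_gam_fam {G : Type} [Fintype G] {f : G → X → ℝ} (hf : ∀ g, M.Sm (f g)) {K : Set X}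
    (hK : IsCompact K) : ∃ C, 0 ≤ C ∧ ∀ p ∈ K, ∀ g, M.pre.gam (f g) (f g) p ≤ C := by
  obtain ⟨C, hC⟩ := hK.exists_bound_of_continuousOn (f := fun p => ∑ g, M.pre.gam (f g) (f g) p)
    (continuous_finsetSum _ fun g _ => ((hf g).gam (hf g)).continuous).continuousOn
  refine ⟨|C|, abs_nonneg _, fun p hp g => ?_⟩
  exact (Finset.single_le_sum (f := fun g => M.pre.gam (f g) (f g) p)
    (fun g _ => gam_self_nonneg _ _) (Finset.mem_univ g)).trans
    ((le_abs_self _).trans ((hC p hp).trans (le_abs_self C)))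

theorem sm_cut {f : X → ℝ} (hf : M.Sm f) : M.Sm fun p => cut (f p) :=
  hf.comp Real.smoothTransition.contDiff

/-- a partition of unity subordinate to the net -/
theorem exists_chi {G : Type} [Fintype G] {d : G → X → ℝ} {θ : X → ℝ} (hd : ∀ g, M.Sm (d g))
    (hθ : M.Sm θ) (net : ∀ p, θ p ≤ 104 → ∃ g, d g p < 4 * (1 / 100)) :
    ∃ χ : G → X → ℝ, (∀ g, M.Sm (χ g)) ∧ ∀ p, (θ p ≤ 100 → ∑ g, χ g p = 1) ∧
      ∀ g, 0 ≤ χ g p ∧ χ g p ≤ 1 ∧ (1 / 20 ≤ d g p → χ g p = 0) := by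
  have sβ : ∀ g, M.Sm fun p => cut (5 - 100 * d g p) := fun g =>
    sm_cut ((sm_const _).sub ((sm_const _).mul (hd g)))
  obtain ⟨N, hN⟩ : ∃ N : X → ℝ, N = fun p => ∑ g, cut (5 - 100 * d g p) + cut (θ p - 100) := ⟨_, rfl⟩
  have sN : M.Sm N := hN ▸ (sm_sum _ fun g _ => sβ g).add (sm_cut (hθ.sub (sm_const _)))
  have le : ∀ g p, cut (5 - 100 * d g p) ≤ N p := fun g p => by
    have := Finset.single_le_sum (f := fun g => cut (5 - 100 * d g p)) (fun g _ => cut_nonneg _)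
      (Finset.mem_univ g)
    rw [hN]; linarith [cut_nonneg (θ p - 100)]
  have N1 : ∀ p, 1 ≤ N p := fun p => by
    rcases le_total (θ p) 104 with h | h
    · obtain ⟨g, hg⟩ := net p h
      exact (cut_one (by linarith)).ge.trans (le g p)
    · have : 0 ≤ ∑ g, cut (5 - 100 * d g p) := Finset.sum_nonneg fun g _ => cut_nonneg _
      rw [hN]; linarith [cut_one (s := θ p - 100) (by linarith)]
  have N0 : ∀ p, 0 < N p := fun p => one_pos.trans_le (N1 p)
  refine ⟨fun g p => cut (5 - 100 * d g p) / N p, fun g => (sβ g).div sN fun p => (N0 p).ne',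
    fun p => ⟨fun h => ?_, fun g => ⟨div_nonneg (cut_nonneg _) (N0 p).le,
      (div_le_one (N0 p)).2 (le g p), fun h => ?_⟩⟩⟩
  · rw [← Finset.sum_div, div_eq_one_iff_eq (N0 p).ne', hN]
    simp only [cut_zero (s := θ p - 100) (by linarith), add_zero]
  · simp only [cut_zero (s := 5 - 100 * d g p) (by linarith), zero_div]

theorem arun (hn : 1 ≤ n) (H : LevI n) (s : ℝ) : T.ARun n s (s - 97 / 200) (166 * n + 1) 1 := by
  classical
  refine ⟨104, by norm_num, fun ι0 _ _ X _ _ _ _ _ M0 i0 l0 θ sθ gθ cθ => ?_⟩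
  obtain ⟨G, _, _, d, δ, hd, tri, net, dd⟩ := exists_labels i0 l0 cθ (ε := 1 / 100) (by norm_num)
  obtain ⟨r, sr, hr⟩ := exists_ramp (δ := 1 / 100) (by norm_num)
  refine ⟨G, inferInstance, fun ι _ _ M B J _ f0 L ch inj sB tB s0 hL hΓ hE => ?_⟩
  have sm : ∀ {f : X → ℝ}, M0.Sm f → M.Sm f := fun hf => by rwa [Imm.Sm, ch]
  have sd := fun g => sm (hd g).1
  replace sθ := sm sθ
  have n1 : (1 : ℝ) ≤ n := by exact_mod_cast hn
  obtain ⟨χ, sχ, hχ⟩ := exists_chi sd sθ net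
  obtain ⟨a, ha⟩ : ∃ a : ℝ, a = 101 / 100 * (81 * n) := ⟨_, rfl⟩
  have a0 : 0 < a := by rw [ha]; positivity
  have sf : ∀ c, M.Sm fun p => 1 - 2 * cut (d c p - 1) := fun c =>
    (sm_const _).sub ((sm_const _).mul (sm_cut ((sd c).sub (sm_const _))))
  have sρ : ∀ y, M.Sm fun p => r ((d y p - 1 / 20) / a) := fun y =>
    (sd y).comp (g := fun t => r ((t - 1 / 20) / a)) (by fun_prop)
  obtain ⟨K1, K10, hK1⟩ := exists_gam_fam sχ cθ
  obtain ⟨K2, K20, hK2⟩ := exists_gam_fam sf cθ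
  have e7 : ∀ p, θ p - 97 ≤ 7 ↔ θ p ≤ 104 := fun p => ⟨fun _ => by linarith, fun _ => by linarith⟩
  have ρ1 : ∀ y p, 1 / 20 + 101 / 100 * a ≤ d y p → r ((d y p - 1 / 20) / a) = 1 := fun y p h =>
    (hr _).2.2.2.1 ((le_div_iff₀ a0).2 (by linarith))
  refine ⟨2 * (3 * (K1 + K2) + 1) + 2, fun b => ?_⟩
  obtain ⟨κ, _, _, M', B', F, lam, nx, sB', tB', sF, sl, v, g⟩ := H ι X M B (fun p => θ p - 97) G G
    (2 * b ^ 2 * (Fintype.card G + 1)) (K1 + K2) χ (fun y p => r ((d y p - 1 / 20) / a))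
    (fun c p => 1 - 2 * cut (d c p - 1)) (fun p => 101 - θ p)
    (fun c => Finset.univ.filter fun y => δ c y ≤ 1 / 10 + 101 / 100 * a)
    (fun c => {p | d c p ≤ 1 / 20}) (fun c => {p | 3 / 20 + 101 / 50 * a ≤ d c p}) inj sB tB
    (sθ.sub (sm_const _)) (by simpa only [e7] using cθ) (by positivity) (by positivity)
    (fun y => ⟨sχ y, sρ y⟩) sf ((sm_const _).sub sθ) (fun x => ⟨fun h => by linarith,
      fun h => (hχ x).1 (by linarith), fun y => ⟨((hχ x).2 y).1, ((hχ x).2 y).2.1, (hr _).1,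
        (hr _).2.1, by
          rcases le_total (1 / 20) (d y x) with h | h
          · rw [((hχ x).2 y).2.2 h, zero_mul]
          · rw [(hr _).2.2.1 (div_nonpos_of_nonpos_of_nonneg (by linarith) a0.le), mul_zero]⟩,
      fun c => ⟨abs_le.2 ⟨by linarith [cut_le_one (d c x - 1)], by linarith [cut_nonneg (d c x - 1)]⟩,
        fun (h : d c x ≤ _) => ⟨by rw [cut_zero (by linarith)]; ring, fun y hy => ρ1 y x (by
          have := not_le.1 fun k => hy (Finset.mem_filter.2 ⟨Finset.mem_univ y, k⟩)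
          linarith [(tri x c y).2])⟩,
        fun (h : _ ≤ d c x) => ⟨by rw [cut_one (by nlinarith)]; ring, fun y hy => ρ1 y x (by
          linarith [(Finset.mem_filter.1 hy).2, (tri x c y).1])⟩⟩⟩)
    (fun x hx => by
      have hx := (e7 x).1 hx
      refine ⟨fun _ _ => ?_, fun y => ⟨by linarith [hK1 x hx y], ?_⟩, fun c => by linarith [hK2 x hx c]⟩
      · rw [gam_comp_self sθ ((hasDerivAt_id' _).const_sub 101)]
        linarith [hΓ θ sθ x hx, gθ x]
      · obtain ⟨e, he, e1⟩ := (hr ((d y x - 1 / 20) / a)).2.2.2.2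
        rw [gam_comp_self (g := fun t => r ((t - 1 / 20) / a)) (sd y)
          (he.comp (d y x) (((hasDerivAt_id' _).sub_const _).div_const a))]
        have k1 : M.pre.gam (d y) (d y) x ≤ (1 + 1 / 100) ^ 2 := by
          linarith [hΓ _ (sd y) x hx, ((hd y).2 x).2]
        calc _ = e ^ 2 * M.pre.gam (d y) (d y) x / a ^ 2 := by ring
          _ ≤ 1 * (1 + 1 / 100) ^ 2 / a ^ 2 := by
            gcongr; exact gam_self_nonneg _ _
          _ = _ := by rw [ha]; field_simp; ring)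
  have sm' : ∀ {f : X → ℝ}, M.Sm f → M'.Sm f := fun hf => by rwa [Imm.Sm, nx.ch]
  have far : ∀ c p, 100 ≤ θ p → F c p + lam p - 1 = -1 := fun c p h => by
    have h1 := (v p).2.2.1 (by linarith)
    have h2 := ((v p).2.2.2.2 c).1
    rw [h1, abs_nonpos_iff] at h2
    rw [h1, h2]; ring
  refine ⟨κ, _, _, M', B', fun c p => F c p + lam p - 1, ⟨nx.ch, fun p (hp : 104 ≤ θ p) =>
    nx.gam p (show 7 ≤ θ p - 97 by linarith)⟩, nx.inj inj, sB', tB',
    fun c => ((sF c).add sl).sub (sm_const _), ⟨fun p hp => ?_, fun c p h => far c p (by linarith)⟩,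
    fun h hh p hp => by rw [one_mul]; exact (g p ((e7 p).2 hp)).1 h hh, fun p hp => ?_⟩
  · obtain ⟨c, hc⟩ := net p (show θ p ≤ 104 by linarith)
    refine ⟨c, ?_, fun q hq => ?_⟩
    · rw [((v p).2.2.2.2 c).2.1 (show d c p ≤ _ by linarith), (v p).2.2.2.1 (by linarith)]; norm_num
    · have : d c q < 3 / 20 + 101 / 50 * a := not_le.1 fun k => by
        rw [((v q).2.2.2.2 c).2.2 k] at hq; linarith
      linarith [dd c p q]
  have hE := hE p hp
  rcases le_or_gt (θ p) 104 with h | h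
  · obtain ⟨g1, g2, g3, g4⟩ := g p ((e7 p).2 h)
    have k := fun c => gam_col (sm' (sF c)) (sm' sl) p
    refine ⟨fun c => by linarith [k c, g2 c], ?_⟩
    have k1 : ∑ j, M'.pre.gam (f0 j) (f0 j) p ≤ ∑ j, M.pre.gam (f0 j) (f0 j) p :=
      Finset.sum_le_sum fun j _ => g1 _ (s0 j)
    have k2 := mul_le_mul_of_nonneg_left (Finset.sum_le_sum fun c (_ : c ∈ Finset.univ) => k c)
      (sq_nonneg b)
    rw [Finset.sum_add_distrib, ← Finset.mul_sum, Finset.sum_const, Finset.card_univ,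
      nsmul_eq_mul] at k2
    have k3 : 0 ≤ ∑ c, M'.pre.gam (F c) (F c) p := Finset.sum_nonneg fun c _ => gam_self_nonneg _ _
    have k4 := gam_self_nonneg (M := M') lam p
    have k5 : 0 ≤ b ^ 2 * Fintype.card G * ∑ c, M'.pre.gam (F c) (F c) p := by positivity
    have k6 : 0 ≤ b ^ 2 * M'.pre.gam lam lam p := by positivity
    linarith
  · have k : ∀ c, M'.pre.gam (fun p => F c p + lam p - 1) (fun p => F c p + lam p - 1) p = 0 :=
      fun c => gam_ev (s := -1) ((sθ.continuous.continuousAt.eventually (lt_mem_nhds h)).mono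
        fun q hq => far c q (by linarith)) _
    have h7 : p ∈ {p | 7 ≤ θ p - 97} := show 7 ≤ θ p - 97 by linarith
    refine ⟨fun c => by rw [k c]; positivity, ?_⟩
    simp only [k, Finset.sum_const_zero, mul_zero, add_zero, nx.gam p h7 _ _ (s0 _) (s0 _)]
    linarith [nx.eb p h7]

theorem runs (hn : 1 ≤ n) (H : LevI n) : T.Runs n (166 * n + 1) :=
  ⟨99 / 100, 99 / 100 - 97 / 200, 1 / 2, 1 / 2 - 97 / 200, 1, le_rfl, by norm_num, by norm_num,
    by norm_num, by norm_num, by norm_num, arun hn H _, arun hn H _⟩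

theorem runs3 (H : LevI 3) : T.Runs 3 499 := by
  have := runs (by norm_num) H
  norm_num at this
  exact this

end Crest.Agent.N228.H

end
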