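import Crest.Agent.N228.H.Inst0
import Crest.Agent.N228.H.Wrap
import Crest.Agent.N228.I.O3

/-!
# Row 228, A' (helper85): the instance of `W3` on immersed manifolds, `LevStmt → LevI`
-/

set_option autoImplicit false
set_option linter.unusedSectionVars false
open Set Filter Topology Function
open scoped ContDiff
open Crest.Agent.N222 Crest.Agent.N222.Imm Crest.Agent.N222.A Crest.Agent.N228.Cf

noncomputable section

namespace Crest.Agent.N228.H

variable {d : ℕ} {X : Type} [TopologicalSpace X] {ch : X → OpenPartialHomeomorph X (E (Fin d))}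

theorem St.bn_bdd (st : St ch) {L : Set X} (hL : IsCompact L) :
    ∃ B, ∀ x ∈ L, (st.ps x).bn ≤ B := by
  have hc : Continuous (bn st.b) :=
    Real.continuous_sqrt.comp (continuous_finsetSum _ fun a _ => (st.sm a).continuous.pow 2)
  obtain ⟨B, hB⟩ := hL.exists_bound_of_continuousOn hc.continuousOn
  exact ⟨B, fun x hx => (le_abs_self _).trans (hB x hx)⟩

theorem RR.drift {om : X → ℝ} (ho : (algC ch).Sm om) (st : St ch) {l f : X → ℝ} (hl : st.M.Sm l)
    (hf : st.M.Sm f) (h : ∀ x, 5 ≤ om x → l x = 0) : RR om st (st.drift hl hf) := by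
  refine ⟨Same.refl _ _, fun p hp => ?_, id⟩
  refine (Eb_drb st.sm hl hf p).trans ?_
  rw [h p hp.le, I.gam_ev ((I.ev_gt (sm_of st.hM ho) hp).mono fun q hq => h q hq.le)]
  ring

theorem St.buf [T2Space X] {om : X → ℝ} (hc : IsCompact {p | om p ≤ 6}) (st : St ch)
    (m th : X → ℝ) (m0 m1 σ T ε : ℝ) (hm : (algC ch).Sm m) (ht : (algC ch).Sm th) (h01 : m0 < m1)
    (hσ : 0 ≤ σ) (hT : 0 < T) (hε : 0 < ε)
    (h5 : ∀ x, (5 ≤ om x → th x < 0) ∧ (th x ≤ 1 → m x ≤ m0))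
    (hΓ : ∀ x ∈ {p | om p ≤ 6}, m0 ≤ m x → m x ≤ m1 → (st.ps x).T.Γ m m ≤ σ) :
    ∃ (st' : St ch) (z : X → ℝ), RR om st st' ∧ (algC ch).Sm z ∧
      (∀ x, (m x ≤ m0 → z x ≤ 0) ∧ (m1 ≤ m x → T ≤ z x)) ∧ ∀ x ∈ {p | om p ≤ 6},
      (∀ f, (algC ch).Sm f → (st'.ps x).T.Γ f f ≤ (st.ps x).T.Γ f f) ∧ (st'.ps x).T.Γ z z ≤ 1 ∧
      (st.ps x).E - ε - 48 * σ / (m1 - m0) ^ 2 ≤ (st'.ps x).E ∧
      (m x ≤ m0 → (st.ps x).E - ε ≤ (st'.ps x).E) ∧ (th x < 0 → (st'.ps x).bn ≤ (st.ps x).bn) := by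
  have st0 := sm_of st.hM ht
  obtain ⟨v, G, sv, sG, H⟩ := I.o3 st.sm (sm_of st.hM hm) st0
    (hc.of_isClosed_subset (isClosed_le continuous_const st0.continuous) fun p hp => by
      have : ¬5 ≤ om p := fun h => ((h5 p).1 h).not_ge hp
      change om p ≤ 6
      linarith [not_le.1 this])
    h01 hσ (show 0 < T / 4 by positivity) hε fun p => (h5 p).2
  have sm : st.M.Sm fun p => ww st.M.pre v p * (hh st.M st.b v p - G p) :=
    (sm_ww sv).mul ((sm_hb st.sm sv).sub sG)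
  have hE : ∀ p, st.M.pre.Eb st.b p + I.bgain st.M st.b v G p ≤
      (st.graph sv sm).M.pre.Eb (st.graph sv sm).b p := fun p => by
    have en : nf st.M st.b v (fun p => ww st.M.pre v p * (hh st.M st.b v p - G p)) =
        fun p => -G p := funext fun q => by
      simp only [nf]
      linear_combination (hh st.M st.b v q - G q) * ww_mul_vv st.M v q
    have e2 : xd st.M v (fun p => -G p) p = -xd st.M v G p := by
      simp only [xd, gam_apply, D_neg, mul_neg, Finset.sum_neg_distrib]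
    rw [st.graph_Eb, en, e2, I.bgain]
    nlinarith [bb_nonneg st.M v p]
  refine ⟨st.graph sv sm, fun p => v p - T / 4,
    RR.graph st sv sm fun p hp => ⟨0, ((H p).2.1 ((h5 p).1 hp.le).le).1⟩,
    of_sm st.hM (sv.sub (sm_const _)),
    fun x => ⟨fun h => by linarith [(H x).2.2.1 h], fun h => by linarith [(H x).2.2.2.1 h]⟩,
    fun x hx => ⟨fun f hf => ?_, ?_, ?_, fun h => ?_, fun h => ?_⟩⟩
  · refine (st.graph_gam sv sm f f x).trans_le ?_
    rw [step_gam sv (sm_of st.hM hf) (sm_of st.hM hf)]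
    exact sub_le_self _ (mul_self_nonneg _)
  · have e := I.gam_comp_self (M := (st.graph sv sm).M) (w := v) sv (p := x)
      ((hasDerivAt_id' (v x)).sub_const (T / 4))
    refine e.trans_le ?_
    rw [st.graph_gam, chi_eq sv, one_pow, one_mul]
    exact (chi_lt_one _ _ _).le
  · refine le_trans ?_ (hE x)
    have := (H x).2.2.2.2.2 (hΓ x hx)
    change st.M.pre.Eb st.b x - _ - _ ≤ _
    linarith
  · refine le_trans ?_ (hE x)
    have := (H x).2.2.2.2.1 (Or.inl h)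
    change st.M.pre.Eb st.b x - _ ≤ _
    linarith
  · refine (bn_gb_le st.sm st.tan sv x).trans (add_le_of_nonpos_right ((bn_db_le sv x).trans ?_))
    rw [(In.flat st.b ((H x).2.1 h.le).1).2.2.1]
    simp

/-- **the instance** -/
def inst (hS : HStepStmt) [T2Space X] [SecondCountableTopology X]
    (ch : X → OpenPartialHomeomorph X (E (Fin d))) {om : X → ℝ} (ho : (algC ch).Sm om)
    (hc : IsCompact {p | om p ≤ 6}) : W3 d where
  Z := X
  A := algC ch
  L := {p | om p ≤ 6}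
  om := om
  om_sm := ho
  St := St ch
  ps := St.ps
  ps_p _ _ := rfl
  R := RR om
  R_refl := RR.refl om
  R_trans := RR.trans
  bn_bdd st := st.bn_bdd hc
  trace st x _ _ f t _ _ := trace_sq_le st.M x f t
  hstep := hS d X ch om ho hc
  drift st _ _ hl hf h := ⟨st.drift (sm_of st.hM hl) (sm_of st.hM hf), RR.drift ho st _ _ h,
    fun x _ => dr_psM st.hM st.sm (sm_of st.hM hl) (sm_of st.hM hf) x⟩
  buf := St.buf hc

theorem levI (hS : HStepStmt) (hL : LevStmt) {n : ℕ} (hn : 3 ≤ n) : LevI n := by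
  intro ι _ _ X _ _ _ _ _ M B om G C _ _ _ Λ K0 χ ρ f s S Pos Neg _ sB tB ho hc hΛ hK sχ sf ss h1 h2
  have e7 : ∀ p, (om p + 5) / 2 ≤ 6 ↔ om p ≤ 7 := fun p =>
    ⟨fun _ => by linarith, fun _ => by linarith⟩
  have so : (algC M.ch).Sm fun p => (om p + 5) / 2 :=
    ho.comp (g := fun t => (t + 5) / 2) (by fun_prop)
  obtain ⟨st', F, lam, r, le, sF, sl, v, g⟩ := hL n
    (inst hS M.ch so (by simpa only [e7] using hc)) G C Λ K0 ⟨ι, M, rfl, B, sB, tB⟩ χ ρ f s S Pos Neg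
    (by exact_mod_cast hn) hΛ hK sχ sf ss
    (fun x => ⟨fun h => (h1 x).1 (by change 5 ≤ (om x + 5) / 2 at h; linarith), (h1 x).2⟩)
    fun x hx => h2 x ((e7 x).1 hx)
  have k : ∀ p, 7 ≤ om p → 5 < (om p + 5) / 2 := fun p hp => by linarith
  exact ⟨st'.ι, st'.fin, st'.dec, st'.M, st'.b, F, lam,
    ⟨st'.hM, r.inj, fun p hp => r.same.gam p (k p hp), fun p hp => (r.eb p (k p hp)).ge⟩,
    fun a => of_sm st'.hM (st'.sm a), st'.tan, sF, sl, v,
    fun x hx => ⟨le x ((e7 x).2 hx), g x ((e7 x).2 hx)⟩⟩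

end Crest.Agent.N228.H

end
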