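import Crest.Agent.N222.A.Basic

/-!
# Row 228, part A' (helper10): pointwise states, the relations of one step, the world, `RoundStmt`

`PS` : the data of a state at one point.  `HS` : one heat step (shapes of helper28).
`DR` : the drift `b` becomes `b - l df`.  `W2` : states and oracles.
-/

set_option autoImplicit false
set_option linter.dupNamespace false
open Set

noncomputable section

namespace Crest.Agent.N228.H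

open Crest.Agent.N222.A

variable {Z : Type} {A : Alg Z}

/-- the data of a state `(g, b)` at one point: `Bd f = b(∇f)`, `Hq f = |Hess f|²`, `bn = |b|` -/
structure PS (A : Alg Z) where
  T : Pt A
  E : ℝ
  Lap : (Z → ℝ) → ℝ
  Bd : (Z → ℝ) → ℝ
  Hq : (Z → ℝ) → ℝ
  bn : ℝ
  lap_add : ∀ {f k : Z → ℝ}, A.Sm f → A.Sm k → Lap (fun z => f z + k z) = Lap f + Lap k
  bd_add : ∀ {f k : Z → ℝ}, A.Sm f → A.Sm k → Bd (fun z => f z + k z) = Bd f + Bd k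
  lap_const : ∀ c : ℝ, Lap (fun _ => c) = 0
  hq_add : ∀ {f k : Z → ℝ}, A.Sm f → A.Sm k → Hq (fun z => f z + k z) ≤ 2 * Hq f + 2 * Hq k
  hq_const : ∀ c : ℝ, Hq (fun _ => c) = 0
  hq_nonneg : ∀ f, 0 ≤ Hq f
  bn_nonneg : 0 ≤ bn
  bd_le : ∀ {f : Z → ℝ}, A.Sm f → Bd f ^ 2 ≤ bn ^ 2 * T.Γ f f

/-- `L = Δ + b(∇ ·)` -/
def PS.L (s : PS A) (f : Z → ℝ) : ℝ := s.Lap f + s.Bd f

/-- Fisher information of one label -/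
def PS.J (s : PS A) (f : Z → ℝ) : ℝ := s.T.Γ f f / f s.T.p

/-- **one heat step** at a point; `P = u² / (4 h w)`, `core` : the wall vanishes near the point -/
structure HS (n C η h w ε : ℝ) (core : Prop) (s s' : PS A) (P0 a u : Z → ℝ) (HH g : ℝ) : Prop where
  p : s'.T.p = s.T.p
  gam : ∀ f k, A.Sm f → A.Sm k →
    s'.T.Γ f k = s.T.Γ f k - s.T.Γ u f * s.T.Γ u k / (1 + s.T.Γ u u)
  HH0 : 0 ≤ HH
  g0 : 0 ≤ g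
  chi : s'.T.Γ u u ^ 2 ≤ h * g
  E : ∀ j0 α lam : ℝ, 0 ≤ j0 → s.T.Γ P0 P0 ≤ j0 * P0 s.T.p → 0 ≤ α → s.T.Γ a a ≤ α ^ 2 → 0 < lam →
    s.E - w / 2 * j0 - 2 * a s.T.p * P0 s.T.p + (1 - η) * (HH + s'.T.Γ u u ^ 2 / (8 * h)) + g / C
      - α * s'.T.Γ u u / (w * lam) - h * α * lam * (u s.T.p ^ 2 / (4 * h * w)) - C * h ^ 3 - ε ≤
    s'.E - s'.T.Γ u u / (2 * h) - 2 * a s.T.p * (u s.T.p ^ 2 / (4 * h * w))
  tr : ∀ γ θ : ℝ, 0 ≤ γ → 0 < θ → γ * s'.T.Γ u u / w ≤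
    γ * h * s'.Lap (fun z => u z ^ 2 / (4 * h * w)) + θ * HH
      + n * γ ^ 2 * h * (u s.T.p ^ 2 / (4 * h * w)) / (4 * w * θ) + γ * s'.T.Γ u u ^ 2 / (2 * w)
  heat : core → (h * s'.L (fun z => u z ^ 2 / (4 * h * w))
    - (u s.T.p ^ 2 / (4 * h * w) - P0 s.T.p)) ^ 2 ≤ C * h * s'.T.Γ u u * g + ε
  L : ∀ f, A.Sm f →
    (s'.L f - s.L f) ^ 2 ≤ 2 * s'.T.Γ u u ^ 2 * s.Hq f + C * s.T.Γ f f * (g + ε)
  lap : ∀ f, A.Sm f →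
    (s'.Lap f - s.Lap f) ^ 2 ≤ 2 * s'.T.Γ u u ^ 2 * s.Hq f + C * s.T.Γ f f * (g + ε)
  hq : ∀ f, A.Sm f → s'.Hq f ≤ 2 * s.Hq f + C * s.T.Γ f f * g
  hqP : h * s'.Hq (fun z => u z ^ 2 / (4 * h * w)) ≤ C * g
  bn : 1 + s'.bn ≤ (1 + s.bn) * (1 + C * (h + g) + ε)

/-- **the drift `b` becomes `b - l df`** -/
structure DR (s s' : PS A) (l f : Z → ℝ) : Prop where
  p : s'.T.p = s.T.p
  gam : ∀ k k', A.Sm k → A.Sm k' → s'.T.Γ k k' = s.T.Γ k k'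
  E : s.E + 2 * l s.T.p * s.L f + 2 * s.T.Γ l f - l s.T.p ^ 2 * s.T.Γ f f ≤ s'.E
  bn : s'.bn ≤ s.bn + |l s.T.p| * √(s.T.Γ f f)

/-- The abstract setting.  Nothing happens on `5 ≤ om`. -/
structure W2 (n : ℝ) where
  Z : Type
  A : Alg Z
  /-- the points at which inequalities are tracked -/
  L : Set Z
  om : Z → ℝ
  om_sm : A.Sm om
  St : Type 1
  ps : St → Z → PS A
  ps_p : ∀ st x, (ps st x).T.p = x
  /-- whatever the instance wants to remember (nothing changes far out) -/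
  R : St → St → Prop
  R_refl : ∀ st, R st st
  R_trans : ∀ {a b c : St}, R a b → R b c → R a c
  bn_bdd : ∀ st, ∃ B, ∀ x ∈ L, (ps st x).bn ≤ B
  trace : ∀ st x (G : Type) [Fintype G] (f : G → Z → ℝ) (t : G → ℝ), (∀ i, A.Sm (f i)) →
    (∀ i, 0 ≤ t i) → (∑ i, t i * (ps st x).T.Γ (f i) (f i)) ^ 2 ≤
      n * ∑ i, ∑ k, t i * t k * (ps st x).T.Γ (f i) (f k) ^ 2
  /-- the wall of the step sits in `1 ≤ o ≤ 5` -/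
  hstep : ∀ w0 w1 df Am η : ℝ, 0 < w0 → 0 < df → df ≤ 1 → 0 ≤ Am → 0 < η → η < 1 →
    ∃ C : ℝ, 1 ≤ C ∧ ∀ (h w ε : ℝ) (st : St) (P0 a o : Z → ℝ) (c : ℝ), 0 < h → h ≤ 1 → w0 ≤ w →
      w ≤ w1 → 0 < ε → A.Sm P0 → A.Sm a → A.Sm o → (∀ x, df ≤ P0 x ∧ P0 x ≤ 1) →
      (∀ x, 0 ≤ a x ∧ a x ≤ Am) → df ≤ c → c ≤ 1 → (∀ x, 1 ≤ o x → P0 x = c ∧ a x = 0) →
      (∀ x, 5 ≤ om x → 5 ≤ o x) → (∀ x ∈ L, (ps st x).T.Γ o o ≤ 1) →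
      ∃ (u : Z → ℝ) (st' : St), R st st' ∧ A.Sm u ∧ (∀ x, 0 < u x ∧ df ≤ u x ^ 2 / (4 * h * w) ∧
        u x ^ 2 / (4 * h * w) ≤ 1 ∧ (5 ≤ o x → u x ^ 2 / (4 * h * w) = c)) ∧
        ∀ x ∈ L, ∃ HH g, HS n C η h w ε (o x < 1) (ps st x) (ps st' x) P0 a u HH g
  drift : ∀ (st : St) (l f : Z → ℝ), A.Sm l → A.Sm f → (∀ x, 5 ≤ om x → l x = 0) →
    ∃ st' : St, R st st' ∧ ∀ x ∈ L, DR (ps st x) (ps st' x) l f

/-- total Fisher information -/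
def PS.I {G : Type} [Fintype G] (s : PS A) (P : G → Z → ℝ) : ℝ := ∑ y, s.J (P y)

/-- the excess of the total mass -/
def del {G : Type} [Fintype G] (P : G → Z → ℝ) (x : Z) : ℝ := ∑ y, P y x - 1

/-- the potential `E - (w / 2) I - 2 ∑ a P - π δ²` -/
def PS.Φ {G : Type} [Fintype G] (s : PS A) (w : ℝ) (a P : G → Z → ℝ) (pf : Z → ℝ) : ℝ :=
  s.E - w / 2 * s.I P - 2 * ∑ y, a y s.T.p * P y s.T.p - pf s.T.p * del P s.T.p ^ 2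

/-- **ROUND**: every label makes one step, then the drift tracks the total mass.
`γ = 0` is the crude method (valid everywhere), `γ > 0` the trace method. -/
def RoundStmt : Prop := ∀ (n : ℝ) (W : W2 n) (G : Type) [Fintype G] [DecidableEq G]
  (w0 w1 df Am η : ℝ), 1 ≤ n → 0 < w0 → 0 < df → df ≤ 1 → 0 ≤ Am → 0 < η → η < 1 →
  ∃ C : ℝ, 1 ≤ C ∧ ∀ sb πb ε : ℝ, 0 ≤ sb → 0 ≤ πb → 0 < ε → ∃ h0 κ : ℝ, 0 < h0 ∧ 0 < κ ∧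
  ∀ (h w : ℝ) (st : W.St) (P0 a : G → W.Z → ℝ) (o pf : W.Z → ℝ) (c : G → ℝ), 0 < h → h ≤ h0 →
    w0 ≤ w → w ≤ w1 → (∀ y, W.A.Sm (P0 y) ∧ W.A.Sm (a y) ∧ df ≤ c y ∧ c y ≤ 1 ∧ ∀ x,
      df ≤ P0 y x ∧ P0 y x ≤ 1 ∧ 0 ≤ a y x ∧ a y x ≤ Am ∧ (1 ≤ o x → P0 y x = c y ∧ a y x = 0)) →
    W.A.Sm o → W.A.Sm pf → (∀ x, 0 ≤ pf x ∧ pf x ≤ πb ∧ (1 ≤ o x → pf x = 0)) →
    (∀ x, 5 ≤ W.om x → 5 ≤ o x) →
    (∀ x ∈ W.L, (W.ps st x).T.Γ o o ≤ 1 ∧ (W.ps st x).T.Γ pf pf ≤ κ) →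
    ∃ (st' : W.St) (P : G → W.Z → ℝ), W.R st st' ∧
      (∀ y, W.A.Sm (P y) ∧ ∀ x, df ≤ P y x ∧ P y x ≤ 1 ∧ (5 ≤ o x → P y x = c y)) ∧
      ∀ x ∈ W.L, (∀ (f : W.Z → ℝ) (t : G → ℝ), W.A.Sm f →
          (W.ps st' x).T.Γ (fun z => f z + ∑ y, t y * P y z) (fun z => f z + ∑ y, t y * P y z) ≤
            (W.ps st x).T.Γ f f + ∑ y, t y ^ 2 / (h * w)) ∧
        ∃ S be : ℝ, 0 ≤ S ∧ 0 ≤ be ∧
          Real.log (1 + be) ≤ Real.log (1 + (W.ps st x).bn) + C * (h + S) ∧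
          Real.log (1 + (W.ps st' x).bn) ≤
            Real.log (1 + (W.ps st x).bn) + C * (h + S) + h * pf x * del P x ^ 2 ∧
          ∀ α lam γ : ℝ, 0 ≤ α → 0 < lam → α ≤ sb * lam → (∀ y, (W.ps st x).T.Γ (a y) (a y) ≤ α ^ 2) →
            0 ≤ γ → γ ≤ sb → (γ = 0 ∨ (o x < 1 ∧ γ ^ 2 * be ^ 2 ≤ ε * pf x)) →
            (W.ps st x).Φ w a P0 pf + γ * del P0 x + S
              - h * (n * γ ^ 2 / (4 * w * (1 - η)) + α * lam) * (1 + del P x) - ε * h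
              + (1 - η) * (h * w ^ 2 / (8 * n)) * (W.ps st' x).I P ^ 2 ≤
            (W.ps st' x).Φ w a P pf - h * (γ - α / lam - ε) * (W.ps st' x).I P + γ * del P x

/-- **CONVERT**: `P ↦ (1 - e) P + e c` -/
def ConvStmt : Prop := ∀ (Z : Type) (A : Alg Z) (s : PS A) (P e : Z → ℝ) (c df κ : ℝ), A.Sm P →
  A.Sm e → 0 < df → df ≤ P s.T.p → P s.T.p ≤ 1 → df ≤ c → c ≤ 1 → 0 ≤ e s.T.p → e s.T.p ≤ 1 →
  0 ≤ κ → s.T.Γ e e ≤ κ * e s.T.p →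
  s.J (fun z => (1 - e z) * P z + e z * c) ≤ (1 - e s.T.p) * s.J P + κ / df

end Crest.Agent.N228.H

end
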