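import Crest.Agent.N228.H.St1
import Crest.Agent.N228.H.PS

/-!
# Row 228, A' (helper28): the pointwise state of an immersed manifold, the drift move, the trace
-/

set_option autoImplicit false
set_option linter.unusedSectionVars false
open Set Filter Topology Function
open scoped ContDiff
open Crest.Agent.N222 Crest.Agent.N222.Imm Crest.Agent.N222.A Crest.Agent.N228.Cf

noncomputable section

namespace Crest.Agent.N228.H

variable {d : ℕ} {ι : Type} [Fintype ι] [DecidableEq ι] {X : Type} [TopologicalSpace X]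
  {ch : X → OpenPartialHomeomorph X (E (Fin d))}

/-- smooth functions of an atlas -/
def algC (ch : X → OpenPartialHomeomorph X (E (Fin d))) : Alg X where
  Sm := SmA ch
  const _ _ := contDiffOn_const
  add hf hh p := (hf p).add (hh p)
  mul hf hh p := (hf p).mul (hh p)
  comp _ hφ hU hf p := hφ.comp (hf p) fun _ _ => hU _

omit [DecidableEq ι] in
theorem sm_of {M : Imm d ι X} (hM : M.ch = ch) {f : X → ℝ} (hf : (algC ch).Sm f) : M.Sm f := by
  rw [Imm.Sm, hM]; exact hf

omit [DecidableEq ι] in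
theorem of_sm {M : Imm d ι X} (hM : M.ch = ch) {f : X → ℝ} (hf : M.Sm f) : (algC ch).Sm f := by
  rw [Imm.Sm, hM] at hf; exact hf

/-- the point calculus -/
def ptM (M : Imm d ι X) (hM : M.ch = ch) (p : X) : Pt (algC ch) where
  p := p
  Γ f h := M.pre.gam f h p
  symm _ _ := gam_comm M _ _ p
  add hf hg _ := by
    simp only [gam_apply, D_add ((sm_of hM hf).diffAt _) ((sm_of hM hg).diffAt _), add_mul,
      Finset.sum_add_distrib]
  mul hf hg _ := by
    simp only [gam_apply, D_mul ((sm_of hM hf).diffAt _) ((sm_of hM hg).diffAt _),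
      Finset.mul_sum, ← Finset.sum_add_distrib]
    exact Finset.sum_congr rfl fun _ _ => by ring
  chain hf _ _ hd := by
    simp only [gam_apply, D_comp ((sm_of hM hf).diffAt _) hd, Finset.mul_sum, mul_assoc]
  nonneg _ := gam_self_nonneg _ _

theorem hess_add {M : Imm d ι X} {f k : X → ℝ} (hf : M.Sm f) (hk : M.Sm k) (a c : ι) (p : X) :
    M.pre.hess (fun q => f q + k q) a c p = M.pre.hess f a c p + M.pre.hess k a c p := by
  have h1 : ∀ e, M.pre.D e (fun q => f q + k q) = fun q => M.pre.D e f q + M.pre.D e k q :=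
    fun e => funext fun q => D_add (hf.diffAt q) (hk.diffAt q) e
  simp only [hess_apply, h1, D_add ((hf.D _).diffAt p) ((hk.D _).diffAt p), mul_add,
    Finset.sum_add_distrib]

theorem hess_const (M : Imm d ι X) (r : ℝ) (a c : ι) (p : X) :
    M.pre.hess (fun _ => r) a c p = 0 := by
  have h1 : ∀ e, M.pre.D e (fun _ => r) = fun _ => 0 := fun e => funext fun q => D_const r e q
  simp only [hess_apply, h1, D_const, mul_zero, Finset.sum_const_zero]

/-- the pointwise state -/
def psM (M : Imm d ι X) (hM : M.ch = ch) (b : ι → X → ℝ) (p : X) : PS (algC ch) where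
  T := ptM M hM p
  E := M.pre.Eb b p
  Lap f := M.pre.lap f p
  Bd f := M.pre.dir b f p
  Hq f := hq M.pre f p
  bn := bn b p
  lap_add hf hk := lap_add (sm_of hM hf) (sm_of hM hk) p
  bd_add hf hk := by
    simp only [dir_apply, D_add ((sm_of hM hf).diffAt _) ((sm_of hM hk).diffAt _), mul_add,
      Finset.sum_add_distrib]
  lap_const c := lap_const c p
  hq_add {f k} hf hk := by
    simp only [hq, hess_add (sm_of hM hf) (sm_of hM hk), Finset.mul_sum, ← Finset.sum_add_distrib]
    exact Finset.sum_le_sum fun a _ => Finset.sum_le_sum fun c _ => by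
      nlinarith [sq_nonneg (M.pre.hess f a c p - M.pre.hess k a c p)]
  hq_const c := by simp [hq, hess_const]
  hq_nonneg f := hq_nonneg _ f p
  bn_nonneg := bn_nonneg b p
  bd_le _ := dir_sq_le _ _ _ _

/-- the drift `b - l df` -/
def drb (M : Imm d ι X) (b : ι → X → ℝ) (l f : X → ℝ) (a : ι) (p : X) : ℝ :=
  b a p + -l p * M.pre.D a f p

variable {M : Imm d ι X} {b : ι → X → ℝ} {l f : X → ℝ}

theorem sm_drb (hb : ∀ a, M.Sm (b a)) (hl : M.Sm l) (hf : M.Sm f) (a : ι) :
    M.Sm (drb M b l f a) := (hb a).add (hl.neg.mul (hf.D a))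

theorem tan_drb (tb : M.pre.Tan b) (l f : X → ℝ) : M.pre.Tan (drb M b l f) := by
  intro a
  funext p
  simp only [Finset.sum_apply, Pi.mul_apply, drb, mul_add, Finset.sum_add_distrib]
  rw [tan_apply tb, ← sum_P_D (M := M) f a p, Finset.mul_sum]
  congr 1
  exact Finset.sum_congr rfl fun c _ => by ring

theorem drb_of_zero {p : X} (h : l p = 0) (a : ι) : drb M b l f a p = b a p := by
  simp [drb, h]

theorem Eb_drb (hb : ∀ a, M.Sm (b a)) (hl : M.Sm l) (hf : M.Sm f) (p : X) :
    M.pre.Eb (drb M b l f) p = M.pre.Eb b p + 2 * l p * (M.pre.lap f p + M.pre.dir b f p)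
      + 2 * M.pre.gam l f p - l p ^ 2 * M.pre.gam f f p := by
  have h1 : M.pre.dv (drb M b l f) p = M.pre.dv b p - l p * M.pre.lap f p - M.pre.gam l f p := by
    rw [dv_apply, dv_apply, lap_apply, gam_apply, Finset.mul_sum, ← Finset.sum_sub_distrib,
      ← Finset.sum_sub_distrib]
    refine Finset.sum_congr rfl fun a _ => ?_
    have e := D_add (M := M) (p := p) ((hb a).diffAt p) ((hl.neg.mul (hf.D a)).diffAt p) a
    rw [D_mul (hl.neg.diffAt p) ((hf.D a).diffAt p), D_neg] at e
    refine e.trans ?_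
    ring
  have h2 : ∑ a, drb M b l f a p * drb M b l f a p = ∑ a, b a p * b a p
      - 2 * l p * M.pre.dir b f p + l p ^ 2 * M.pre.gam f f p := by
    rw [dir_apply, gam_apply, Finset.mul_sum, Finset.mul_sum, ← Finset.sum_sub_distrib,
      ← Finset.sum_add_distrib]
    exact Finset.sum_congr rfl fun a _ => by rw [drb]; ring
  rw [Eb_apply, Eb_apply, h1, h2]
  ring

theorem bn_drb_le (M : Imm d ι X) (b : ι → X → ℝ) (l f : X → ℝ) (p : X) :
    bn (drb M b l f) p ≤ bn b p + |l p| * √(M.pre.gam f f p) := by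
  refine (bn_add_le b (fun a q => -l q * M.pre.D a f q) p).trans (add_le_add_right (le_of_eq ?_) _)
  rw [← Real.sqrt_sq_eq_abs, ← Real.sqrt_mul (sq_nonneg _), gam_apply, Finset.mul_sum, bn]
  congr 1
  exact Finset.sum_congr rfl fun c _ => by ring

/-- **DRIFT** -/
theorem dr_psM (hM : M.ch = ch) (hb : ∀ a, M.Sm (b a)) (hl : M.Sm l) (hf : M.Sm f) (p : X) :
    DR (psM M hM b p) (psM M hM (drb M b l f) p) l f :=
  ⟨rfl, fun _ _ _ _ => rfl, (Eb_drb hb hl hf p).ge, bn_drb_le M b l f p⟩

/-- **TRACE** -/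
theorem trace_sq_le (M : Imm d ι X) (p : X) {G : Type} [Fintype G] (f : G → X → ℝ) (t : G → ℝ) :
    (∑ i, t i * M.pre.gam (f i) (f i) p) ^ 2 ≤
      d * ∑ i, ∑ k, t i * t k * M.pre.gam (f i) (f k) p ^ 2 := by
  classical
  have t3 : ∑ a, ∑ c, M.pre.P a c p ^ 2 = d := by
    rw [← M.tr_P p]
    refine Finset.sum_congr rfl fun a _ => ?_
    rw [← M.PP a a p]
    exact Finset.sum_congr rfl fun c _ => by rw [M.P_symm c a, sq]
  have h := Finset.sum_mul_sq_le_sq_mul_sq Finset.univ (fun x : ι × ι => M.pre.P x.1 x.2 p)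
    fun x => ∑ i, t i * (M.pre.D x.1 (f i) p * M.pre.D x.2 (f i) p)
  simp only [Fintype.sum_prod_type] at h
  have e1 : ∑ a, ∑ c, M.pre.P a c p * ∑ i, t i * (M.pre.D a (f i) p * M.pre.D c (f i) p) =
      ∑ i, t i * M.pre.gam (f i) (f i) p := by
    have e : ∀ a, ∑ c, M.pre.P a c p * ∑ i, t i * (M.pre.D a (f i) p * M.pre.D c (f i) p) =
        ∑ i, t i * (M.pre.D a (f i) p * M.pre.D a (f i) p) := fun a => by
      simp only [Finset.mul_sum]
      rw [Finset.sum_comm]
      refine Finset.sum_congr rfl fun i _ => ?_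
      have h1 : t i * (M.pre.D a (f i) p * M.pre.D a (f i) p) =
          t i * M.pre.D a (f i) p * ∑ c, M.pre.P a c p * M.pre.D c (f i) p := by
        rw [sum_P_D]; ring
      rw [h1, Finset.mul_sum]
      exact Finset.sum_congr rfl fun c _ => by ring
    simp only [e]
    rw [Finset.sum_comm]
    exact Finset.sum_congr rfl fun i _ => by rw [gam_apply, Finset.mul_sum]
  have e2 : ∑ a, ∑ c, (∑ i, t i * (M.pre.D a (f i) p * M.pre.D c (f i) p)) ^ 2 =
      ∑ i, ∑ k, t i * t k * M.pre.gam (f i) (f k) p ^ 2 := by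
    simp only [sq, gam_apply, Finset.sum_mul_sum]
    simp only [Finset.mul_sum]
    rw [Pre.IsDS.id_sum4]
    exact Finset.sum_congr rfl fun i _ => Finset.sum_congr rfl fun k _ =>
      Finset.sum_congr rfl fun a _ => Finset.sum_congr rfl fun c _ => by ring
  rwa [e1, e2, t3] at h

end Crest.Agent.N228.H

end
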