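import Crest.Agent.N228.H.Defs
import Crest.Agent.N228.H.St3
import Crest.Agent.N228.I.Wall
import Crest.Agent.N228.O.Same

/-!
# Row 228, A' (helper85): the states of the instance of `W3`, the relation `R`, the graph step
-/

set_option autoImplicit false
set_option linter.unusedSectionVars false
open Set Filter Topology Function
open scoped ContDiff
open Crest.Agent.N222 Crest.Agent.N222.Imm Crest.Agent.N222.A Crest.Agent.N228.Cf

noncomputable section

namespace Crest.Agent.N228.H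

variable {d : ℕ} {X : Type} [TopologicalSpace X]

/-- an immersion with the atlas `ch` and a smooth tangential drift -/
structure St (ch : X → OpenPartialHomeomorph X (E (Fin d))) : Type 1 where
  ι : Type
  [fin : Fintype ι]
  [dec : DecidableEq ι]
  M : Imm d ι X
  hM : M.ch = ch
  b : ι → X → ℝ
  sm : ∀ a, M.Sm (b a)
  tan : M.pre.Tan b

attribute [instance] St.fin St.dec

variable {ch : X → OpenPartialHomeomorph X (E (Fin d))}

/-- the pointwise state -/
def St.ps (st : St ch) (p : X) : PS (algC ch) := psM st.M st.hM st.b p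

/-- nothing changes on `5 < om`, embeddings stay embeddings -/
structure RR (om : X → ℝ) (st st' : St ch) : Prop where
  same : Same st.M st'.M {p | 5 < om p}
  eb : ∀ p, 5 < om p → st'.M.pre.Eb st'.b p = st.M.pre.Eb st.b p
  inj : Injective st.M.x → Injective st'.M.x

theorem RR.refl (om : X → ℝ) (st : St ch) : RR om st st := ⟨Same.refl _ _, fun _ _ => rfl, id⟩

theorem RR.trans {om : X → ℝ} {a b c : St ch} (h : RR om a b) (h' : RR om b c) : RR om a c :=
  ⟨h.same.trans h'.same, fun p hp => (h'.eb p hp).trans (h.eb p hp), fun i => h'.inj (h.inj i)⟩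

/-- the graph step -/
def St.graph (st : St ch) {v m : X → ℝ} (hv : st.M.Sm v) (hm : st.M.Sm m) : St ch where
  ι := Option st.ι
  M := st.M.graph v hv
  hM := st.hM
  b := gb st.M st.b v m
  sm := sm_gb st.sm hv hm
  tan := by rw [pre_graph hv]; exact (graph_id st.sm st.tan hv hm).1

theorem St.graph_pre (st : St ch) {v m : X → ℝ} (hv : st.M.Sm v) (hm : st.M.Sm m) :
    (st.graph hv hm).M.pre = stepS st.M.pre v := pre_graph hv

theorem St.graph_gam (st : St ch) {v m : X → ℝ} (hv : st.M.Sm v) (hm : st.M.Sm m) (f g : X → ℝ)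
    (p : X) : (st.graph hv hm).M.pre.gam f g p = (stepS st.M.pre v).gam f g p :=
  congrArg (fun S : Pre (X → ℝ) (Option st.ι) => S.gam f g p) (pre_graph hv)

theorem St.graph_Eb (st : St ch) {v m : X → ℝ} (hv : st.M.Sm v) (hm : st.M.Sm m) (p : X) :
    (st.graph hv hm).M.pre.Eb (st.graph hv hm).b p = st.M.pre.Eb st.b p + bb st.M v p
      + nf st.M st.b v m p ^ 2 - m p ^ 2 - 2 * xd st.M v (nf st.M st.b v m) p :=
  (congrArg (fun S : Pre (X → ℝ) (Option st.ι) => S.Eb (gb st.M st.b v m) p) (pre_graph hv)).trans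
    ((graph_id st.sm st.tan hv hm).2 p)

/-- the drift move -/
def St.drift (st : St ch) {l f : X → ℝ} (hl : st.M.Sm l) (hf : st.M.Sm f) : St ch where
  ι := st.ι
  M := st.M
  hM := st.hM
  b := drb st.M st.b l f
  sm := sm_drb st.sm hl hf
  tan := tan_drb st.tan l f

namespace In

variable {ι : Type} [Fintype ι] [DecidableEq ι] {M : Imm d ι X} {b : ι → X → ℝ} {v m : X → ℝ}
  {p : X} {s : ℝ}

theorem D_ev {w : X → ℝ} (h : ∀ᶠ q in 𝓝 p, w q = s) (a : ι) : M.pre.D a w p = 0 := by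
  rw [Imm.D_congr (g := fun _ => s) h, Imm.D_const]

theorem stepD_zero {g : X → ℝ} (h : ∀ a, M.pre.D a g p = 0) (c : Option ι) :
    (stepS M.pre v).D c g p = 0 := by
  cases c <;>
    simp [stepS, Pre.graph, Pre.dir, Finset.sum_apply, h]

/-- the geometry of a locally constant height -/
theorem flat (b : ι → X → ℝ) (hv : ∀ᶠ q in 𝓝 p, v q = s) :
    vv M.pre v p = 1 ∧ ww M.pre v p = 1 ∧ chi M v p = 0 ∧ (∀ g, xd M v g p = 0) ∧ hh M b v p = 0 ∧
      bb M v p = 0 := by
  have h1 : ∀ᶠ q in 𝓝 p, ∀ a, M.pre.D a v q = 0 :=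
    hv.eventually_nhds.mono fun q hq a => D_ev hq a
  have h2 : ∀ᶠ q in 𝓝 p, vv M.pre v q = 1 := h1.mono fun q hq => by
    simp [A.vv, Imm.gam_apply, hq]
  have h3 : ∀ a, ∀ᶠ q in 𝓝 p, M.pre.X v (vv M.pre v) a q = 0 := fun a => h1.mono fun q hq => by
    simp [Pre.X, hq]
  have h4 : hm M v p = 0 := by
    simp only [hm, Pre.dv, Finset.sum_apply]
    exact Finset.sum_eq_zero fun a _ => D_ev (h3 a) a
  have h0 := h2.self_of_nhds
  refine ⟨h0, by simpa [h0] using ww_mul_vv M v p, by simp [chi, h0],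
    fun g => by rw [xd, I.gam_ev hv, mul_zero], ?_, ?_⟩
  · have := h4
    simp only [hm] at this
    simp [hh, Pre.hb, this, Finset.sum_apply, fun a => (h3 a).self_of_nhds]
  · have k1 : ∀ a e, (stepS M.pre v).D a (M.pre.nu v (vv M.pre v) e) p = 0 := fun a e =>
      stepD_zero (fun a' => by
        cases e with
        | none => exact D_ev h2 a'
        | some e => exact D_ev (s := 0) ((h3 e).mono fun q hq => by simp [Pre.nu, hq]) a') a
    have k2 : ∀ a, (stepS M.pre v).D a (vv M.pre v) p = 0 := stepD_zero fun a => D_ev h2 a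
    simp only [stepS] at k1 k2
    simp [bb, Pre.a2, Pre.A, Pre.gam, stepS, Finset.sum_apply, k1, k2]

theorem inj_graph (hv : M.Sm v) (h : Injective M.x) : Injective (M.graph v hv).x :=
  fun _ _ e => h (congrArg down e)

end In

/-- a graph step with a height that is locally constant on `5 < om` (any `m`) -/
theorem RR.graph {om : X → ℝ} (st : St ch) {v m : X → ℝ} (hv : st.M.Sm v) (hm : st.M.Sm m)
    (h : ∀ p, 5 < om p → ∃ s, ∀ᶠ q in 𝓝 p, v q = s) : RR om st (st.graph hv hm) := by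
  refine ⟨⟨rfl, fun p hp f g hf hg => ?_⟩, fun p hp => ?_, In.inj_graph hv⟩
  · obtain ⟨s, hs⟩ := h p hp
    rw [st.graph_gam, step_gam hv hf hg, I.gam_ev hs]; ring
  · obtain ⟨s, hs⟩ := h p hp
    obtain ⟨h1, -, -, h4, h5, h6⟩ := In.flat (M := st.M) st.b hs
    rw [st.graph_Eb, h6, h4, nf, h1, h5]; ring

/-- the oracle `hstep` of the instance (`L = {om ≤ 6}`) -/
def HStepStmt : Prop := ∀ (d : ℕ) (X : Type) [TopologicalSpace X] [T2Space X]
  [SecondCountableTopology X] (ch : X → OpenPartialHomeomorph X (E (Fin d))) (om : X → ℝ),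
  (algC ch).Sm om → IsCompact {p | om p ≤ 6} →
  ∀ w0 w1 df Am η : ℝ, 0 < w0 → 0 < df → df ≤ 1 → 0 ≤ Am → 0 < η → η < 1 →
    ∃ C : ℝ, 1 ≤ C ∧ ∀ (h w ε : ℝ) (st : St ch) (P0 a o : X → ℝ) (c : ℝ), 0 < h → h ≤ 1 → w0 ≤ w →
      w ≤ w1 → 0 < ε → (algC ch).Sm P0 → (algC ch).Sm a → (algC ch).Sm o →
      (∀ x, df ≤ P0 x ∧ P0 x ≤ 1) →
      (∀ x, 0 ≤ a x ∧ a x ≤ Am) → df ≤ c → c ≤ 1 → (∀ x, 1 ≤ o x → P0 x = c ∧ a x = 0) →
      (∀ x, 5 ≤ om x → 5 ≤ o x) → (∀ x ∈ {p | om p ≤ 6}, (st.ps x).T.Γ o o ≤ 1) →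
      ∃ (u : X → ℝ) (st' : St ch), RR om st st' ∧ (algC ch).Sm u ∧
        (∀ x, 0 < u x ∧ df ≤ u x ^ 2 / (4 * h * w) ∧
          u x ^ 2 / (4 * h * w) ≤ 1 ∧ (5 ≤ o x → u x ^ 2 / (4 * h * w) = c)) ∧
        ∀ x ∈ {p | om p ≤ 6}, ∃ HH g,
          HS d C η h w ε (o x < 1) (st.ps x) (st'.ps x) P0 a u HH g

end Crest.Agent.N228.H

end
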