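import Crest.Agent.N228.H.Lev0

/-! # Row 228, part A' (levels): one level, all levels, `LevStmt` -/

set_option autoImplicit false
set_option linter.dupNamespace false
open Finset Filter Topology

noncomputable section

namespace Crest.Agent.N228.H

open Crest.Agent.N222.A

variable {n : ℝ}

namespace Lv

/-- the invariant: `U` accumulated colours, `B` the part still to be coloured -/
structure Inv (W : W3 n) {C : Type} (st : W.St) (y E0 : W.Z → ℝ) (Pos Neg : C → Set W.Z)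
    (ω a w : ℝ) (Y : W.Z → ℝ) (U : C → W.Z → ℝ) (B : W.Z → ℝ) : Prop where
  Ysm : W.A.Sm Y
  Usm : ∀ c, W.A.Sm (U c)
  Bsm : W.A.Sm B
  val : ∀ x, 0 ≤ B x ∧ B x ≤ cut (y x - 10) ∧ (B x ≠ 0 → 10 < y x ∧ 2 < Y x) ∧
    ∀ c, |U c x| ≤ cut (y x - 10) - B x ∧ (x ∈ Pos c → U c x = cut (y x - 10) - B x) ∧
      (x ∈ Neg c → U c x = -(cut (y x - 10) - B x))
  nr : ∀ x ∈ W.L, Nb (W.ps st x).T Y ω ∧ Nb (W.ps st x).T B a ∧ (∀ c, Nb (W.ps st x).T (U c) a) ∧
    E0 x ≤ (W.ps st x).E ∧ (0 < Y x → E0 x + w ≤ (W.ps st x).E)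

theorem level (hR : RunStmt) (W : W3 n) (G C : Type) [Fintype G] [DecidableEq G]
    {μ t g0 K0 : ℝ} (hn : 3 ≤ n) (hμ : 0 < μ) (ht : 0 < t) (hg : 0 < g0)
    (hw : 0 ≤ 148 / 5 * μ ^ 3 - 59 / 1000) :
    ∀ᶠ ω in 𝓝[>] (0 : ℝ), ∀ (st : W.St) (χ ρ : G → W.Z → ℝ) (y E0 : W.Z → ℝ) (S : C → Finset G)
      (Pos Neg : C → Set W.Z) (a w : ℝ) (Y : W.Z → ℝ) (U : C → W.Z → ℝ) (B : W.Z → ℝ),
      Dat W st χ ρ y K0 ω →
      (∀ c x, (x ∈ Pos c → ∀ g, g ∉ S c → ρ g x = 1) ∧ (x ∈ Neg c → ∀ g ∈ S c, ρ g x = 1)) →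
      g0 ≤ a → 13 / 2 * μ ^ 2 ≤ w → Inv W st y E0 Pos Neg ω a w Y U B →
      ∃ st' Y' U' B', W.R st st' ∧ W.Le st st' ∧ Inv W st' y (fun x => E0 x - 3 * t) Pos Neg ω
        (3 * a) (148 / 5 * μ ^ 3 - 59 / 1000) Y' U' B' := by
  have hc := cc_pos
  obtain ⟨r, hr, hr1, hr2, hr3⟩ := ((eventually_mem_nhdsWithin (a := (0 : ℝ)) (s := Set.Ioi 0)).and
    ((ev_small 1 (Real.sqrt_pos.2 ht)).and
    ((ev_small (Fintype.card G + 1 + 10 ^ 6) (by norm_num : (0 : ℝ) < 1 / 10 ^ 7)).and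
    (ev_small (2 * (cc * (Fintype.card G / (17 / 1000)))) (half_pos hg))))).exists
  replace hr : 0 < r := hr
  have hrt : r ^ 2 ≤ t := by
    have := pow_le_pow_left₀ (by positivity) hr1 2
    rwa [Real.sq_sqrt ht.le, one_mul] at this
  filter_upwards [self_mem_nhdsWithin, run1 hR W G (K0 := K0) hn hμ ht hr hrt hr2,
    ev_small cc (half_pos hg)] with ω hω0 H hω st χ ρ y E0 S Pos Neg a w Y U B hD hS ha hμw hI
  replace hω0 : 0 < ω := hω0
  obtain ⟨st2, P, m, R2, L2, sP, sm, hv, h2⟩ := H st χ ρ y Y E0 hD hI.Ysm fun x hx =>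
    ⟨(hI.nr x hx).1, (hI.nr x hx).2.2.2.1, fun h => by linarith [(hI.nr x hx).2.2.2.2 h]⟩
  obtain ⟨st3, z, R3, sz, hz, h3⟩ := W.buf st2 m (fun x => y x - 1) (37 / 100) (49 / 100)
    ((1002 / 243000) ^ 2) (3 / ω) t sm (Alg.sub_const hD.ysm 1) (by norm_num) (sq_nonneg _)
    (by positivity) ht (fun x => ⟨fun h => by linarith [hD.om x h], fun h => by
      rw [(hv x).2.2.1 (by linarith)]; norm_num⟩) (fun x hx _ h => ((h2 x hx).2.1 h).sq)
  have L3 : W.Le st2 st3 := fun x hx => (h3 x hx).1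
  have L := L2.trans L3
  set F : C → W.Z → ℝ := fun c x =>
    2 * cut (((∑ g ∈ S c, P (some g) x) - 491 / 1000) / (17 / 1000)) - 1 with hF
  set κ : W.Z → ℝ := fun x => cut (ω * z x - 2) with hκ
  have sF : ∀ c, W.A.Sm (F c) := fun c => Alg.sub_const (Alg.smul 2 (Alg.cut (Alg.div_const
    (Alg.sub_const (Alg.sum _ fun g _ => sP _) _) _))) 1
  have sκ : W.A.Sm κ := Alg.cut (Alg.sub_const (Alg.smul ω sz) 2)
  have Fa : ∀ c x, |F c x| ≤ 1 := fun c x => by
    simp only [hF]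
    generalize ((∑ g ∈ S c, P (some g) x) - 491 / 1000) / (17 / 1000) = u
    rw [abs_le]; constructor <;> linarith [cut_nonneg u, cut_le_one u]
  have κ0 : ∀ x, 0 ≤ κ x := fun x => cut_nonneg _
  have κ1 : ∀ x, κ x ≤ 1 := fun x => cut_le_one _
  have key : ∀ x, B x * (1 - κ x) ≠ 0 →
      ∀ c, (x ∈ Pos c → F c x = 1) ∧ (x ∈ Neg c → F c x = -1) := by
    intro x h c
    obtain ⟨a1, a2⟩ := (hI.val x).2.2.1 (left_ne_zero_of_mul h)
    have a3 := lt_of_cut_ne (s := ω * z x - 2) fun h' =>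
      right_ne_zero_of_mul h (by simp only [hκ, h', sub_self])
    have a4 : m x < 49 / 100 := lt_of_not_ge fun h' => by
      have := (hz x).2 h'
      rw [div_le_iff₀ hω0] at this
      linarith
    obtain ⟨a5, a6⟩ := (hv x).2.2.2 a1 a2 a4
    have nn : ∀ g, 0 ≤ ρ g x * P (some g) x := fun g => mul_nonneg (hD.val g x).2.2.1 ((hv x).1 _)
    constructor
    · intro hp
      have b1 := Finset.sum_add_sum_compl (S c) fun g => P (some g) x
      have b2 : ∑ g ∈ (S c)ᶜ, P (some g) x = ∑ g ∈ (S c)ᶜ, ρ g x * P (some g) x :=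
        Finset.sum_congr rfl fun g hg => by rw [(hS c x).1 hp g (Finset.mem_compl.1 hg), one_mul]
      have b3 := Finset.sum_le_univ_sum_of_nonneg (s := (S c)ᶜ) nn
      rw [Fintype.sum_option] at a5
      simp only [hF]
      rw [cut_one (by rw [le_div_iff₀ (by norm_num)]; linarith)]; norm_num
    · intro hp
      have b2 : ∑ g ∈ S c, P (some g) x = ∑ g ∈ S c, ρ g x * P (some g) x :=
        Finset.sum_congr rfl fun g hg => by rw [(hS c x).2 hp g hg, one_mul]
      have b3 := Finset.sum_le_univ_sum_of_nonneg (s := S c) nn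
      simp only [hF]
      rw [cut_zero (div_nonpos_of_nonpos_of_nonneg (by linarith [(hv x).1 none]) (by norm_num))]
      norm_num
  refine ⟨st3, fun x => ω * z x, fun c x => U c x + B x * (1 - κ x) * F c x, fun x => B x * κ x,
    W.R_trans R2 R3, L, Alg.smul ω sz,
    fun c => W.A.add (hI.Usm c) (W.A.mul (W.A.mul hI.Bsm (Alg.const_sub 1 sκ)) (sF c)),
    W.A.mul hI.Bsm sκ, fun x => ?_, fun x hx => ?_⟩
  · obtain ⟨b0, b1, b2, b3⟩ := hI.val x
    have p0 : 0 ≤ B x * (1 - κ x) := mul_nonneg b0 (sub_nonneg.2 (κ1 x))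
    refine ⟨mul_nonneg b0 (κ0 x), (mul_le_of_le_one_right b0 (κ1 x)).trans b1, fun h =>
      ⟨(b2 (left_ne_zero_of_mul h)).1, by linarith [pos_of_cut_ne (right_ne_zero_of_mul h)]⟩,
      fun c => ⟨?_, fun hp => ?_, fun hp => ?_⟩⟩
    · refine (abs_add_le _ _).trans ?_
      rw [abs_mul, abs_of_nonneg p0]
      linarith [mul_le_of_le_one_right p0 (Fa c x), (b3 c).1]
    · by_cases h : B x * (1 - κ x) = 0
      · rw [h, (b3 c).2.1 hp]; linarith
      · rw [(key x h c).1 hp, (b3 c).2.1 hp]; ring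
    · by_cases h : B x * (1 - κ x) = 0
      · rw [h, (b3 c).2.2 hp]; linarith
      · rw [(key x h c).2 hp, (b3 c).2.2 hp]; ring
  · obtain ⟨-, nB, nU, -, -⟩ := hI.nr x hx
    obtain ⟨b0, b1, -, -⟩ := hI.val x
    have nY : Nb (W.ps st3 x).T (fun x => ω * z x) ω := by
      simpa using (Nb.of_sq sz zero_le_one (by simpa using (h3 x hx).2.1)).smul ω hω0.le
    have nκ : Nb (W.ps st3 x).T κ (g0 / 2) := ((nY.sub_const 2).cut).mono hω
    have Ba : |B x| ≤ 1 := by rw [abs_of_nonneg b0]; exact b1.trans (cut_le_one _)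
    have hp := W.ps_p st3 x
    refine ⟨nY, ((L.nb hx nB).mul1 hp nκ Ba (abs_cut_le _)).mono (by linarith), fun c => ?_, ?_⟩
    · have nF : Nb (W.ps st3 x).T (F c) (g0 / 2) := by
        refine ((((((Nb.sum (S c) fun g _ => L3.nb hx ((h2 x hx).1 (some g))).sub_const
          (491 / 1000)).div (17 / 1000) (by norm_num)).cut).smul 2 (by norm_num)).sub_const 1).mono
          (le_trans ?_ hr3)
        have : ((S c).card : ℝ) ≤ Fintype.card G := by exact_mod_cast Finset.card_le_univ _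
        rw [Finset.sum_const, nsmul_eq_mul]
        calc _ ≤ 2 * (cc * (Fintype.card G * r / (17 / 1000))) := by gcongr
          _ = _ := by ring
      refine ((L.nb hx (nU c)).add (((L.nb hx nB).mul1 hp (nκ.const_sub 1) Ba
        (abs_one_sub_cut_le _)).mul1 hp nF ?_ (Fa c x))).mono (by linarith)
      rw [abs_mul]
      exact mul_le_one₀ Ba (abs_nonneg _) (abs_one_sub_cut_le _)
    · have e2 := (h2 x hx).2.2
      have e3 := (h3 x hx).2.2.1
      have m0 := (hv x).2.1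
      have μ3 : 0 < μ ^ 3 := by positivity
      have big : 37 / 100 ≤ m x → E0 x - 3 * t + (148 / 5 * μ ^ 3 - 59 / 1000) ≤ (W.ps st3 x).E := by
        intro h
        norm_num at e3
        nlinarith
      refine ⟨?_, fun h => big (le_of_not_ge fun h' => ?_)⟩
      · by_cases h : m x ≤ 37 / 100
        · nlinarith [(h3 x hx).2.2.2.1 h]
        · linarith [big (le_of_not_ge h)]
      · nlinarith [(hz x).1 h']

/-- the scales and the reserves -/
def mu (k : ℕ) : ℝ := 27 / 100 * (51 / 50) ^ k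

def ww : ℕ → ℝ
  | 0 => 13 / 2 * mu 0 ^ 2
  | k + 1 => 148 / 5 * mu k ^ 3 - 59 / 1000

theorem mu_pos (k : ℕ) : 0 < mu k := by unfold mu; positivity

theorem ww_ge (k : ℕ) : 13 / 2 * mu k ^ 2 ≤ ww k := by
  cases k with
  | zero => exact le_rfl
  | succ k =>
    have h : (1 : ℝ) ≤ (51 / 50) ^ k := one_le_pow₀ (by norm_num)
    simp only [ww, mu, pow_succ (51 / 50 : ℝ) k]
    generalize (51 / 50 : ℝ) ^ k = Q at h
    have h2 : 1 ≤ Q ^ 2 := one_le_pow₀ h
    have h3 : Q ^ 2 ≤ Q ^ 3 := pow_le_pow_right₀ h (by norm_num)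
    nlinarith

theorem ww_big (X : ℝ) : ∃ k, X ≤ ww k := by
  obtain ⟨k, hk⟩ := pow_unbounded_of_one_lt (3 * X) (by norm_num : (1 : ℝ) < 51 / 50)
  refine ⟨k, le_trans ?_ (ww_ge k)⟩
  have h : (1 : ℝ) ≤ (51 / 50) ^ k := one_le_pow₀ (by norm_num)
  simp only [mu]
  generalize (51 / 50 : ℝ) ^ k = Q at h hk
  nlinarith

end Lv

open Lv

theorem lev (hR : RunStmt) : LevStmt := by
  intro n W G C _ _ _ Λ K0 st χ ρ f s S Pos Neg hn hΛ hK sχ sf ss hv hL
  have hc := cc_pos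
  obtain ⟨k0, hk0⟩ := ww_big (Λ * (Fintype.card C * (2 * K0)))
  obtain ⟨g0, hg, ⟨hg1, hg3⟩, hg2⟩ := ((eventually_mem_nhdsWithin (a := (0 : ℝ)) (s := Set.Ioi 0)).and
    (((ev_small 1 one_pos).and (ev_small (8 * (3 ^ k0) ^ 2) one_pos)).and
      (ev_small (Λ * (Fintype.card C * (8 * (3 ^ k0) ^ 2) + 1))
      (by norm_num : (0 : ℝ) < 1 / 10 ^ 4)))).exists
  obtain ⟨t, ht, ht1⟩ := ((eventually_mem_nhdsWithin (a := (0 : ℝ)) (s := Set.Ioi 0)).and
    (ev_small (3 * k0) (by norm_num : (0 : ℝ) < 1 / 10 ^ 4))).exists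
  replace hg : 0 < g0 := hg
  replace ht : 0 < t := ht
  obtain ⟨ω, hω0, hω, H⟩ := ((eventually_mem_nhdsWithin (a := (0 : ℝ)) (s := Set.Ioi 0)).and
    ((ev_small cc hg).and ((Filter.eventually_all_finset (range k0)).2 fun k _ =>
      level hR W G C (K0 := K0) hn (mu_pos k) ht hg
        (le_trans (by positivity) (ww_ge (k + 1)))))).exists
  replace hω0 : 0 < ω := hω0
  obtain ⟨st0, z, R0, sz, hz, h0⟩ := W.buf st s s 1 101 2 (11 / ω) (1 / 10 ^ 4) ss ss (by norm_num)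
    (by norm_num) (by positivity) (by norm_num) (fun x => ⟨(hv x).1, id⟩) fun x hx => (hL x hx).1
  have L0 : W.Le st st0 := fun x hx => (h0 x hx).1
  set y : W.Z → ℝ := fun x => ω * z x with hy
  have sy : W.A.Sm y := Alg.smul ω sz
  have y0 : ∀ x, s x ≤ 1 → y x ≤ 0 := fun x h => mul_nonpos_of_nonneg_of_nonpos hω0.le ((hz x).1 h)
  have hD : Dat W st0 χ ρ y K0 ω :=
    ⟨sy, sχ, fun x h => y0 x (by linarith [(hv x).1 h]),
      fun x h => (hv x).2.1 (le_of_not_ge fun h' => by linarith [y0 x h']),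
      fun g x => (hv x).2.2.1 g,
      fun x hx => by
        simpa using (Nb.of_sq sz zero_le_one (by simpa using (h0 x hx).2.1)).smul ω hω0.le,
      fun x hx g => L0.nb hx (Nb.of_le (sχ g).1 ((hL x hx).2.1 g).1),
      fun x hx g => L0.nb hx (Nb.of_sq (sχ g).2 (by positivity)
        (by rw [div_pow, one_pow]; exact ((hL x hx).2.1 g).2))⟩
  have sl : W.A.Sm fun x => cut (y x - 10) := Alg.cut (Alg.sub_const sy 10)
  have nl : ∀ x ∈ W.L, Nb (W.ps st0 x).T (fun x => cut (y x - 10)) g0 := fun x hx =>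
    (((hD.ny x hx).sub_const 10).cut).mono hω
  have ind : ∀ k ≤ k0, ∃ st' Y U B, W.R st0 st' ∧ W.Le st0 st' ∧
      Inv W st' y (fun x => (W.ps st x).E - 9671 / 20000 - 3 * k * t) Pos Neg ω (3 ^ k * g0) (ww k)
        Y U B := by
    intro k
    induction k with
    | zero =>
      refine fun _ => ⟨st0, fun x => y x - 8, fun _ _ => 0, fun x => cut (y x - 10), W.R_refl _,
        W2.Le.refl _, Alg.sub_const sy 8, fun _ => W.A.const 0, sl, fun x => ⟨cut_nonneg _, le_rfl,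
          fun h => ⟨by linarith [pos_of_cut_ne h], by linarith [pos_of_cut_ne h]⟩, by simp⟩,
        fun x hx => ⟨(hD.ny x hx).sub_const 8, by simpa using nl x hx,
          fun _ => (Nb.const 0).mono (by positivity), ?_⟩⟩
      have := (h0 x hx).2.2.1
      simp only [ww, mu]
      norm_num at this ⊢
      exact ⟨by linarith, fun _ => by linarith⟩
    | succ k ih =>
      intro hk
      obtain ⟨st1, Y, U, B, R1, L1, hI⟩ := ih (by omega)
      obtain ⟨st2, Y', U', B', R2, L2, hI'⟩ := H k (Finset.mem_range.2 hk) st1 χ ρ y _ S Pos Neg _ _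
        Y U B (hD.mono L1) (fun c x => ⟨fun h => (((hv x).2.2.2 c).2.1 h).2,
          fun h => (((hv x).2.2.2 c).2.2 h).2⟩)
        (le_mul_of_one_le_left hg.le (one_le_pow₀ (by norm_num))) (ww_ge k) hI
      refine ⟨st2, Y', U', B', W.R_trans R1 R2, L1.trans L2, ?_⟩
      have e1 : (fun x => (W.ps st x).E - 9671 / 20000 - 3 * (k + 1 : ℕ) * t) =
          fun x => (W.ps st x).E - 9671 / 20000 - 3 * k * t - 3 * t := by
        funext x; push_cast; ring
      have e2 : (3 : ℝ) ^ (k + 1) * g0 = 3 * (3 ^ k * g0) := by ring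
      rw [e1, e2]; exact hI'
  obtain ⟨st1, Y, U, B, R1, L1, hI⟩ := ind k0 le_rfl
  refine ⟨st1, fun c x => U c x + B x * f c x, fun x => cut (y x - 10), W.R_trans R0 R1,
    L0.trans L1, fun c => W.A.add (hI.Usm c) (W.A.mul hI.Bsm (sf c)), sl, fun x => ?_,
    fun x hx => ?_⟩
  · obtain ⟨b0, -, -, b3⟩ := hI.val x
    refine ⟨cut_nonneg _, cut_le_one _, fun h => cut_zero (by linarith [y0 x h]),
      fun h => cut_one ?_, fun c => ⟨?_, fun hp => ?_, fun hp => ?_⟩⟩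
    · have := (hz x).2 h
      rw [div_le_iff₀ hω0] at this
      simp only [hy]; linarith
    · refine (abs_add_le _ _).trans ?_
      rw [abs_mul, abs_of_nonneg b0]
      linarith [mul_le_of_le_one_right b0 ((hv x).2.2.2 c).1, (b3 c).1]
    · simp only [(b3 c).2.1 hp, (((hv x).2.2.2 c).2.1 hp).1]; ring
    · simp only [(b3 c).2.2 hp, (((hv x).2.2.2 c).2.2 hp).1]; ring
  · obtain ⟨-, nB, nU, e1, e2⟩ := hI.nr x hx
    obtain ⟨b0, b1, b2, -⟩ := hI.val x
    have b1' := b1.trans (cut_le_one _)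
    have hF : ∀ c, (W.ps st1 x).T.Γ (fun x => U c x + B x * f c x) (fun x => U c x + B x * f c x) ≤
        8 * (3 ^ k0 * g0) ^ 2 + B x ^ 2 * (2 * K0) := fun c => by
      have h1 := ((nU c).add (nB.mul (W.ps_p st1 x)
        ((L0.trans L1).nb hx (Nb.of_le (sf c) ((hL x hx).2.2 c))) (abs_of_nonneg b0).le
        ((hv x).2.2.2 c).1)).sq
      have h2 : (B x * √K0) ^ 2 = B x ^ 2 * K0 := by rw [mul_pow, Real.sq_sqrt hK]
      nlinarith [sq_nonneg (2 * (3 ^ k0 * g0) - B x * √K0)]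
    have hS := Finset.sum_le_sum fun c (_ : c ∈ (univ : Finset C)) => hF c
    rw [Finset.sum_const, Finset.card_univ, nsmul_eq_mul] at hS
    have hl := (L1.nb hx (nl x hx)).sq
    have h1 := mul_le_mul_of_nonneg_left (add_le_add hS hl) hΛ
    have h2 : Λ * (Fintype.card C * (8 * (3 ^ k0) ^ 2) + 1) * g0 * g0 ≤ 1 / 10 ^ 4 * 1 :=
      mul_le_mul hg2 (by linarith) hg.le (by norm_num)
    have h3 : (W.ps st x).E - 9671 / 20000 - 3 * k0 * t +
        B x ^ 2 * (Λ * (Fintype.card C * (2 * K0))) ≤ (W.ps st1 x).E := by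
      by_cases h : B x = 0
      · rw [h]; linarith
      · have a1 := e2 (by linarith [(b2 h).2])
        have a2 : B x ^ 2 * (Λ * (Fintype.card C * (2 * K0))) ≤ Λ * (Fintype.card C * (2 * K0)) :=
          mul_le_of_le_one_left (by positivity) (by nlinarith)
        linarith
    have h4 : 8 * (3 ^ k0) ^ 2 * g0 * g0 ≤ 1 * 1 := mul_le_mul hg3 (by linarith) hg.le zero_le_one
    have h5 : B x ^ 2 * (2 * K0) ≤ 2 * K0 := mul_le_of_le_one_left (by positivity) (by nlinarith)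
    refine ⟨fun c => by linarith [hF c], hl.trans (pow_le_one₀ hg.le (by linarith)), by nlinarith⟩

end Crest.Agent.N228.H

end
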