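import Crest.Agent.N228.H.Nrm

/-! # Row 228, part A' (levels): the far collar and one run -/

set_option autoImplicit false
set_option linter.dupNamespace false
open Finset Filter Topology

noncomputable section

namespace Crest.Agent.N228.H.Lv

open Crest.Agent.N222.A

variable {n : ℝ}

/-- the static data; `y` is the normalised collar variable -/
structure Dat (W : W3 n) {G : Type} [Fintype G] (st : W.St) (χ ρ : G → W.Z → ℝ) (y : W.Z → ℝ)
    (K0 ω : ℝ) : Prop where
  ysm : W.A.Sm y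
  sm : ∀ g, W.A.Sm (χ g) ∧ W.A.Sm (ρ g)
  om : ∀ x, 5 ≤ W.om x → y x ≤ 0
  par : ∀ x, 0 < y x → ∑ g, χ g x = 1
  val : ∀ g x, 0 ≤ χ g x ∧ χ g x ≤ 1 ∧ 0 ≤ ρ g x ∧ ρ g x ≤ 1 ∧ χ g x * ρ g x = 0
  ny : ∀ x ∈ W.L, Nb (W.ps st x).T y ω
  nχ : ∀ x ∈ W.L, ∀ g, Nb (W.ps st x).T (χ g) √K0
  nρ : ∀ x ∈ W.L, ∀ g, Nb (W.ps st x).T (ρ g) (1 / (81 * n))

theorem Dat.mono {W : W3 n} {G : Type} [Fintype G] {st st' : W.St} {χ ρ : G → W.Z → ℝ}
    {y : W.Z → ℝ} {K0 ω : ℝ} (h : Dat W st χ ρ y K0 ω) (hL : W.Le st st') :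
    Dat W st' χ ρ y K0 ω :=
  ⟨h.ysm, h.sm, h.om, h.par, h.val, fun x hx => hL.nb hx (h.ny x hx),
    fun x hx g => hL.nb hx (h.nχ x hx g), fun x hx g => hL.nb hx (h.nρ x hx g)⟩

/-- the partition with the dummy label -/
def chi {Z G : Type} (χ : G → Z → ℝ) (y : Z → ℝ) : Option G → Z → ℝ
  | none => fun x => cut (8 - y x)
  | some g => fun x => χ g x * (1 - cut (8 - y x))

/-- the weights -/
def wa {Z G : Type} (At : ℝ) (ρ : G → Z → ℝ) (θ : Z → ℝ) : Option G → Z → ℝ
  | none => fun x => At * θ x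
  | some g => fun x => At * (ρ g x * θ x)

theorem run1 (hR : RunStmt) (W : W3 n) (G : Type) [Fintype G] [DecidableEq G] {μ t r K0 : ℝ}
    (hn : 3 ≤ n) (hμ : 0 < μ) (ht : 0 < t) (hr : 0 < r) (hrt : r ^ 2 ≤ t)
    (hr7 : (Fintype.card G + 1 + 10 ^ 6) * r ≤ 1 / 10 ^ 7) :
    ∀ᶠ ω in 𝓝[>] (0 : ℝ), ∀ (st : W.St) (χ ρ : G → W.Z → ℝ) (y Y E0 : W.Z → ℝ),
      Dat W st χ ρ y K0 ω → W.A.Sm Y → (∀ x ∈ W.L, Nb (W.ps st x).T Y ω ∧ E0 x ≤ (W.ps st x).E ∧
        (0 < Y x → E0 x + 13 / 2 * μ ^ 2 ≤ (W.ps st x).E)) →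
      ∃ (st' : W.St) (P : Option G → W.Z → ℝ) (m : W.Z → ℝ), W.R st st' ∧ W.Le st st' ∧
        (∀ g, W.A.Sm (P g)) ∧ W.A.Sm m ∧
        (∀ x, (∀ g, 0 ≤ P g x) ∧ 0 ≤ m x ∧ (y x ≤ 2 → m x = 0) ∧
          (10 < y x → 2 < Y x → m x < 49 / 100 → 999 / 1000 ≤ ∑ g, P g x ∧
            P none x + ∑ g, ρ g x * P (some g) x ≤ m x)) ∧
        ∀ x ∈ W.L, (∀ g, Nb (W.ps st' x).T (P g) r) ∧
          (m x ≤ 49 / 100 → Nb (W.ps st' x).T m (1002 / 243000)) ∧
          E0 x - 2 * t + 80 * μ ^ 3 * m x ≤ (W.ps st' x).E := by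
  have hc := cc_pos
  have hn0 : 0 < n := by linarith
  obtain ⟨τ1, hτ1, H⟩ := hR n W.toW2 G μ (r ^ 2) (2 * 10 ^ 6 * (40 * μ ^ 3)) (40 * μ ^ 3)
    ((√K0 + cc) ^ 2) (by linarith) hμ (by positivity) (by positivity) (by positivity) (sq_nonneg _)
  have hgap : 0 < 1 / (80 * n) - 1 / (81 * n) := by
    rw [sub_pos]; exact one_div_lt_one_div_of_lt (by positivity) (by linarith)
  filter_upwards [self_mem_nhdsWithin, ev_small 1 one_pos, ev_small (2 * cc) (Real.sqrt_pos.2 hτ1),
    ev_small (2 * cc) hgap, ev_small ((Fintype.card G + 1) * (2 * cc))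
      (by norm_num : (0 : ℝ) < 1 / 10 ^ 7),
    ev_small (2 * cc) (Real.sqrt_pos.2 (by positivity : 0 < t / 96))]
    with ω hω0 hω1 hω2 hω3 hω4 hω5 st χ ρ y Y E0 hD sY hY
  replace hω0 : 0 < ω := hω0
  obtain ⟨B0, hB0⟩ := W.bn_bdd st
  obtain ⟨τ, hτ, H⟩ := H B0
  obtain ⟨st1, o, R1, L1, so, ho, h1⟩ := far W st hD.ysm hτ ht (ω := ω) (by
    have := pow_le_pow_left₀ (by positivity) hω5 2
    rw [Real.sq_sqrt (by positivity)] at this
    linarith) hD.om hD.ny
  have hD1 := hD.mono L1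
  have sy := hD.ysm
  set θ : W.Z → ℝ := fun x => cut (y x - 9) * cut (Y x - 1) with hθ
  set vp : W.Z → ℝ := fun x => 1 - cut (y x - 8) * cut (Y x) with hvp
  have sθ : W.A.Sm θ := W.A.mul (Alg.cut (Alg.sub_const sy 9)) (Alg.cut (Alg.sub_const sY 1))
  have svp : W.A.Sm vp := Alg.const_sub 1 (W.A.mul (Alg.cut (Alg.sub_const sy 8)) (Alg.cut sY))
  have θ0 : ∀ x, 0 ≤ θ x := fun x => mul_nonneg (cut_nonneg _) (cut_nonneg _)
  have θ1 : ∀ x, θ x ≤ 1 := fun x => mul_le_one₀ (cut_le_one _) (cut_nonneg _) (cut_le_one _)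
  have θa : ∀ x, |θ x| ≤ 1 := fun x => by rw [abs_of_nonneg (θ0 x)]; exact θ1 x
  have θne : ∀ x, θ x ≠ 0 → 9 < y x ∧ vp x = 0 := fun x h => by
    have a1 := pos_of_cut_ne (left_ne_zero_of_mul h)
    have a2 := pos_of_cut_ne (right_ne_zero_of_mul h)
    refine ⟨by linarith, ?_⟩
    simp only [hvp, cut_one (s := y x - 8) (by linarith), cut_one (s := Y x) (by linarith)]
    ring
  have vlt : ∀ x, vp x ≠ 1 → 8 < y x ∧ 0 < Y x := fun x h => by
    have h' : cut (y x - 8) * cut (Y x) ≠ 0 := fun h0 => h (by simp only [hvp, h0, sub_zero])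
    exact ⟨by linarith [pos_of_cut_ne (left_ne_zero_of_mul h')],
      pos_of_cut_ne (right_ne_zero_of_mul h')⟩
  have nθ : ∀ x ∈ W.L, Nb (W.ps st1 x).T θ (2 * cc * ω) := fun x hx =>
    ((((hD1.ny x hx).sub_const 9).cut).mul1 (W.ps_p st1 x)
      ((L1.nb hx (hY x hx).1).sub_const 1).cut (abs_cut_le _) (abs_cut_le _)).mono
      (le_of_eq (by ring))
  have hAt : 0 ≤ 40 * μ ^ 3 := by positivity
  have ρa : ∀ g x, |ρ g x| ≤ 1 := fun g x => by
    rw [abs_of_nonneg (hD.val g x).2.2.1]; exact (hD.val g x).2.2.2.1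
  obtain ⟨st2, P, q, R2, L2, sP, sq, hv, h2⟩ := H st1 (chi χ y) (wa (40 * μ ^ 3) ρ θ) vp o
    (fun g => by
      cases g with
      | none => exact ⟨Alg.cut (Alg.const_sub 8 sy), Alg.smul _ sθ⟩
      | some g => exact ⟨W.A.mul (hD.sm g).1 (Alg.const_sub 1 (Alg.cut (Alg.const_sub 8 sy))),
          Alg.smul _ (W.A.mul (hD.sm g).2 sθ)⟩) svp so
    (fun x => by
      refine ⟨?_, fun g => ?_, ?_, ?_, fun h => ?_, fun h => ((ho x).2 (by linarith [hD.om x h])).ge⟩
      · rw [Fintype.sum_option]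
        simp only [chi, ← Finset.sum_mul]
        by_cases h : cut (8 - y x) = 1
        · rw [h]; ring
        · rw [hD.par x (by linarith [lt_of_cut_ne h])]; ring
      · have hz : vp x ≠ 0 → θ x = 0 := fun h => by
          by_contra h'; exact h (θne x h').2
        have := θ0 x
        have := θ1 x
        cases g with
        | none =>
          exact ⟨cut_nonneg _, mul_nonneg hAt (θ0 x), mul_le_of_le_one_right hAt (θ1 x),
            fun h => by simp only [wa, hz h, mul_zero]⟩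
        | some g =>
          obtain ⟨a1, -, a3, a4, -⟩ := hD.val g x
          exact ⟨mul_nonneg a1 (sub_nonneg.2 (cut_le_one _)), mul_nonneg hAt (mul_nonneg a3 (θ0 x)),
            mul_le_of_le_one_right hAt (mul_le_one₀ a4 (θ0 x) (θ1 x)),
            fun h => by simp only [wa, hz h, mul_zero]⟩
      · exact sub_nonneg.2 (mul_le_one₀ (cut_le_one _) (cut_nonneg _) (cut_le_one _))
      · exact sub_le_self _ (mul_nonneg (cut_nonneg _) (cut_nonneg _))
      · have h6 := (ho x).1 h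
        refine ⟨cut_one (by linarith), ?_⟩
        by_contra h'
        linarith [(vlt x h').1])
    (fun x hx => by
      have n8 := ((hD1.ny x hx).const_sub 8).cut
      have hcω : cc * ω ≤ cc := mul_le_of_le_one_right hc.le (by linarith)
      have e : μ ^ 3 / (2 * n) = 40 * μ ^ 3 * (1 / (80 * n)) := by field_simp; ring
      have h81 : 0 < 1 / (81 * n) := by positivity
      refine ⟨fun g => ?_, ?_, (h1 x hx).1, fun h => ((h1 x hx).2.2 (vlt x h.ne).1).trans (hB0 x hx)⟩
      · rw [e]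
        cases g with
        | none =>
          exact ⟨(n8.mono (by linarith [Real.sqrt_nonneg K0])).sq,
            (((nθ x hx).mono (by linarith)).smul _ hAt).sq⟩
        | some g =>
          refine ⟨(((hD1.nχ x hx g).mul1 (W.ps_p st1 x) (n8.const_sub 1) ?_
            (abs_one_sub_cut_le _)).mono (by linarith)).sq,
            ((((hD1.nρ x hx g).mul1 (W.ps_p st1 x) (nθ x hx) (ρa g x) (θa x)).mono
              (by linarith)).smul _ hAt).sq⟩
          rw [abs_of_nonneg (hD.val g x).1]; exact (hD.val g x).2.1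
      · have := (((((hD1.ny x hx).sub_const 8).cut).mul1 (W.ps_p st1 x)
          (L1.nb hx (hY x hx).1).cut (abs_cut_le _) (abs_cut_le _)).const_sub 1).mono
          (show _ ≤ √τ1 by linarith)
        exact this.sq.trans_eq (Real.sq_sqrt hτ1.le))
  set M : W.Z → ℝ := fun x => P none x + ∑ g, ρ g x * P (some g) x with hM
  have sM : W.A.Sm M := W.A.add (sP none) (Alg.sum _ fun g _ => W.A.mul (hD.sm g).2 (sP _))
  have M0 : ∀ x, 0 ≤ M x := fun x => add_nonneg ((hv x).1 none).1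
    (Finset.sum_nonneg fun g _ => mul_nonneg (hD.val g x).2.2.1 ((hv x).1 _).1)
  have M1 : ∀ x, M x ≤ Fintype.card G + 1 := fun x => by
    have : ∑ g, ρ g x * P (some g) x ≤ ∑ _g : G, (1 : ℝ) := Finset.sum_le_sum fun g _ =>
      mul_le_one₀ (hD.val g x).2.2.2.1 ((hv x).1 _).1 ((hv x).1 _).2
    simp only [Finset.sum_const, Finset.card_univ, nsmul_eq_mul, mul_one] at this
    simp only [hM]; linarith [((hv x).1 none).2]
  have hdel : ∀ x, θ x ≠ 0 → θ x * M x + 10 ^ 6 * q x ≤ 49 / 100 → |del P x| ≤ 1 / 1000 := by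
    intro x h hm
    have e := (hv x).2.2.1 (by rw [(θne x h).2]; norm_num)
    refine abs_le_of_sq_le_sq ?_ (by norm_num)
    nlinarith [mul_nonneg (θ0 x) (M0 x)]
  refine ⟨st2, P, fun x => θ x * M x + 10 ^ 6 * q x, W.R_trans R1 R2, L1.trans L2, sP,
    W.A.add (W.A.mul sθ sM) (Alg.smul _ sq), fun x => ⟨fun g => ((hv x).1 g).1,
      add_nonneg (mul_nonneg (θ0 x) (M0 x)) (mul_nonneg (by norm_num) (hv x).2.1), fun h => ?_,
      fun a1 a2 a3 => ?_⟩, fun x hx => ?_⟩
  · have a1 : θ x = 0 := by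
      by_contra h'; linarith [(θne x h').1]
    have a2 := (hv x).2.2.2 (by rw [(ho x).2 (by linarith)]; norm_num)
    simp only [a1, a2]; ring
  · have e : θ x = 1 := by
      simp only [hθ, cut_one (s := y x - 9) (by linarith), cut_one (s := Y x - 1) (by linarith),
        mul_one]
    have a4 := (abs_le.1 (hdel x (by rw [e]; norm_num) a3.le)).1
    refine ⟨by unfold del at a4; linarith, ?_⟩
    simp only [e, one_mul]
    exact le_add_of_nonneg_right (mul_nonneg (by norm_num) (hv x).2.1)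
  · have nP : ∀ g, Nb (W.ps st2 x).T (P g) r := fun g => Nb.of_sq (sP g) hr.le ((h2 x hx).1 g)
    have nq : Nb (W.ps st2 x).T q r := Nb.of_sq sq hr.le (h2 x hx).2.1
    refine ⟨nP, fun hm => ?_, ?_⟩
    · have nM : Nb (W.ps st2 x).T M
          ((Fintype.card G + 1) * r + (∑ g, P (some g) x) * (1 / (81 * n))) := by
        refine ((nP none).add (Nb.sum univ fun g _ => (L2.nb hx (hD1.nρ x hx g)).mul
          (W.ps_p st2 x) (nP (some g)) (ρa g x) (abs_of_nonneg ((hv x).1 _).1).le)).mono ?_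
        rw [Finset.sum_add_distrib, ← Finset.sum_mul univ (fun g => P (some g) x)]
        simp only [Finset.sum_const, Finset.card_univ, nsmul_eq_mul]
        linarith
      have Ma : |M x| ≤ Fintype.card G + 1 := by rw [abs_of_nonneg (M0 x)]; exact M1 x
      have hG : (0 : ℝ) ≤ Fintype.card G := Nat.cast_nonneg _
      by_cases h : θ x = 0
      · refine (((L2.nb hx (nθ x hx)).mul (u := 0) (W.ps_p st2 x) nM (by simp [h]) Ma).add
          (nq.smul _ (by norm_num))).mono ?_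
        nlinarith
      · have a4 := (abs_le.1 (hdel x h hm)).2
        unfold del at a4
        rw [Fintype.sum_option] at a4
        have a5 : (∑ g, P (some g) x) * (1 / (81 * n)) ≤ 1001 / 1000 * (1 / 243) := by
          refine mul_le_mul (by linarith [((hv x).1 none).1]) ?_ (by positivity) (by norm_num)
          exact one_div_le_one_div_of_le (by norm_num) (by linarith)
        refine (((L2.nb hx (nθ x hx)).mul (W.ps_p st2 x) nM (θa x) Ma).add
          (nq.smul _ (by norm_num))).mono ?_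
        nlinarith
    · have a1 := (h2 x hx).2.2
      have a2 : ∑ g, wa (40 * μ ^ 3) ρ θ g x * chi χ y g x = 0 := by
        refine Finset.sum_eq_zero fun g _ => ?_
        cases g with
        | none =>
          by_cases h : θ x = 0
          · simp only [wa, h, mul_zero, zero_mul]
          · simp only [chi, cut_zero (s := 8 - y x) (by linarith [(θne x h).1]), mul_zero]
        | some g =>
          simp only [wa, chi]
          linear_combination (40 * μ ^ 3 * θ x * (1 - cut (8 - y x))) * (hD.val g x).2.2.2.2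
      have a3 : ∑ g, wa (40 * μ ^ 3) ρ θ g x * P g x = 40 * μ ^ 3 * (θ x * M x) := by
        rw [Fintype.sum_option]
        simp only [wa, hM, mul_add, Finset.mul_sum]
        congr 1
        · ring
        · exact Finset.sum_congr rfl fun g _ => by ring
      have a4 : E0 x ≤ (W.ps st x).E - if vp x = 1 then 0 else 13 / 2 * μ ^ 2 := by
        split_ifs with h
        · linarith [(hY x hx).2.1]
        · linarith [(hY x hx).2.2 (vlt x h).2]
      rw [a2, a3] at a1
      linarith [(h1 x hx).2.1]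

end Crest.Agent.N228.H.Lv

end
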