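import Crest.Agent.N228.H.Defs

/-! # Row 228, part A' (levels): gradient bounds `|df| ≤ c` at a point, the far collar -/

set_option autoImplicit false
set_option linter.dupNamespace false
open Finset Filter Topology

noncomputable section

namespace Crest.Agent.N228.H

open Crest.Agent.N222.A

variable {Z : Type} {A : Alg Z}

/-- `f` is smooth and `|df| ≤ c` at the point -/
structure Nb (T : Pt A) (f : Z → ℝ) (c : ℝ) : Prop where
  sm : A.Sm f
  le : √(T.Γ f f) ≤ c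

namespace Nb

variable {T : Pt A} {f g : Z → ℝ} {a b : ℝ}

theorem nonneg (h : Nb T f a) : 0 ≤ a := (Real.sqrt_nonneg _).trans h.le

theorem of_sq (hf : A.Sm f) (ha : 0 ≤ a) (h : T.Γ f f ≤ a ^ 2) : Nb T f a :=
  ⟨hf, Real.sqrt_le_iff.2 ⟨ha, h⟩⟩

theorem of_le (hf : A.Sm f) (h : T.Γ f f ≤ a) : Nb T f √a := ⟨hf, Real.sqrt_le_sqrt h⟩

theorem sq (h : Nb T f a) : T.Γ f f ≤ a ^ 2 := (Real.sqrt_le_iff.1 h.le).2

theorem mono (h : Nb T f a) (hab : a ≤ b) : Nb T f b := ⟨h.sm, h.le.trans hab⟩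

theorem cross (h : Nb T f a) (h' : Nb T g b) : |T.Γ f g| ≤ a * b := by
  refine abs_le_of_sq_le_sq ((T.cs h.sm h'.sm).trans ?_) (mul_nonneg h.nonneg h'.nonneg)
  rw [mul_pow]
  exact mul_le_mul h.sq h'.sq (T.nonneg h'.sm) (sq_nonneg _)

theorem const (c : ℝ) : Nb T (fun _ => c) 0 :=
  of_sq (A.const c) le_rfl (by rw [T.const_left c (A.const c)]; simp)

theorem add (h : Nb T f a) (h' : Nb T g b) : Nb T (fun z => f z + g z) (a + b) := by
  refine of_sq (A.add h.sm h'.sm) (add_nonneg h.nonneg h'.nonneg) ?_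
  rw [T.add_self h.sm h'.sm]
  nlinarith [h.sq, h'.sq, (abs_le.1 (h.cross h')).2]

theorem mul {x : Z} {u v : ℝ} (hp : T.p = x) (h : Nb T f a) (h' : Nb T g b) (hu : |f x| ≤ u)
    (hv : |g x| ≤ v) : Nb T (fun z => f z * g z) (u * b + v * a) := by
  have u0 := (abs_nonneg _).trans hu
  have v0 := (abs_nonneg _).trans hv
  have a0 := h.nonneg
  have b0 := h'.nonneg
  refine of_sq (A.mul h.sm h'.sm) (by positivity) ?_
  rw [T.mul_self h.sm h'.sm, hp]
  have h1 : f x ^ 2 * T.Γ g g ≤ u ^ 2 * b ^ 2 :=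
    mul_le_mul (sq_le_sq' (abs_le.1 hu).1 (abs_le.1 hu).2) h'.sq (T.nonneg h'.sm) (sq_nonneg _)
  have h2 : g x ^ 2 * T.Γ f f ≤ v ^ 2 * a ^ 2 :=
    mul_le_mul (sq_le_sq' (abs_le.1 hv).1 (abs_le.1 hv).2) h.sq (T.nonneg h.sm) (sq_nonneg _)
  have h3 : f x * g x * T.Γ f g ≤ u * v * (a * b) := by
    refine (le_abs_self _).trans ?_
    rw [abs_mul, abs_mul]
    have := h.cross h'
    gcongr
  nlinarith

theorem comp {φ : ℝ → ℝ} {c d : ℝ} (h : Nb T f a) (hφ : A.Sm fun z => φ (f z))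
    (hd : HasDerivAt φ d (f T.p)) (hc : |d| ≤ c) : Nb T (fun z => φ (f z)) (c * a) := by
  have c0 := (abs_nonneg _).trans hc
  refine of_sq hφ (mul_nonneg c0 h.nonneg) ?_
  rw [T.chain_self h.sm hφ hd, mul_pow]
  exact mul_le_mul (sq_le_sq' (abs_le.1 hc).1 (abs_le.1 hc).2) h.sq (T.nonneg h.sm) (sq_nonneg _)

theorem smul (c : ℝ) (hc : 0 ≤ c) (h : Nb T f a) : Nb T (fun z => c * f z) (c * a) :=
  h.comp (φ := fun t => c * t) (Alg.smul c h.sm) (by simpa using (hasDerivAt_id _).const_mul c)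
    (abs_of_nonneg hc).le

theorem div (c : ℝ) (hc : 0 ≤ c) (h : Nb T f a) : Nb T (fun z => f z / c) (a / c) := by
  simpa only [div_eq_inv_mul] using h.smul c⁻¹ (inv_nonneg.2 hc)

theorem sub_const (c : ℝ) (h : Nb T f a) : Nb T (fun z => f z - c) a := by
  simpa only [one_mul] using h.comp (φ := fun t => t - c) (c := 1) (Alg.sub_const h.sm c)
    ((hasDerivAt_id _).sub_const c) (by simp)

theorem const_sub (c : ℝ) (h : Nb T f a) : Nb T (fun z => c - f z) a := by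
  simpa only [one_mul] using h.comp (φ := fun t => c - t) (c := 1) (Alg.const_sub c h.sm)
    ((hasDerivAt_id _).const_sub c) (by simp)

theorem cut (h : Nb T f a) : Nb T (fun z => cut (f z)) (cc * a) :=
  h.comp (Alg.cut h.sm) (hasDerivAt_cut _) (abs_deriv_cut_le _)

theorem cut0 {x : Z} (hp : T.p = x) (hf : A.Sm f) (h0 : f x ≤ 0 ∨ 1 ≤ f x) :
    Nb T (fun z => N222.A.cut (f z)) 0 := by
  simpa only [zero_mul] using (of_le hf le_rfl).comp (c := 0) (Alg.cut hf) (hasDerivAt_cut _)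
    (by rw [hp, cut_deriv_zero h0]; simp)

theorem sum {ι : Type} (s : Finset ι) {F : ι → Z → ℝ} {c : ι → ℝ} (h : ∀ i ∈ s, Nb T (F i) (c i)) :
    Nb T (fun z => ∑ i ∈ s, F i z) (∑ i ∈ s, c i) := by
  classical
  induction s using Finset.induction_on with
  | empty => simpa using const 0
  | insert i s hi ih =>
    simp only [Finset.sum_insert hi]
    exact (h i (Finset.mem_insert_self _ _)).add (ih fun j hj => h j (Finset.mem_insert_of_mem hj))

/-- product of two functions with values in `[-1, 1]` -/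
theorem mul1 {x : Z} (hp : T.p = x) (h : Nb T f a) (h' : Nb T g b) (hu : |f x| ≤ 1)
    (hv : |g x| ≤ 1) : Nb T (fun z => f z * g z) (a + b) :=
  (h.mul hp h' hu hv).mono (by linarith)

end Nb

theorem abs_cut_le (s : ℝ) : |cut s| ≤ 1 := by
  rw [abs_of_nonneg (cut_nonneg s)]; exact cut_le_one s

theorem abs_one_sub_cut_le (s : ℝ) : |1 - cut s| ≤ 1 := by
  rw [abs_le]; constructor <;> linarith [cut_nonneg s, cut_le_one s]

theorem pos_of_cut_ne {s : ℝ} (h : cut s ≠ 0) : 0 < s := lt_of_not_ge fun h' => h (cut_zero h')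

theorem lt_of_cut_ne {s : ℝ} (h : cut s ≠ 1) : s < 1 := lt_of_not_ge fun h' => h (cut_one h')

theorem cc_pos : 0 < cc := zero_lt_one.trans_le one_le_cc

theorem ev_small (c : ℝ) {e : ℝ} (he : 0 < e) : ∀ᶠ o in 𝓝[>] (0 : ℝ), c * o ≤ e := by
  have h : Tendsto (fun o : ℝ => c * o) (𝓝[>] 0) (𝓝 (c * 0)) :=
    (tendsto_const_nhds.mul tendsto_id).mono_left nhdsWithin_le_nhds
  rw [mul_zero] at h
  exact h.eventually (ge_mem_nhds he)

variable {n : ℝ}

theorem W2.Le.refl {W : W2 n} (st : W.St) : W.Le st st := fun _ _ _ _ => le_rfl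

theorem W2.Le.trans {W : W2 n} {a b c : W.St} (h : W.Le a b) (h' : W.Le b c) : W.Le a c :=
  fun x hx f hf => (h' x hx f hf).trans (h x hx f hf)

theorem W2.Le.nb {W : W2 n} {a b : W.St} (h : W.Le a b) {x : W.Z} (hx : x ∈ W.L) {f : W.Z → ℝ}
    {c : ℝ} (hf : Nb (W.ps a x).T f c) : Nb (W.ps b x).T f c :=
  ⟨hf.sm, (Real.sqrt_le_sqrt (h x hx f hf.sm)).trans hf.le⟩

/-- the far collar -/
theorem far (W : W3 n) (st : W.St) {y : W.Z → ℝ} {ω τ t : ℝ} (sy : W.A.Sm y) (hτ : 0 < τ)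
    (ht : 0 < t) (hω : 48 * (2 * cc * ω) ^ 2 ≤ t / 2) (h5 : ∀ x, 5 ≤ W.om x → y x ≤ 0)
    (hy : ∀ x ∈ W.L, Nb (W.ps st x).T y ω) :
    ∃ (st' : W.St) (o : W.Z → ℝ), W.R st st' ∧ W.Le st st' ∧ W.A.Sm o ∧
      (∀ x, (-1 ≤ o x → y x < 6) ∧ (y x ≤ 4 → o x = 1)) ∧ ∀ x ∈ W.L, (W.ps st' x).T.Γ o o ≤ τ ∧
        (W.ps st x).E - t ≤ (W.ps st' x).E ∧ (8 < y x → (W.ps st' x).bn ≤ (W.ps st x).bn) := by
  have hc := cc_pos
  have hs := Real.sqrt_pos.2 hτ
  have hT : 0 < 3 * cc / √τ := by positivity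
  obtain ⟨st', z, hR, sz, hz, h⟩ := W.buf st (fun x => cut (y x - 3) * cut (6 - y x))
    (fun x => (y x - 2) * (7 - y x) / 4) 0 1 ((2 * cc * ω) ^ 2) (3 * cc / √τ) (t / 2)
    (W.A.mul (Alg.cut (Alg.sub_const sy 3)) (Alg.cut (Alg.const_sub 6 sy)))
    (Alg.div_const (W.A.mul (Alg.sub_const sy 2) (Alg.const_sub 7 sy)) 4) one_pos (sq_nonneg _) hT
    (half_pos ht) (fun x => ⟨fun h => by nlinarith [h5 x h], fun h => by
      by_cases h3 : y x ≤ 3
      · rw [cut_zero (s := y x - 3) (by linarith), zero_mul]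
      · rw [cut_zero (s := 6 - y x) (by nlinarith), mul_zero]⟩)
    (fun x hx _ _ => (((((hy x hx).sub_const 3).cut).mul1 (W.ps_p st x)
      ((hy x hx).const_sub 6).cut (abs_cut_le _) (abs_cut_le _)).mono (le_of_eq (by ring))).sq)
  have hL : W.Le st st' := fun x hx => (h x hx).1
  have s1 : W.A.Sm fun x => 1 - cut (5 - y x) := Alg.const_sub 1 (Alg.cut (Alg.const_sub 5 sy))
  have s2 : W.A.Sm fun x => 1 - cut (z x / (3 * cc / √τ)) :=
    Alg.const_sub 1 (Alg.cut (Alg.div_const sz _))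
  refine ⟨st', fun x => 1 - 3 * ((1 - cut (5 - y x)) * (1 - cut (z x / (3 * cc / √τ)))), hR, hL,
    Alg.const_sub 1 (Alg.smul 3 (W.A.mul s1 s2)), fun x => ⟨fun ho => ?_, fun h4 => ?_⟩,
    fun x hx => ⟨?_, ?_, fun h8 => (h x hx).2.2.2.2 (by nlinarith)⟩⟩
  · by_contra h6
    have h7 := (hz x).1 (by rw [cut_zero (s := 6 - y x) (by linarith), mul_zero])
    simp only [cut_zero (s := 5 - y x) (by linarith),
      cut_zero (div_nonpos_of_nonpos_of_nonneg h7 hT.le)] at ho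
    linarith
  · simp only [cut_one (s := 5 - y x) (by linarith)]; ring
  · have n2 := (((Nb.of_sq sz zero_le_one (by simpa using (h x hx).2.1)).div _ hT.le).cut).const_sub 1
    have key : Nb (W.ps st' x).T
        (fun x => (1 - cut (5 - y x)) * (1 - cut (z x / (3 * cc / √τ)))) (√τ / 3) := by
      have e : cc * (1 / (3 * cc / √τ)) = √τ / 3 := by field_simp
      rw [e] at n2
      by_cases h45 : 5 - y x ≤ 0 ∨ 1 ≤ 5 - y x
      · exact (((Nb.cut0 (W.ps_p st' x) (Alg.const_sub 5 sy) h45).const_sub 1).mul1 (W.ps_p st' x)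
          n2 (abs_one_sub_cut_le _) (abs_one_sub_cut_le _)).mono (by linarith)
      · push Not at h45
        have h7 := (hz x).2 (by
          rw [cut_one (s := y x - 3) (by linarith), cut_one (s := 6 - y x) (by linarith), mul_one])
        refine ((Nb.of_le s1 le_rfl).mul (v := 0) (W.ps_p st' x) n2 (abs_one_sub_cut_le _) ?_).mono
          (by linarith)
        rw [cut_one ((one_le_div hT).2 h7)]; simp
    have := ((key.smul 3 (by norm_num)).const_sub 1).sq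
    rwa [show 3 * (√τ / 3) = √τ by ring, Real.sq_sqrt hτ.le] at this
  · have := (h x hx).2.2.1
    simp only [sub_zero, one_pow, div_one] at this
    linarith

end Crest.Agent.N228.H

end
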