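import Crest.Agent.N228.H.PS

/-!
# Row 228, part A' (helper10): first order consequences of one heat step, `ConvStmt`
-/

set_option autoImplicit false
set_option linter.dupNamespace false
open Set Finset

noncomputable section

namespace Crest.Agent.N228.H

open Crest.Agent.N222.A

variable {Z : Type} {A : Alg Z}

theorem conv : ConvStmt := by
  intro Z A s P e c df κ hP he hdf h1 h2 h3 h4 e0 e1 hκ hΓ
  have P0 : 0 < P s.T.p := hdf.trans_le h1
  have c0 : 0 < c := hdf.trans_le h3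
  set p := P s.T.p with hp
  set x := e s.T.p with hx
  have s1 : A.Sm fun z => (1 - e z) * P z := A.mul (Alg.const_sub 1 he) hP
  have s2 : A.Sm fun z => e z * c := Alg.mul_const he c
  have key : ∀ k, A.Sm k → s.T.Γ (fun z => (1 - e z) * P z + e z * c) k =
      (1 - x) * s.T.Γ P k + (c - p) * s.T.Γ e k := fun k hk => by
    rw [s.T.add s1 s2 hk, s.T.mul (Alg.const_sub 1 he) hP hk, s.T.mul he (A.const c) hk,
      s.T.sub_left (A.const 1) he hk, s.T.const_left 1 hk, s.T.const_left c hk]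
    ring
  have hs := A.add s1 s2
  have e2 : s.T.Γ (fun z => (1 - e z) * P z + e z * c) (fun z => (1 - e z) * P z + e z * c) =
      (1 - x) ^ 2 * s.T.Γ P P + 2 * (1 - x) * (c - p) * s.T.Γ P e + (c - p) ^ 2 * s.T.Γ e e := by
    rw [key _ hs, s.T.symm hP hs, s.T.symm he hs, key _ hP, key _ he, s.T.symm he hP]
    ring
  have pos : 0 < (1 - x) * p + x * c := by
    rcases eq_or_lt_of_le e0 with h | h
    · rw [← h]; linarith
    · have := mul_nonneg (sub_nonneg.2 e1) P0.le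
      have := mul_pos h c0
      linarith
  obtain ⟨J, hJ⟩ : ∃ J, J = s.T.Γ P P / p := ⟨_, rfl⟩
  have J0 : 0 ≤ J := hJ ▸ div_nonneg (s.T.nonneg hP) P0.le
  have eJ : s.T.Γ P P = J * p := by rw [hJ]; field_simp
  obtain ⟨m, hm⟩ : ∃ m, m = κ / df := ⟨_, rfl⟩
  have m0 : 0 ≤ m := hm ▸ div_nonneg hκ hdf.le
  have em : κ = m * df := by rw [hm]; field_simp
  have hcp : (c - p) ^ 2 ≤ 1 := by nlinarith
  have hB : (c - p) ^ 2 * s.T.Γ e e ≤ m * (x * c) := by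
    have h5 : (c - p) ^ 2 * s.T.Γ e e ≤ 1 * (κ * x) :=
      mul_le_mul hcp hΓ (s.T.nonneg he) zero_le_one
    have h6 : m * df * x ≤ m * c * x :=
      mul_le_mul_of_nonneg_right (mul_le_mul_of_nonneg_left h3 m0) e0
    rw [em] at h5; linarith
  have x1 : 0 ≤ 1 - x := sub_nonneg.2 e1
  have cs := s.T.cs hP he
  have hy : ((1 - x) * (c - p) * s.T.Γ P e) ^ 2 ≤
      ((1 - x) * J * (x * c)) * (m * ((1 - x) * p)) := by
    have h7 : (c - p) ^ 2 * s.T.Γ P e ^ 2 ≤ J * p * (m * (x * c)) := by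
      calc (c - p) ^ 2 * s.T.Γ P e ^ 2 ≤ (c - p) ^ 2 * (s.T.Γ P P * s.T.Γ e e) :=
            mul_le_mul_of_nonneg_left cs (sq_nonneg _)
        _ = J * p * ((c - p) ^ 2 * s.T.Γ e e) := by rw [eJ]; ring
        _ ≤ _ := mul_le_mul_of_nonneg_left hB (mul_nonneg J0 P0.le)
    calc _ = (1 - x) ^ 2 * ((c - p) ^ 2 * s.T.Γ P e ^ 2) := by ring
      _ ≤ (1 - x) ^ 2 * (J * p * (m * (x * c))) := mul_le_mul_of_nonneg_left h7 (sq_nonneg _)
      _ = _ := by ring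
  have a0 : 0 ≤ (1 - x) * J * (x * c) := by positivity
  have b0 : 0 ≤ m * ((1 - x) * p) := by positivity
  have hy2 : 2 * ((1 - x) * (c - p) * s.T.Γ P e) ≤
      (1 - x) * J * (x * c) + m * ((1 - x) * p) := by
    refine le_of_sq_le_sq_of_nonneg ?_ (add_nonneg a0 b0)
    nlinarith [sq_nonneg ((1 - x) * J * (x * c) - m * ((1 - x) * p))]
  unfold PS.J
  rw [← hp, ← hJ, ← hm, div_le_iff₀ pos, e2, eJ]
  nlinarith
where
  le_of_sq_le_sq_of_nonneg {a b : ℝ} (h : a ^ 2 ≤ b ^ 2) (hb : 0 ≤ b) : a ≤ b :=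
    (abs_le_of_sq_le_sq' h hb).2

/-- the new label -/
abbrev lab (h w : ℝ) (u : Z → ℝ) : Z → ℝ := fun z => u z ^ 2 / (4 * h * w)

theorem sm_lab (h w : ℝ) {u : Z → ℝ} (hu : A.Sm u) : A.Sm (lab h w u) :=
  Alg.div_const (Alg.pow hu 2) _

theorem gam_lab (T : Pt A) (h w : ℝ) {u k : Z → ℝ} (hu : A.Sm u) (hk : A.Sm k) :
    T.Γ (lab h w u) k = u T.p / (2 * h * w) * T.Γ u k := by
  refine T.chain (φ := fun t => t ^ 2 / (4 * h * w)) hu (sm_lab h w hu) hk ?_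
  have e : u T.p / (2 * h * w) = 2 * u T.p / (4 * h * w) := by
    rw [show 4 * h * w = 2 * (2 * h * w) by ring, mul_div_mul_left _ _ two_ne_zero]
  rw [e]
  simpa using (hasDerivAt_pow 2 (u T.p)).div_const (4 * h * w)

namespace HS

variable {n C η h w ε : ℝ} {core : Prop} {s s' : PS A} {P0 a u : Z → ℝ} {HH g : ℝ}
  (H : HS n C η h w ε core s s' P0 a u HH g) (hu : A.Sm u)
include H hu

theorem gam_u {k : Z → ℝ} (hk : A.Sm k) : s'.T.Γ u k = s.T.Γ u k / (1 + s.T.Γ u u) := by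
  have := s.T.nonneg hu
  rw [H.gam u k hu hk]; field_simp; ring

theorem chi1 : s'.T.Γ u u ≤ 1 := by
  have := s.T.nonneg hu
  rw [H.gam_u hu hu, div_le_one (by linarith)]; linarith

theorem le {f : Z → ℝ} (hf : A.Sm f) : s'.T.Γ f f ≤ s.T.Γ f f := by
  have := s.T.nonneg hu
  rw [H.gam f f hf hf, ← sq]
  have : 0 ≤ s.T.Γ u f ^ 2 / (1 + s.T.Γ u u) := by positivity
  linarith

theorem gam_PP (h0 : 0 < h) (w0 : 0 < w) :
    s'.T.Γ (lab h w u) (lab h w u) = s'.T.Γ u u * lab h w u s.T.p / (h * w) := by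
  rw [gam_lab _ h w hu (sm_lab h w hu), s'.T.symm hu (sm_lab h w hu), gam_lab _ h w hu hu, H.p]
  simp only [lab]; field_simp; ring

theorem J_lab (h0 : 0 < h) (w0 : 0 < w) (u0 : 0 < u s.T.p) :
    s'.J (lab h w u) = s'.T.Γ u u / (h * w) := by
  unfold PS.J
  rw [H.gam_PP hu h0 w0, H.p]
  simp only [lab]; field_simp

theorem gam_Pk (h0 : 0 < h) (w0 : 0 < w) {k : Z → ℝ} (hk : A.Sm k) :
    h * w * s'.T.Γ (lab h w u) k ^ 2 ≤ lab h w u s.T.p * (s.T.Γ k k - s'.T.Γ k k) := by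
  have t0 := s.T.nonneg hu
  rw [gam_lab _ h w hu hk, H.gam_u hu hk, H.gam k k hk hk, H.p]
  have e1 : h * w * (u s.T.p / (2 * h * w) * (s.T.Γ u k / (1 + s.T.Γ u u))) ^ 2 =
      lab h w u s.T.p * (s.T.Γ u k ^ 2 / (1 + s.T.Γ u u) ^ 2) := by
    simp only [lab]; field_simp; ring
  rw [e1]
  refine mul_le_mul_of_nonneg_left ?_ (by simp only [lab]; positivity)
  rw [sub_sub_cancel, ← sq]
  exact div_le_div_of_nonneg_left (sq_nonneg _) (by linarith) (by nlinarith)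

theorem budget (h0 : 0 < h) (w0 : 0 < w) (P1 : lab h w u s.T.p ≤ 1) {f : Z → ℝ} (hf : A.Sm f)
    (t : ℝ) : s'.T.Γ (fun z => f z + t * lab h w u z) (fun z => f z + t * lab h w u z) ≤
      s.T.Γ f f + t ^ 2 / (h * w) := by
  have t0 := s.T.nonneg hu
  have sP := sm_lab h w hu
  have sT := Alg.smul t sP
  rw [s'.T.add_self hf sT, s'.T.smul_right t sP hf, s'.T.smul_left t sP sT,
    s'.T.smul_right t sP sP, s'.T.symm hf sP, gam_lab _ h w hu hf, gam_lab _ h w hu sP,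
    s'.T.symm hu sP, gam_lab _ h w hu hu, H.gam f f hf hf, H.gam_u hu hf, H.gam_u hu hu, H.p]
  obtain ⟨r, hr⟩ : ∃ r, r = t * (u s.T.p / (2 * h * w)) := ⟨_, rfl⟩
  have e1 : r ^ 2 = t ^ 2 / (h * w) * lab h w u s.T.p := by
    rw [hr]; simp only [lab]; field_simp; ring
  have e2 : r ^ 2 ≤ t ^ 2 / (h * w) := by
    rw [e1]; exact mul_le_of_le_one_right (by positivity) P1
  have e3 : s.T.Γ f f - s.T.Γ u f * s.T.Γ u f / (1 + s.T.Γ u u)
      + 2 * (t * (u s.T.p / (2 * h * w) * (s.T.Γ u f / (1 + s.T.Γ u u))))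
      + t * (t * (u s.T.p / (2 * h * w) * (u s.T.p / (2 * h * w) * (s.T.Γ u u / (1 + s.T.Γ u u)))))
      = s.T.Γ f f + r ^ 2 - (s.T.Γ u f - r) ^ 2 / (1 + s.T.Γ u u) := by
    rw [hr]; field_simp; ring
  rw [e3]
  have : 0 ≤ (s.T.Γ u f - r) ^ 2 / (1 + s.T.Γ u u) := by positivity
  linarith

/-- the square norm of a Gram matrix drops -/
theorem gram_le {G : Type} (D : Finset G) (f : G → Z → ℝ) (t : G → ℝ) (hf : ∀ i ∈ D, A.Sm (f i))
    (ht : ∀ i ∈ D, 0 ≤ t i) : ∑ i ∈ D, ∑ k ∈ D, t i * t k * s'.T.Γ (f i) (f k) ^ 2 ≤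
      ∑ i ∈ D, ∑ k ∈ D, t i * t k * s.T.Γ (f i) (f k) ^ 2 := by
  have t0 := s.T.nonneg hu
  have sF : ∀ i ∈ D, A.Sm fun z => t i * s.T.Γ u (f i) * f i z := fun i hi => Alg.smul _ (hf i hi)
  have h1 := s'.T.nonneg (Alg.sum D sF)
  rw [s'.T.sum_left D sF (Alg.sum D sF)] at h1
  have h2 : ∑ i ∈ D, s'.T.Γ (fun z => t i * s.T.Γ u (f i) * f i z)
      (fun z => ∑ k ∈ D, t k * s.T.Γ u (f k) * f k z) = ∑ i ∈ D, ∑ k ∈ D,
        t i * t k * (s.T.Γ u (f i) * s.T.Γ u (f k) * s'.T.Γ (f i) (f k)) := by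
    refine sum_congr rfl fun i hi => ?_
    rw [s'.T.sum_right D sF (sF i hi)]
    refine sum_congr rfl fun k hk => ?_
    rw [s'.T.smul_left _ (hf i hi) (sF k hk), s'.T.smul_right _ (hf k hk) (hf i hi)]; ring
  rw [h2] at h1
  have h3 := mul_nonneg (by positivity : 0 ≤ 2 / (1 + s.T.Γ u u)) h1
  refine (le_add_of_nonneg_right h3).trans ?_
  rw [mul_sum, ← sum_add_distrib]
  refine sum_le_sum fun i hi => ?_
  rw [mul_sum, ← sum_add_distrib]
  refine sum_le_sum fun k hk => ?_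
  have e := H.gam (f i) (f k) (hf i hi) (hf k hk)
  obtain ⟨y, hy⟩ : ∃ y, y = s.T.Γ u (f i) * s.T.Γ u (f k) / (1 + s.T.Γ u u) := ⟨_, rfl⟩
  rw [← hy] at e
  have e2 : 2 / (1 + s.T.Γ u u) * (t i * t k * (s.T.Γ u (f i) * s.T.Γ u (f k) * s'.T.Γ (f i) (f k)))
      = t i * t k * (2 * y * s'.T.Γ (f i) (f k)) := by rw [hy]; field_simp
  rw [e2, ← mul_add, show s.T.Γ (f i) (f k) = s'.T.Γ (f i) (f k) + y by linarith]
  exact mul_le_mul_of_nonneg_left (by nlinarith [sq_nonneg y]) (mul_nonneg (ht i hi) (ht k hk))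

end HS

end Crest.Agent.N228.H

end
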