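import Crest.Agent.N228.H.Rd1

/-!
# Row 228, part A' (helper10): the invariant inside a round
-/

set_option autoImplicit false
set_option linter.dupNamespace false
open Set Finset

noncomputable section

namespace Crest.Agent.N228.H

open Crest.Agent.N222.A

variable {Z : Type} {A : Alg Z} {G : Type} [Fintype G] [DecidableEq G]

/-- square norm of the Fisher tensor of the new labels -/
def Xi (s : PS A) (D : Finset G) (P : G → Z → ℝ) : ℝ :=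
  ∑ i ∈ D, ∑ k ∈ D, (P i s.T.p)⁻¹ * (P k s.T.p)⁻¹ * s.T.Γ (P i) (P k) ^ 2

/-- the potential inside a round -/
def Pot (s : PS A) (D : Finset G) (w h σ ξ : ℝ) (a P0 P : G → Z → ℝ) : ℝ :=
  s.E - w / 2 * ∑ i ∈ Dᶜ, s.J (P0 i) - (w / 2 + h * σ) * ∑ i ∈ D, s.J (P i)
    - 2 * ∑ i ∈ D, a i s.T.p * (P i s.T.p - P0 i s.T.p) - ξ * (h * w ^ 2 / 8) * Xi s D P

/-- the sum of the new labels -/
abbrev sm (D : Finset G) (P : G → Z → ℝ) : Z → ℝ := fun z => ∑ i ∈ D, P i z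

section upd
variable {D : Finset G} {j : G} (hj : j ∉ D) (P : G → Z → ℝ) (Q : Z → ℝ)
include hj

omit [Fintype G] in
theorem upd_of_mem {i : G} (hi : i ∈ D) : Function.update P j Q i = P i :=
  Function.update_of_ne (ne_of_mem_of_not_mem hi hj) _ _

omit [Fintype G] in
theorem sum_upd (F : G → (Z → ℝ) → ℝ) :
    ∑ i ∈ insert j D, F i (Function.update P j Q i) = F j Q + ∑ i ∈ D, F i (P i) := by
  rw [sum_insert hj, Function.update_self]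
  congr 1
  exact sum_congr rfl fun i hi => by rw [upd_of_mem hj P Q hi]

omit [Fintype G] in
theorem sm_upd : sm (insert j D) (Function.update P j Q) = fun z => sm D P z + Q z := by
  funext z
  exact (sum_upd hj P Q fun _ f => f z).trans (add_comm _ _)

omit [Fintype G] in
theorem Xi_upd (s : PS A) (hP : ∀ i ∈ D, A.Sm (P i)) (hQ : A.Sm Q) :
    Xi s (insert j D) (Function.update P j Q) = (Q s.T.p)⁻¹ * (Q s.T.p)⁻¹ * s.T.Γ Q Q ^ 2
      + 2 * ∑ i ∈ D, (Q s.T.p)⁻¹ * (P i s.T.p)⁻¹ * s.T.Γ Q (P i) ^ 2 + Xi s D P := by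
  unfold Xi
  rw [sum_upd hj P Q fun _ f => ∑ k ∈ insert j D, (f s.T.p)⁻¹ *
    (Function.update P j Q k s.T.p)⁻¹ * s.T.Γ f (Function.update P j Q k) ^ 2,
    sum_upd hj P Q fun _ k => (Q s.T.p)⁻¹ * (k s.T.p)⁻¹ * s.T.Γ Q k ^ 2,
    sum_congr rfl fun i _ =>
      sum_upd hj P Q fun _ k => (P i s.T.p)⁻¹ * (k s.T.p)⁻¹ * s.T.Γ (P i) k ^ 2,
    sum_add_distrib, sum_congr rfl fun i hi => (by rw [s.T.symm (hP i hi) hQ]; ring :
      (P i s.T.p)⁻¹ * (Q s.T.p)⁻¹ * s.T.Γ (P i) Q ^ 2 =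
        (Q s.T.p)⁻¹ * (P i s.T.p)⁻¹ * s.T.Γ Q (P i) ^ 2)]
  ring

end upd

/-- the potential increases in one step -/
theorem pot_step {n C η h w ε : ℝ} {core : Prop} {s s' : PS A} {a P0 P : G → Z → ℝ} {u : Z → ℝ}
    {HH g : ℝ} {D : Finset G} {j : G} (hj : j ∉ D)
    (H : HS n C η h w ε core s s' (P0 j) (a j) u HH g) (hu : A.Sm u) (u0 : 0 < u s.T.p)
    (h0 : 0 < h) (w0 : 0 < w) (C0 : 0 < C) (η0 : 0 < η) (η1 : η < 1)
    (hP0 : ∀ i, A.Sm (P0 i) ∧ 0 < P0 i s.T.p) (hP : ∀ i ∈ D, A.Sm (P i) ∧ 0 < P i s.T.p)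
    {α lam γ : ℝ} (α0 : 0 ≤ α) (l0 : 0 < lam) (γ0 : 0 ≤ γ) (hα : s.T.Γ (a j) (a j) ≤ α ^ 2)
    (h1 : h * (α / lam) ≤ w / 4) (h2 : γ * h * C ≤ w) :
    Pot s D w h (γ - α / lam) (1 - η) a P0 P + g / (2 * C) - γ * h * s'.Lap (lab h w u)
      - h * (n * γ ^ 2 / (4 * w * (1 - η)) + α * lam) * lab h w u s.T.p - (C * h ^ 3 + ε) ≤
    Pot s' (insert j D) w h (γ - α / lam) (1 - η) a P0 (Function.update P j (lab h w u)) := by
  have sQ := sm_lab h w hu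
  have Q0 : 0 < lab h w u s.T.p := by simp only [lab]; positivity
  have η2 : 0 < 1 - η := sub_pos.2 η1
  have χ0 := s'.T.nonneg hu
  have jle : ∀ f, A.Sm f → 0 < f s.T.p → s'.J f ≤ s.J f := fun f hf f0 => by
    unfold PS.J; rw [H.p]; exact div_le_div_of_nonneg_right (H.le hu hf) f0.le
  have e1 : ∑ i ∈ Dᶜ, s.J (P0 i) = s.J (P0 j) + ∑ i ∈ (insert j D)ᶜ, s.J (P0 i) := by
    rw [compl_insert, add_sum_erase _ (fun i => s.J (P0 i)) (mem_compl.2 hj)]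
  have i1 : ∑ i ∈ (insert j D)ᶜ, s'.J (P0 i) ≤ ∑ i ∈ (insert j D)ᶜ, s.J (P0 i) :=
    sum_le_sum fun i _ => jle _ (hP0 i).1 (hP0 i).2
  have i2 : 0 ≤ ∑ i ∈ D, s.J (P i) - ∑ i ∈ D, s'.J (P i) :=
    sub_nonneg.2 (sum_le_sum fun i hi => jle _ (hP i hi).1 (hP i hi).2)
  have i3 : h * w * ∑ i ∈ D, (lab h w u s.T.p)⁻¹ * (P i s.T.p)⁻¹ * s'.T.Γ (lab h w u) (P i) ^ 2 ≤
      ∑ i ∈ D, s.J (P i) - ∑ i ∈ D, s'.J (P i) := by
    rw [mul_sum, ← sum_sub_distrib]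
    refine sum_le_sum fun i hi => ?_
    have k1 := H.gam_Pk hu h0 w0 (hP i hi).1
    have k2 := (hP i hi).2
    unfold PS.J
    rw [H.p, ← sub_div, le_div_iff₀ k2]
    calc _ = (lab h w u s.T.p)⁻¹ * (h * w * s'.T.Γ (lab h w u) (P i) ^ 2) := by field_simp
      _ ≤ (lab h w u s.T.p)⁻¹ * (lab h w u s.T.p * (s.T.Γ (P i) (P i) - s'.T.Γ (P i) (P i))) :=
        mul_le_mul_of_nonneg_left k1 (by positivity)
      _ = _ := by field_simp
  have i4 : Xi s' D P ≤ Xi s D P := by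
    unfold Xi; rw [H.p]
    exact H.gram_le hu D P (fun i => (P i s.T.p)⁻¹) (fun i hi => (hP i hi).1)
      fun i hi => inv_nonneg.2 (hP i hi).2.le
  have e2 : (lab h w u s.T.p)⁻¹ * (lab h w u s.T.p)⁻¹ * s'.T.Γ (lab h w u) (lab h w u) ^ 2 =
      s'.T.Γ u u ^ 2 / (h * w) ^ 2 := by
    rw [H.gam_PP hu h0 w0]; field_simp
  have hE := H.E (s.J (P0 j)) α lam (div_nonneg (s.T.nonneg (hP0 j).1) (hP0 j).2.le)
    (by unfold PS.J; rw [div_mul_cancel₀ _ (hP0 j).2.ne']) α0 hα l0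
  have hT := H.tr γ (1 - η) γ0 η2
  have i5 : γ * s'.T.Γ u u ^ 2 / (2 * w) ≤ g / (2 * C) := by
    rw [div_le_div_iff₀ (by positivity) (by positivity)]
    have k1 : γ * s'.T.Γ u u ^ 2 * C ≤ γ * (h * g) * C :=
      mul_le_mul_of_nonneg_right (mul_le_mul_of_nonneg_left H.chi γ0) C0.le
    have k2 : γ * h * C * g ≤ w * g := mul_le_mul_of_nonneg_right h2 H.g0
    linarith
  unfold Pot
  rw [Xi_upd hj P _ s' (fun i hi => (hP i hi).1) sQ, sum_upd hj P _ fun _ f => s'.J f, H.p,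
    sum_upd hj P _ fun i f => a i s.T.p * (f s.T.p - P0 i s.T.p), H.J_lab hu h0 w0 u0, e1, e2]
  obtain ⟨Y, hY⟩ : ∃ Y, Y = ∑ i ∈ D, s.J (P i) - ∑ i ∈ D, s'.J (P i) := ⟨_, rfl⟩
  obtain ⟨V, hV⟩ : ∃ V, V = ∑ i ∈ D, (lab h w u s.T.p)⁻¹ * (P i s.T.p)⁻¹ *
    s'.T.Γ (lab h w u) (P i) ^ 2 := ⟨_, rfl⟩
  rw [← hY] at i2 i3
  rw [← hV] at i3 ⊢
  have k1 : (1 - η) * (h * w ^ 2 / 8) * (2 * V) ≤ (w / 2 + h * (γ - α / lam)) * Y := by
    have k2 : (1 - η) * (w / 4) * (h * w * V) ≤ (1 - η) * (w / 4) * Y :=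
      mul_le_mul_of_nonneg_left i3 (by positivity)
    have k3 : (1 - η) * (w / 4) * Y ≤ (w / 2 + h * (γ - α / lam)) * Y :=
      mul_le_mul_of_nonneg_right (by
        have := mul_nonneg h0.le γ0
        have := mul_pos η0 w0
        rw [mul_sub h]; linarith) i2
    calc _ = (1 - η) * (w / 4) * (h * w * V) := by ring
      _ ≤ _ := k2.trans k3
  have k4 : (1 - η) * (h * w ^ 2 / 8) * Xi s' D P ≤ (1 - η) * (h * w ^ 2 / 8) * Xi s D P :=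
    mul_le_mul_of_nonneg_left i4 (by positivity)
  have k5 : w / 2 * ∑ i ∈ (insert j D)ᶜ, s'.J (P0 i) ≤ w / 2 * ∑ i ∈ (insert j D)ᶜ, s.J (P0 i) :=
    mul_le_mul_of_nonneg_left i1 (by positivity)
  have e3 : (w / 2 + h * (γ - α / lam)) * (s'.T.Γ u u / (h * w)) = s'.T.Γ u u / (2 * h)
      + γ * s'.T.Γ u u / w - α * s'.T.Γ u u / (w * lam) := by field_simp; ring
  have e4 : (1 - η) * (h * w ^ 2 / 8) * (s'.T.Γ u u ^ 2 / (h * w) ^ 2) =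
      (1 - η) * (s'.T.Γ u u ^ 2 / (8 * h)) := by field_simp
  have e5 : h * (n * γ ^ 2 / (4 * w * (1 - η)) + α * lam) * lab h w u s.T.p =
      n * γ ^ 2 * h * (u s.T.p ^ 2 / (4 * h * w)) / (4 * w * (1 - η))
        + h * α * lam * (u s.T.p ^ 2 / (4 * h * w)) := by simp only [lab]; ring
  have e6 : g / C = g / (2 * C) + g / (2 * C) := by field_simp; ring
  have e7 : ∑ i ∈ D, s.J (P i) = Y + ∑ i ∈ D, s'.J (P i) := by rw [hY]; ring
  rw [e5, e7]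
  simp only [lab] at *
  linarith

/-- the invariant inside a round -/
structure Inv (n C η h w sb c : ℝ) (core : Prop) (s0 s : PS A) (D : Finset G)
    (a P0 P : G → Z → ℝ) (S Θ SL : ℝ) : Prop where
  p : s.T.p = s0.T.p
  S0 : 0 ≤ S
  Θ0 : 0 ≤ Θ
  Θk : Θ ≤ 2 * D.card
  Θ2 : Θ ^ 2 ≤ c * (h * (S + h))
  gM : h * s.T.Γ (sm D P) (sm D P) ≤ c * Θ
  hM : h * s.Hq (sm D P) ≤ c * S
  dL : core → (h * s.L (sm D P) - ∑ i ∈ D, (P i s0.T.p - P0 i s0.T.p)) ^ 2 ≤ c * (h * Θ * S)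
  dLap : (h * s.Lap (sm D P) - h * SL) ^ 2 ≤ c * (h * Θ * S)
  bn : Real.log (1 + s.bn) ≤ Real.log (1 + s0.bn) + (C + 1) * (D.card * h + S)
  bud : ∀ (f : Z → ℝ) (t : G → ℝ), A.Sm f →
    s.T.Γ (fun z => f z + ∑ i ∈ D, t i * P i z) (fun z => f z + ∑ i ∈ D, t i * P i z) ≤
      s0.T.Γ f f + ∑ i ∈ D, t i ^ 2 / (h * w)
  pot : ∀ α lam γ : ℝ, 0 ≤ α → 0 < lam → α ≤ sb * lam → (∀ y, s0.T.Γ (a y) (a y) ≤ α ^ 2) →
    0 ≤ γ → γ ≤ sb → s0.E - w / 2 * s0.I P0 + S / (2 * C) - γ * h * SL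
      - h * (n * γ ^ 2 / (4 * w * (1 - η)) + α * lam) * sm D P s0.T.p
      - D.card * ((C + 2) * h ^ 2) ≤ Pot s D w h (γ - α / lam) (1 - η) a P0 P

theorem PS.bd_const (s : PS A) (c : ℝ) : s.Bd (fun _ => c) = 0 := by
  have := s.bd_le (A.const c)
  rw [s.T.const_left c (A.const c), mul_zero] at this
  exact pow_eq_zero_iff two_ne_zero |>.1 (le_antisymm this (sq_nonneg _))

theorem PS.L_add (s : PS A) {f k : Z → ℝ} (hf : A.Sm f) (hk : A.Sm k) :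
    s.L (fun z => f z + k z) = s.L f + s.L k := by
  unfold PS.L; rw [s.lap_add hf hk, s.bd_add hf hk]; ring

theorem inv_zero (n C η h w sb : ℝ) (core : Prop) (s : PS A) (a P0 P : G → Z → ℝ) :
    Inv n C η h w sb 1 core s s ∅ a P0 P 0 0 0 := by
  have e : sm (∅ : Finset G) P = fun _ => 0 := by funext z; simp [sm]
  refine ⟨rfl, le_rfl, le_rfl, by simp, by nlinarith [mul_self_nonneg h], ?_, ?_, fun _ => ?_, ?_,
    by simp, fun f t _ => by simp, fun α lam γ _ _ _ _ _ _ => by simp [Pot, Xi, PS.I, sm]⟩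
  · rw [e, s.T.const_left 0 (A.const 0)]; simp
  · rw [e, s.hq_const]; simp
  · rw [e, PS.L, s.lap_const, s.bd_const]; simp
  · rw [e, s.lap_const]; simp

theorem Inv.le {n C η h w sb c : ℝ} {core : Prop} {s0 s : PS A} {D : Finset G}
    {a P0 P : G → Z → ℝ} {S Θ SL : ℝ} (I : Inv n C η h w sb c core s0 s D a P0 P S Θ SL)
    {f : Z → ℝ} (hf : A.Sm f) : s.T.Γ f f ≤ s0.T.Γ f f := by
  simpa using I.bud f (fun _ => 0) hf

end Crest.Agent.N228.H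

end
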