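import Crest.Agent.N228.H.Rd2

/-!
# Row 228, part A' (helper10): the invariant is kept by a step; all labels make one step
-/

set_option autoImplicit false
set_option linter.dupNamespace false
open Set Finset

noncomputable section

namespace Crest.Agent.N228.H

open Crest.Agent.N222.A

variable {Z : Type} {A : Alg Z} {G : Type} [Fintype G] [DecidableEq G]

theorem three {D0 D1 D2 c C h Θ S χ g Hq Γ Q : ℝ} (c1 : 1 ≤ c) (C0 : 0 ≤ C) (h0 : 0 < h)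
    (h1 : h ≤ 1) (Θ0 : 0 ≤ Θ) (S0 : 0 ≤ S) (χ0 : 0 ≤ χ) (χ1 : χ ≤ 1) (g0 : 0 ≤ g)
    (hQ : 12 + 6 * C ≤ Q) (i0 : D0 ^ 2 ≤ c * (h * Θ * S))
    (i1 : D1 ^ 2 ≤ 2 * χ ^ 2 * Hq + C * Γ * (g + h ^ 4)) (i2 : D2 ^ 2 ≤ C * h * χ * g + h ^ 4)
    (i3 : h * Hq ≤ c * S) (i4 : h * Γ ≤ c * Θ) :
    (D0 + h * D1 + D2) ^ 2 ≤ Q * c * (h * (Θ + (χ + h)) * (S + (g + h ^ 2))) := by
  obtain ⟨X, hX⟩ : ∃ X, X = h * (Θ + (χ + h)) * (S + (g + h ^ 2)) := ⟨_, rfl⟩
  have h4 : h ^ 4 ≤ h ^ 2 := pow_le_pow_of_le_one h0.le h1 (by norm_num)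
  have h2 : 0 ≤ h ^ 2 := sq_nonneg _
  have m : ∀ x y, 0 ≤ x → x ≤ Θ + (χ + h) → 0 ≤ y → y ≤ S + (g + h ^ 2) → h * x * y ≤ X :=
    fun x y x0 hx y0 hy => by rw [hX]; gcongr
  have X0 : 0 ≤ X := by rw [hX]; positivity
  have cX : X ≤ c * X := le_mul_of_one_le_left X0 c1
  have c0 : 0 ≤ c := by linarith
  have j0 : D0 ^ 2 ≤ c * X :=
    i0.trans (mul_le_mul_of_nonneg_left (m _ _ Θ0 (by linarith) S0 (by linarith)) c0)
  have j1 : (h * D1) ^ 2 ≤ (2 + C) * (c * X) := by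
    have k1 : h * χ ^ 2 * (h * Hq) ≤ h * χ ^ 2 * (c * S) :=
      mul_le_mul_of_nonneg_left i3 (by positivity)
    have k2 : h * χ ^ 2 * S ≤ X := m _ _ (sq_nonneg _) (by nlinarith) S0 (by linarith)
    have k3 : C * h * (g + h ^ 4) * (h * Γ) ≤ C * h * (g + h ^ 4) * (c * Θ) :=
      mul_le_mul_of_nonneg_left i4 (by positivity)
    have k4 : h * Θ * (g + h ^ 4) ≤ X := m _ _ Θ0 (by linarith) (by positivity) (by linarith)
    have k5 := mul_le_mul_of_nonneg_left i1 h2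
    have k6 := mul_le_mul_of_nonneg_left k2 c0
    have k7 := mul_le_mul_of_nonneg_left k4 (mul_nonneg C0 c0)
    calc (h * D1) ^ 2 = h ^ 2 * D1 ^ 2 := by ring
      _ ≤ _ := k5
      _ = 2 * (h * χ ^ 2 * (h * Hq)) + C * h * (g + h ^ 4) * (h * Γ) := by ring
      _ ≤ 2 * (h * χ ^ 2 * (c * S)) + C * h * (g + h ^ 4) * (c * Θ) := by linarith
      _ = 2 * (c * (h * χ ^ 2 * S)) + C * c * (h * Θ * (g + h ^ 4)) := by ring
      _ ≤ 2 * (c * X) + C * c * X := by linarith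
      _ = _ := by ring
  have j2 : D2 ^ 2 ≤ (C + 1) * (c * X) := by
    have k1 : h * χ * g ≤ X := m _ _ χ0 (by linarith) g0 (by linarith)
    have k2 : h * h * h ^ 2 ≤ X := m _ _ h0.le (by linarith) h2 (by linarith)
    have k3 := mul_le_mul_of_nonneg_left (k1.trans cX) C0
    calc D2 ^ 2 ≤ _ := i2
      _ = C * (h * χ * g) + h * h * h ^ 2 := by ring
      _ ≤ C * (c * X) + c * X := by linarith
      _ = _ := by ring
  have j3 : (12 + 6 * C) * (c * X) ≤ Q * (c * X) :=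
    mul_le_mul_of_nonneg_right hQ (mul_nonneg c0 X0)
  rw [← hX]
  nlinarith [sq_nonneg (D0 - h * D1), sq_nonneg (D0 - D2), sq_nonneg (h * D1 - D2)]

theorem Inv.step {n C η h w w0 sb c K Q : ℝ} {core : Prop} {s0 s s' : PS A} {D : Finset G}
    {a P0 P : G → Z → ℝ} {S Θ SL : ℝ} (I : Inv n C η h w sb c core s0 s D a P0 P S Θ SL) {j : G}
    (hj : j ∉ D) {u : Z → ℝ} {HH g : ℝ} (H : HS n C η h w (h ^ 4) core s s' (P0 j) (a j) u HH g)
    (hu : A.Sm u) (u0 : 0 < u s0.T.p) (u1 : lab h w u s0.T.p ≤ 1) (h0 : 0 < h) (h1 : h ≤ 1)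
    (w00 : 0 < w0) (hw : w0 ≤ w) (C1 : 1 ≤ C) (c1 : 1 ≤ c) (η0 : 0 < η) (η1 : η < 1)
    (hK : (D.card : ℝ) ≤ K) (hQ : 12 + 6 * C + 2 / w0 + 4 * C * K ≤ Q) (h2 : h * sb ≤ w / 4)
    (h3 : sb * h * C ≤ w) (ha : A.Sm (a j)) (hP0 : ∀ i, A.Sm (P0 i) ∧ 0 < P0 i s0.T.p)
    (hP : ∀ i ∈ D, A.Sm (P i) ∧ 0 < P i s0.T.p) :
    Inv n C η h w sb (Q * c) core s0 s' (insert j D) a P0 (Function.update P j (lab h w u))
      (S + (g + h ^ 2)) (Θ + (s'.T.Γ u u + h)) (SL + s'.Lap (lab h w u)) := by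
  have w0' : 0 < w := w00.trans_le hw
  have sQ := sm_lab h w hu
  have sM : A.Sm (sm D P) := Alg.sum D fun i hi => (hP i hi).1
  have χ0 := s'.T.nonneg hu
  have χ1 := H.chi1 hu
  have g0 := H.g0
  have S0 := I.S0
  have Θ0 := I.Θ0
  have K0 : 0 ≤ K := (Nat.cast_nonneg _).trans hK
  have C0 : 0 ≤ C := by linarith
  have c0 : 0 ≤ c := by linarith
  have q1 : 0 ≤ 2 / w0 := by positivity
  have q2 : 0 ≤ 4 * C * K := by positivity
  have h22 : 0 ≤ h ^ 2 := sq_nonneg _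
  have cd : (((insert j D).card : ℕ) : ℝ) = D.card + 1 := by
    rw [card_insert_of_notMem hj]; push_cast; ring
  have up : ∀ x y, 0 ≤ y → x ≤ Q → x * y ≤ Q * c * y := fun x y y0 hx =>
    mul_le_mul_of_nonneg_right (hx.trans (le_mul_of_one_le_right (by linarith) c1)) y0
  have up2 : ∀ x y, 0 ≤ y → x ≤ Q → x * (c * y) ≤ Q * c * y := fun x y y0 hx => by
    rw [mul_assoc]; exact mul_le_mul_of_nonneg_right hx (mul_nonneg c0 y0)
  refine ⟨H.p.trans I.p, by positivity, by positivity, ?_, ?_, ?_, ?_, fun hc => ?_, ?_, ?_,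
    fun f t hf => ?_, fun α lam γ α0 l0 hα ha' γ0 hγ => ?_⟩
  · rw [cd]; linarith [I.Θk]
  · have k1 := up2 6 (h * (S + h)) (by positivity) (by linarith)
    have k2 := up 4 (h * (g + h ^ 2)) (by positivity) (by linarith)
    have k3 : h * h ≤ c * (h * (S + h)) :=
      le_trans (by nlinarith) (le_mul_of_one_le_left (by positivity) c1)
    have k4 : 0 ≤ h * h ^ 2 := by positivity
    have k5 := I.Θ2
    have k6 := H.chi
    calc _ ≤ 2 * Θ ^ 2 + 4 * s'.T.Γ u u ^ 2 + 4 * (h * h) := by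
          nlinarith [sq_nonneg (Θ - (s'.T.Γ u u + h)), sq_nonneg (s'.T.Γ u u - h)]
      _ ≤ Q * c * (h * (S + h)) + Q * c * (h * (g + h ^ 2)) := by linarith
      _ = _ := by ring
  · rw [sm_upd hj]
    have k1 := mul_le_mul_of_nonneg_left (s'.T.add_self_le sM sQ) h0.le
    have k2 := mul_le_mul_of_nonneg_left (H.le hu sM) h0.le
    have k3 : h * s'.T.Γ (lab h w u) (lab h w u) ≤ s'.T.Γ u u / w0 := by
      rw [H.gam_PP hu h0 w0', I.p]
      calc _ = s'.T.Γ u u * lab h w u s0.T.p / w := by field_simp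
        _ ≤ s'.T.Γ u u * 1 / w0 := by gcongr
        _ = _ := by rw [mul_one]
    have k4 := up2 2 Θ Θ0 (by linarith)
    have k5 := up (2 / w0) (s'.T.Γ u u + h) (by positivity) (by linarith)
    have k6 : 0 ≤ 2 / w0 * h := by positivity
    have k7 := I.gM
    have e : 2 / w0 * (s'.T.Γ u u + h) = 2 * (s'.T.Γ u u / w0) + 2 / w0 * h := by ring
    calc _ ≤ Q * c * Θ + Q * c * (s'.T.Γ u u + h) := by linarith
      _ = _ := by ring
  · rw [sm_upd hj]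
    have k1 := mul_le_mul_of_nonneg_left (s'.hq_add sM sQ) h0.le
    have k2 := mul_le_mul_of_nonneg_left (H.hq _ sM) h0.le
    have k3 : h * s'.Hq (lab h w u) ≤ C * g := H.hqP
    have k4 : C * g * (h * s.T.Γ (sm D P) (sm D P)) ≤ C * g * (c * (2 * K)) :=
      mul_le_mul_of_nonneg_left (I.gM.trans (mul_le_mul_of_nonneg_left
        (by linarith [I.Θk]) c0)) (by positivity)
    have k5 := up2 4 S S0 (by linarith)
    have k6 := up2 (4 * C * K + 2 * C) g g0 (by linarith)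
    have k7 : C * g ≤ C * (c * g) :=
      mul_le_mul_of_nonneg_left (le_mul_of_one_le_left g0 c1) C0
    have k8 : 0 ≤ Q * c * h ^ 2 := mul_nonneg (mul_nonneg (by linarith) c0) h22
    have k9 := I.hM
    calc _ ≤ Q * c * S + Q * c * g + Q * c * h ^ 2 := by linarith
      _ = _ := by ring
  · have := three c1 C0 h0 h1 Θ0 S0 χ0 χ1 g0 (Q := Q) (by linarith) (I.dL hc) (H.L _ sM)
      (H.heat hc) I.hM I.gM
    rw [sm_upd hj, s'.L_add sM sQ, sum_upd hj P _ fun i f => f s0.T.p - P0 i s0.T.p]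
    rw [I.p] at this
    convert this using 2
    simp only [lab]; ring
  · have := three (D2 := 0) c1 C0 h0 h1 Θ0 S0 χ0 χ1 g0 (Q := Q) (by linarith) I.dLap (H.lap _ sM)
      (by rw [zero_pow two_ne_zero]; positivity) I.hM I.gM
    rw [sm_upd hj, s'.lap_add sM sQ]
    convert this using 2
    ring
  · have b0 := s.bn_nonneg
    have b1 := s'.bn_nonneg
    have k0 : 0 < 1 + C * (h + g) + h ^ 4 := by positivity
    have k1 := Real.log_le_log (by linarith) H.bn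
    rw [Real.log_mul (by linarith) k0.ne'] at k1
    have k2 := Real.log_le_sub_one_of_pos k0
    have k3 : h ^ 4 ≤ h := by simpa using pow_le_pow_of_le_one h0.le h1 (by norm_num : 1 ≤ 4)
    have k4 := I.bn
    have k5 : 0 ≤ (C + 1) * h ^ 2 := by positivity
    rw [cd]
    nlinarith
  · have sF : A.Sm fun z => f z + ∑ i ∈ D, t i * P i z :=
      A.add hf (Alg.sum D fun i hi => Alg.smul _ (hP i hi).1)
    have e : (fun z => f z + ∑ i ∈ insert j D, t i * Function.update P j (lab h w u) i z) =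
        fun z => (f z + ∑ i ∈ D, t i * P i z) + t j * lab h w u z := by
      funext z
      rw [sum_upd hj P _ fun i k => t i * k z]; ring
    rw [e, sum_insert hj]
    linarith [H.budget hu h0 w0' (I.p ▸ u1) sF (t j), I.bud f t hf]
  · have k1 := I.pot α lam γ α0 l0 hα ha' γ0 hγ
    have k2 := pot_step hj H hu (I.p ▸ u0) h0 w0' (by linarith) η0 η1 (I.p ▸ hP0) (I.p ▸ hP) α0 l0 γ0
      ((I.le ha).trans (ha' j))
      ((mul_le_mul_of_nonneg_left ((div_le_iff₀ l0).2 hα) h0.le).trans h2)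
      (le_trans (by gcongr) h3)
    have k3 : h ^ 4 ≤ h ^ 2 := pow_le_pow_of_le_one h0.le h1 (by norm_num)
    have k4 : C * h ^ 3 ≤ C * h ^ 2 :=
      mul_le_mul_of_nonneg_left (pow_le_pow_of_le_one h0.le h1 (by norm_num)) C0
    have k5 : h ^ 2 / (2 * C) ≤ h ^ 2 := div_le_self h22 (by linarith)
    rw [cd, sm_upd hj]
    rw [I.p] at k2
    have e : (S + (g + h ^ 2)) / (2 * C) = S / (2 * C) + g / (2 * C) + h ^ 2 / (2 * C) := by ring
    rw [e]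
    linarith

/-- all labels make one step -/
theorem steps {n : ℝ} (W : W2 n) {w0 w1 df Am η : ℝ} (w00 : 0 < w0) (df0 : 0 < df) (df1 : df ≤ 1)
    (Am0 : 0 ≤ Am) (η0 : 0 < η) (η1 : η < 1) : ∃ C c : ℝ, 1 ≤ C ∧ 1 ≤ c ∧
    ∀ (sb h w : ℝ) (st : W.St) (P0 a : G → W.Z → ℝ) (o : W.Z → ℝ) (cc : G → ℝ), 0 < h → h ≤ 1 →
    h * sb ≤ w / 4 → sb * h * C ≤ w → w0 ≤ w → w ≤ w1 →
    (∀ y, W.A.Sm (P0 y) ∧ W.A.Sm (a y) ∧ df ≤ cc y ∧ cc y ≤ 1 ∧ ∀ x,
      df ≤ P0 y x ∧ P0 y x ≤ 1 ∧ 0 ≤ a y x ∧ a y x ≤ Am ∧ (1 ≤ o x → P0 y x = cc y ∧ a y x = 0)) →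
    W.A.Sm o → (∀ x, 5 ≤ W.om x → 5 ≤ o x) → (∀ x ∈ W.L, (W.ps st x).T.Γ o o ≤ 1) →
    ∃ (st' : W.St) (P : G → W.Z → ℝ), W.R st st' ∧
      (∀ y, W.A.Sm (P y) ∧ ∀ x, df ≤ P y x ∧ P y x ≤ 1 ∧ (5 ≤ o x → P y x = cc y)) ∧
      ∀ x ∈ W.L, ∃ S Θ SL, Inv n C η h w sb c (o x < 1) (W.ps st x) (W.ps st' x) univ a P0 P S Θ SL := by
  obtain ⟨C, C1, H⟩ := W.hstep w0 w1 df Am η w00 df0 df1 Am0 η0 η1
  obtain ⟨Q, hQ⟩ : ∃ Q : ℝ, Q = 12 + 6 * C + 2 / w0 + 4 * C * Fintype.card G := ⟨_, rfl⟩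
  have Q1 : 1 ≤ Q := by
    have : 0 ≤ 6 * C + 2 / w0 + 4 * C * Fintype.card G := by positivity
    linarith
  refine ⟨C, Q ^ Fintype.card G, C1, one_le_pow₀ Q1,
    fun sb h w st P0 a o cc h0 h1 h2 h3 hw0 hw1 hy so ho hΓ => ?_⟩
  have key : ∀ D : Finset G, ∃ (st' : W.St) (P : G → W.Z → ℝ), W.R st st' ∧
      (∀ y ∈ D, W.A.Sm (P y) ∧ ∀ x, df ≤ P y x ∧ P y x ≤ 1 ∧ (5 ≤ o x → P y x = cc y)) ∧
      ∀ x ∈ W.L, ∃ S Θ SL,
        Inv n C η h w sb (Q ^ D.card) (o x < 1) (W.ps st x) (W.ps st' x) D a P0 P S Θ SL := by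
    intro D
    induction D using Finset.induction_on with
    | empty => exact ⟨st, P0, W.R_refl st, by simp, fun x _ => ⟨0, 0, 0, by
        simpa using inv_zero n C η h w sb (o x < 1) (W.ps st x) a P0 P0⟩⟩
    | insert j D hj ih =>
      obtain ⟨s1, P, r1, hP, I⟩ := ih
      obtain ⟨y1, y2, y3, y4, y5⟩ := hy j
      obtain ⟨u, s2, r2, su, hu, HH⟩ := H h w (h ^ 4) s1 (P0 j) (a j) o (cc j) h0 h1 hw0 hw1
        (by positivity) y1 y2 so (fun x => ⟨(y5 x).1, (y5 x).2.1⟩)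
        (fun x => ⟨(y5 x).2.2.1, (y5 x).2.2.2.1⟩) y3 y4 (fun x => (y5 x).2.2.2.2) ho fun x hx => by
          obtain ⟨S, Θ, SL, I⟩ := I x hx
          exact (I.le so).trans (hΓ x hx)
      refine ⟨s2, Function.update P j (lab h w u), W.R_trans r1 r2, fun y hy' => ?_, fun x hx => ?_⟩
      · rcases mem_insert.1 hy' with rfl | hy'
        · rw [Function.update_self]
          exact ⟨sm_lab h w su, fun x => (hu x).2⟩
        · rw [upd_of_mem hj P _ hy']; exact hP y hy'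
      · obtain ⟨S, Θ, SL, I⟩ := I x hx
        obtain ⟨Hh, g, HH⟩ := HH x hx
        rw [card_insert_of_notMem hj, pow_succ']
        exact ⟨_, _, _, I.step hj HH su (hu _).1 (hu _).2.2.1 h0 h1 w00 hw0 C1 (one_le_pow₀ Q1) η0 η1
          (K := Fintype.card G) (by exact_mod_cast card_le_univ D) hQ.ge h2 h3 y2
          (fun i => ⟨(hy i).1, df0.trans_le ((hy i).2.2.2.2 _).1⟩)
          fun i hi => ⟨(hP i hi).1, df0.trans_le ((hP i hi).2 _).1⟩⟩
  obtain ⟨st', P, r, hP, I⟩ := key univ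
  exact ⟨st', P, r, fun y => hP y (mem_univ y), I⟩

end Crest.Agent.N228.H

end
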