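import Crest.Agent.N228.H.Rd3

/-!
# Row 228, part A' (helper10): `round : RoundStmt`
-/

set_option autoImplicit false
set_option linter.dupNamespace false
open Set Finset

noncomputable section

namespace Crest.Agent.N228.H

open Crest.Agent.N222.A

variable {Z : Type} {A : Alg Z} {G : Type} [Fintype G] [DecidableEq G]

theorem amgm {x X Y : ℝ} (X0 : 0 ≤ X) (Y0 : 0 ≤ Y) (h : x ^ 2 ≤ X * Y) : |x| ≤ (X + Y) / 2 :=
  abs_le_of_sq_le_sq (by nlinarith [sq_nonneg (X - Y)]) (by positivity)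

theorem exists_small {a b : ℝ} (a0 : 0 ≤ a) (b0 : 0 < b) :
    ∃ h0 : ℝ, 0 < h0 ∧ ∀ h, 0 ≤ h → h ≤ h0 → h * a ≤ b :=
  ⟨b / (a + 1), by positivity, fun h h1 h2 => by
    rw [le_div_iff₀ (by positivity)] at h2; nlinarith⟩

omit [DecidableEq G] in
theorem sm_del {P : G → Z → ℝ} (hP : ∀ y, A.Sm (P y)) : A.Sm (del P) :=
  Alg.sub_const (Alg.sum univ fun y _ => hP y) 1

omit [DecidableEq G] in
theorem PS.I_nonneg (s : PS A) {P : G → Z → ℝ} (hP : ∀ y, A.Sm (P y)) (P0 : ∀ y, 0 < P y s.T.p) :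
    0 ≤ s.I P := sum_nonneg fun y _ => div_nonneg (s.T.nonneg (hP y)) (P0 y).le

omit [DecidableEq G] in
theorem PS.gam_del (s : PS A) {P : G → Z → ℝ} (hP : ∀ y, A.Sm (P y)) (P0 : ∀ y, 0 < P y s.T.p) :
    s.T.Γ (del P) (del P) ≤ (∑ y, P y s.T.p) * s.I P := by
  have sM : A.Sm (sm univ P) := Alg.sum univ fun y _ => hP y
  have e : s.T.Γ (del P) (del P) = s.T.Γ (sm univ P) (sm univ P) := by
    have e1 := s.T.sub_left sM (A.const 1) (sm_del hP)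
    have e2 := s.T.sub_right sM (A.const 1) sM
    rw [s.T.const_left 1 (sm_del hP), sub_zero] at e1
    rw [s.T.const_right 1 sM, sub_zero] at e2
    exact e1.trans e2
  rw [e]
  exact Pt.Fi.total ⟨fun y => s.J (P y), fun y => ⟨div_nonneg (s.T.nonneg (hP y)) (P0 y).le, by
    unfold PS.J; rw [div_mul_cancel₀ _ (P0 y).ne']⟩, le_rfl⟩ hP fun y => (P0 y).le

/-- the defects of a round are small -/
theorem defect {c C h m ε ρ Θ S D : ℝ} (c1 : 1 ≤ c) (C1 : 1 ≤ C) (h0 : 0 < h) (m0 : 0 < m)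
    (ρ0 : 0 < ρ) (ρ1 : ρ ≤ 1 / (16 * C)) (ρ2 : ρ ≤ ε / 16) (h1 : h ≤ 1) (S0 : 0 ≤ S) (Θ0 : 0 ≤ Θ)
    (Θ2 : Θ ^ 2 ≤ c * (h * (S + h))) (hD : D ^ 2 ≤ c * (h * Θ * S))
    (hh : h * (c * (4 * C * m ^ 2 * c) ^ 2 / (4 * ρ)) ≤ ε / 16) :
    m * |D| ≤ S / (8 * C) + ε / 8 * h := by
  obtain ⟨μ, hμ⟩ : ∃ μ, μ = 4 * C * m ^ 2 * c := ⟨_, rfl⟩
  have μ0 : 0 < μ := by rw [hμ]; positivity
  have k1 := amgm (x := D) (X := S / (8 * C * m)) (Y := 8 * C * m * (c * (h * Θ))) (by positivity)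
    (by positivity) (hD.trans_eq (by field_simp))
  have k2 := amgm (x := Θ) (X := 2 * ρ * (S + h) / (μ * h)) (Y := c * h ^ 2 * μ / (2 * ρ))
    (by positivity) (by positivity) (Θ2.trans_eq (by field_simp))
  rw [abs_of_nonneg Θ0] at k2
  have k3 : m * |D| ≤ S / (16 * C) + μ * h * Θ :=
    (mul_le_mul_of_nonneg_left k1 m0.le).trans_eq (by rw [hμ]; field_simp; ring)
  have k4 : μ * h * Θ ≤ ρ * S + ρ * h + h * (h * (h * (c * μ ^ 2 / (4 * ρ)))) :=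
    (mul_le_mul_of_nonneg_left k2 (by positivity)).trans_eq (by field_simp; ring)
  rw [← hμ] at hh
  have k5 : h * (h * (c * μ ^ 2 / (4 * ρ))) ≤ ε / 16 :=
    (mul_le_of_le_one_left (by positivity) h1).trans hh
  have k6 := mul_le_mul_of_nonneg_left k5 h0.le
  have k7 := mul_le_mul_of_nonneg_right ρ1 S0
  have k8 := mul_le_mul_of_nonneg_right ρ2 h0.le
  have e : S / (8 * C) = S / (16 * C) + 1 / (16 * C) * S := by field_simp; ring
  linarith

theorem log_bd {b1 b2 q d Γ : ℝ} (b10 : 0 ≤ b1) (b20 : 0 ≤ b2) (q0 : 0 ≤ q) (Γ0 : 0 ≤ Γ)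
    (k1 : b2 ≤ b1 + q * |d| * √Γ) :
    Real.log (1 + b2) ≤ Real.log (1 + b1) + q * d ^ 2 + q * Γ / 4 := by
  have k2 : |d| * √Γ ≤ d ^ 2 + Γ / 4 := by
    nlinarith [sq_nonneg (|d| - √Γ / 2), Real.sq_sqrt Γ0, sq_abs d]
  have k3 := mul_le_mul_of_nonneg_left k2 q0
  obtain ⟨y, hy⟩ : ∃ y, y = q * (d ^ 2 + Γ / 4) := ⟨_, rfl⟩
  have y0 : 0 ≤ y := by rw [hy]; positivity
  have k4 : 1 + b2 ≤ (1 + b1) * (1 + y) := by nlinarith [mul_nonneg b10 y0]
  have k5 := Real.log_le_log (by linarith) k4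
  rw [Real.log_mul (by linarith) (by linarith)] at k5
  have k6 := Real.log_le_sub_one_of_pos (by linarith : 0 < 1 + y)
  linarith

theorem lin_bd {K C h S g : ℝ} (K0 : 0 ≤ K) (C1 : 1 ≤ C) (h0 : 0 < h) (S0 : 0 ≤ S) (g0 : 0 ≤ g) :
    (C + 1) * (K * h + S) ≤ (C + 1) * (K + 4 * C) * (h + (S / (4 * C) + g / 2)) := by
  have e : S = 4 * C * (S / (4 * C)) := by field_simp
  have k2 : K * h + S ≤ (K + 4 * C) * (h + (S / (4 * C) + g / 2)) := by
    have : 0 ≤ K * (S / (4 * C)) + 4 * C * h + (K + 4 * C) * (g / 2) := by positivity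
    linarith
  have := mul_le_mul_of_nonneg_left k2 (by linarith : 0 ≤ C + 1)
  linarith

theorem fin_bd {E0 E1 E2 I0 I1 A0 A1 p d0 d Γ Gp B D D2 X1 X2 T σ γ h w ε s k : ℝ}
    (pot : E0 - w / 2 * I0 + 4 * s - γ * (d - d0 + D - h * B - D2) - h * T * (1 + d) - k ≤
      E1 - (w / 2 + h * σ) * I1 - 2 * (A1 - A0) - X1)
    (hE : E1 + 2 * p * d * (D + (d - d0)) + 2 * (h * (p * Γ + d * Gp)) - (h * (p * d)) ^ 2 * Γ ≤ E2)
    (e1 : (γ - 2 * p * d) * D ≤ s + ε / 8 * h) (e2 : -(γ * D2) ≤ s + ε / 8 * h)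
    (e3 : |γ * B| ≤ (2 * (p * Γ) + ε / 2) / 2) (e4 : |d * Gp| ≤ (ε * I1 + ε / 8) / 2)
    (e5 : (h * (p * d)) ^ 2 * Γ ≤ h * p * Γ / 4) (e6 : k ≤ ε / 8 * h) (e7 : X2 ≤ X1)
    (p0 : 0 ≤ p) (h0 : 0 < h) (ε0 : 0 < ε) (g0 : 0 ≤ h * p * Γ) :
    E0 - w / 2 * I0 - 2 * A0 - p * d0 ^ 2 + γ * d0 + (2 * s + h * p * Γ / 2) - h * T * (1 + d)
      - ε * h + X2 ≤ E2 - w / 2 * I1 - 2 * A1 - p * d ^ 2 - h * (σ - ε) * I1 + γ * d := by
  have e8 : 0 ≤ p * (d - d0) ^ 2 := by positivity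
  have e9 := mul_le_mul_of_nonneg_left (abs_le.1 e3).1 h0.le
  have e10 := mul_le_mul_of_nonneg_left (abs_le.1 e4).1 h0.le
  have e12 : 0 ≤ ε * h := by positivity
  linarith

set_option maxHeartbeats 1600000 in
theorem round : RoundStmt := by
  intro n W G _ _ w0 w1 df Am η n1 w00 df0 df1 Am0 η0 η1
  obtain ⟨C, c, C1, c1, H⟩ := steps (G := G) W (w1 := w1) w00 df0 df1 Am0 η0 η1
  obtain ⟨K, hK⟩ : ∃ K : ℝ, K = Fintype.card G := ⟨_, rfl⟩
  have K0 : 0 ≤ K := hK ▸ Nat.cast_nonneg _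
  refine ⟨(C + 1) * (K + 4 * C) + 1, by nlinarith, fun sb πb ε sb0 πb0 ε0 => ?_⟩
  obtain ⟨m, hm⟩ : ∃ m, m = 2 * πb * (K + 1) + sb + 1 := ⟨_, rfl⟩
  have m0 : 0 < m := by rw [hm]; positivity
  obtain ⟨ρ, hρ⟩ : ∃ ρ, ρ = min (1 / (16 * C)) (ε / 16) := ⟨_, rfl⟩
  have ρ0 : 0 < ρ := by rw [hρ]; positivity
  obtain ⟨a1, a10, b1⟩ := exists_small sb0 (by positivity : 0 < w0 / 4)
  obtain ⟨a2, a20, b2⟩ := exists_small (by positivity : 0 ≤ sb * C) w00
  obtain ⟨a3, a30, b3⟩ := exists_small (by positivity : 0 ≤ πb * (K + 1) ^ 2) (by positivity : (0 : ℝ) < 1 / 4)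
  obtain ⟨a4, a40, b4⟩ := exists_small (by positivity : 0 ≤ K * (C + 2)) (by positivity : 0 < ε / 8)
  obtain ⟨a5, a50, b5⟩ := exists_small
    (by positivity : 0 ≤ c * (4 * C * m ^ 2 * c) ^ 2 / (4 * ρ)) (by positivity : 0 < ε / 16)
  refine ⟨min (min (min a1 a2) (min a3 a4)) (min a5 1), ε ^ 2 / (8 * (K + 1) ^ 3), by positivity,
    by positivity, fun h w st P0 a o pf cc h0 hh hw0 hw1 hy so sp hp ho hΓ => ?_⟩
  simp only [le_min_iff] at hh
  obtain ⟨⟨⟨t1, t2⟩, t3, t4⟩, t5, h1⟩ := hh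
  have w0' : 0 < w := w00.trans_le hw0
  obtain ⟨s1, P, r1, hP, I⟩ := H sb h w st P0 a o cc h0 h1 (by linarith [b1 h h0.le t1])
    (by linarith [b2 h h0.le t2]) hw0 hw1 hy so ho fun x hx => (hΓ x hx).1
  have sP : ∀ y, W.A.Sm (P y) := fun y => (hP y).1
  have sd := sm_del sP
  have sM : W.A.Sm (sm univ P) := Alg.sum univ fun y _ => sP y
  obtain ⟨s2, r2, Dr⟩ := W.drift s1 (fun z => h * (pf z * del P z)) (del P)
    (Alg.smul h (W.A.mul sp sd)) sd fun x hx => by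
      rw [(hp x).2.2 (by linarith [ho x hx])]; ring
  refine ⟨s2, P, W.R_trans r1 r2, hP, fun x hx => ?_⟩
  obtain ⟨S, Θ, SL, I⟩ := I x hx
  have Dr := Dr x hx
  have κ1 := (I.le sp).trans (hΓ x hx).2
  obtain ⟨p0, p1, p2⟩ := hp x
  have P0' : ∀ y, 0 < P y x := fun y => df0.trans_le ((hP y).2 x).1
  have q0 := W.ps_p st x
  have q1 := W.ps_p s1 x
  have q2 := W.ps_p s2 x
  have tr := W.trace s1 x G P (fun y => (P y x)⁻¹) sP fun y => inv_nonneg.2 (P0' y).le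
  have gd := (W.ps s1 x).gam_del sP (q1.symm ▸ P0')
  have I0 := (W.ps s1 x).I_nonneg sP (q1.symm ▸ P0')
  generalize W.ps st x = u0 at *
  generalize W.ps s1 x = u1 at *
  generalize W.ps s2 x = u2 at *
  have S0 := I.S0
  have Γ0 := u1.T.nonneg sd
  have eI : u2.I P = u1.I P := sum_congr rfl fun y _ => by
    unfold PS.J; rw [Dr.gam _ _ (sP y) (sP y), Dr.p]
  have N0 : 0 ≤ ∑ y, P y x := sum_nonneg fun y _ => (P0' y).le
  have N1 : ∑ y, P y x ≤ K := by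
    have := sum_le_card_nsmul univ (fun y => P y x) 1 fun y _ => ((hP y).2 x).2.1
    simpa [hK] using this
  have d1 : |del P x| ≤ K + 1 := abs_le.2 ⟨by unfold del; linarith, by unfold del; linarith⟩
  have d2 : del P x ^ 2 ≤ (K + 1) ^ 2 := sq_le_sq' (abs_le.1 d1).1 (abs_le.1 d1).2
  rw [q1] at gd
  obtain ⟨Γ, hΓ'⟩ : ∃ Γ, Γ = u1.T.Γ (del P) (del P) := ⟨_, rfl⟩
  rw [← hΓ'] at gd Γ0
  refine ⟨fun f t hf => ?_, S / (4 * C) + h * pf x * Γ / 2, u1.bn, by positivity, u1.bn_nonneg, ?_⟩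
  · have sF : W.A.Sm fun z => f z + ∑ y, t y * P y z :=
      W.A.add hf (Alg.sum univ fun y _ => Alg.smul _ (sP y))
    rw [Dr.gam _ _ sF sF]; exact I.bud f t hf
  have g0 : 0 ≤ h * pf x * Γ := by positivity
  have l1 : Real.log (1 + u1.bn) ≤ Real.log (1 + u0.bn)
      + (C + 1) * (K + 4 * C) * (h + (S / (4 * C) + h * pf x * Γ / 2)) := by
    have k1 := I.bn
    rw [card_univ, ← hK] at k1
    exact k1.trans (add_le_add_right (lin_bd K0 C1 h0 S0 g0) _)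
  have s4 : 0 ≤ S / (4 * C) := by positivity
  refine ⟨by linarith only [l1, s4, g0, h0], ?_, fun α lam γ α0 l0 hα ha γ0 hγ hc => ?_⟩
  · have k1 := Dr.bn
    rw [q1, ← hΓ', ← mul_assoc, abs_mul, abs_of_nonneg (mul_nonneg h0.le p0)] at k1
    have k2 := log_bd u1.bn_nonneg u2.bn_nonneg (mul_nonneg h0.le p0) Γ0 k1
    linarith only [k2, l1, s4, g0, h0]
  have pot := I.pot α lam γ α0 l0 hα ha γ0 hγ
  have eL : u1.L (del P) = u1.L (sm univ P) := by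
    have := u1.L_add sM (W.A.const (-1))
    rw [PS.L, PS.L.eq_1 u1 fun _ => -1, u1.lap_const, u1.bd_const, add_zero, add_zero] at this
    exact this
  have eB : u1.Bd (del P) = u1.Bd (sm univ P) := by
    have := u1.bd_add sM (W.A.const (-1))
    rw [u1.bd_const, add_zero] at this
    exact this
  have eS : ∑ i, (P i x - P0 i x) = del P x - del P0 x := by
    unfold del; rw [sum_sub_distrib]; ring
  obtain ⟨D, hD⟩ : ∃ D, D = h * u1.L (sm univ P) - (del P x - del P0 x) := ⟨_, rfl⟩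
  obtain ⟨D2, hD2⟩ : ∃ D2, D2 = h * u1.Lap (sm univ P) - h * SL := ⟨_, rfl⟩
  have df' : ∀ D : ℝ, D ^ 2 ≤ c * (h * Θ * S) → m * |D| ≤ S / (8 * C) + ε / 8 * h := fun D hD =>
    defect c1 C1 h0 m0 ρ0 (hρ ▸ min_le_left _ _) (hρ ▸ min_le_right _ _) h1 S0 I.Θ0 I.Θ2 hD
      (b5 h h0.le t5)
  have e1 : (γ - 2 * pf x * del P x) * D ≤ S / (8 * C) + ε / 8 * h := by
    by_cases hx1 : o x < 1
    · have k1 := I.dL hx1
      rw [q0, eS, ← hD] at k1
      refine le_trans ((le_abs_self _).trans ?_) (df' D k1)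
      rw [abs_mul]
      refine mul_le_mul_of_nonneg_right ?_ (abs_nonneg _)
      have : |2 * pf x * del P x| ≤ 2 * πb * (K + 1) := by
        rw [abs_mul, abs_of_nonneg (by positivity : 0 ≤ 2 * pf x)]; gcongr
      have := abs_le.1 this
      rw [hm]; exact abs_le.2 ⟨by linarith, by linarith⟩
    · rw [p2 (not_lt.1 hx1), hc.resolve_right fun h => hx1 h.1]
      simp only [mul_zero, zero_mul, sub_zero]; positivity
  have e2 : -(γ * D2) ≤ S / (8 * C) + ε / 8 * h := by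
    refine le_trans ((neg_le_abs _).trans ?_) (df' D2 (hD2 ▸ I.dLap))
    rw [abs_mul, abs_of_nonneg γ0]
    exact mul_le_mul_of_nonneg_right (by rw [hm]; nlinarith) (abs_nonneg _)
  have e3 : |γ * u1.Bd (del P)| ≤ (2 * (pf x * Γ) + ε / 2) / 2 := by
    refine amgm (by positivity) (by positivity) ?_
    rcases hc with rfl | hc
    · rw [zero_mul, zero_pow two_ne_zero]; positivity
    · calc _ = γ ^ 2 * u1.Bd (del P) ^ 2 := by ring
        _ ≤ γ ^ 2 * (u1.bn ^ 2 * Γ) := mul_le_mul_of_nonneg_left (hΓ' ▸ u1.bd_le sd) (sq_nonneg _)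
        _ = γ ^ 2 * u1.bn ^ 2 * Γ := by ring
        _ ≤ ε * pf x * Γ := mul_le_mul_of_nonneg_right hc.2 Γ0
        _ = _ := by ring
  have e4 : |del P x * u1.T.Γ pf (del P)| ≤ (ε * u1.I P + ε / 8) / 2 := by
    refine amgm (by positivity) (by positivity) ?_
    have k1 : Γ ≤ (K + 1) * u1.I P :=
      gd.trans (mul_le_mul_of_nonneg_right (by linarith) I0)
    calc _ = del P x ^ 2 * u1.T.Γ pf (del P) ^ 2 := by ring
      _ ≤ (K + 1) ^ 2 * (ε ^ 2 / (8 * (K + 1) ^ 3) * ((K + 1) * u1.I P)) := by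
          refine mul_le_mul d2 ((u1.T.cs sp sd).trans ?_) (sq_nonneg _) (sq_nonneg _)
          rw [← hΓ']
          exact mul_le_mul κ1 k1 Γ0 (by positivity)
      _ = _ := by field_simp
  have e5 : (h * (pf x * del P x)) ^ 2 * Γ ≤ h * pf x * Γ / 4 := by
    have k1 : h * (pf x * del P x ^ 2) ≤ 1 / 4 := le_trans (by gcongr) (b3 h h0.le t3)
    calc _ = h * pf x * Γ * (h * (pf x * del P x ^ 2)) := by ring
      _ ≤ h * pf x * Γ * (1 / 4) := mul_le_mul_of_nonneg_left k1 g0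
      _ = _ := by ring
  have e6 : K * ((C + 2) * h ^ 2) ≤ ε / 8 * h := by
    have := mul_le_mul_of_nonneg_right (b4 h h0.le t4) h0.le
    linarith
  have e7 : (1 - η) * (h * w ^ 2 / (8 * n)) * u1.I P ^ 2 ≤
      (1 - η) * (h * w ^ 2 / 8) * Xi u1 univ P := by
    have k1 : u1.I P ^ 2 ≤ n * Xi u1 univ P := by
      unfold Xi PS.I PS.J
      rw [q1]
      simpa only [div_eq_inv_mul] using tr
    have η2 := sub_pos.2 η1
    calc _ ≤ (1 - η) * (h * w ^ 2 / (8 * n)) * (n * Xi u1 univ P) :=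
          mul_le_mul_of_nonneg_left k1 (by positivity)
      _ = _ := by field_simp
  have hE := Dr.E
  rw [u1.T.smul_left h (W.A.mul sp sd) sd, u1.T.mul sp sd sd, q1, ← hΓ', eL] at hE
  have eN : sm univ P x = 1 + del P x := by simp [del, sm]
  have ea : ∑ i, a i x * (P i x - P0 i x) = ∑ i, a i x * P i x - ∑ i, a i x * P0 i x := by
    rw [← sum_sub_distrib]; exact sum_congr rfl fun _ _ => mul_sub _ _ _
  have eSL : h * SL = del P x - del P0 x + D - h * u1.Bd (del P) - D2 := by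
    rw [hD, hD2, eB, PS.L]; ring
  have eL2 : h * u1.L (sm univ P) = D + (del P x - del P0 x) := by rw [hD]; ring
  unfold Pot at pot
  rw [Finset.compl_univ, sum_empty, q0, q1, card_univ, ← hK, eN, ea, mul_assoc γ h SL, eSL] at pot
  unfold PS.Φ
  rw [eI, q0, q2]
  have eE : 2 * (h * (pf x * del P x)) * u1.L (sm univ P) =
      2 * pf x * del P x * (D + (del P x - del P0 x)) := by rw [← eL2]; ring
  rw [eE] at hE
  have e11 : S / (2 * C) = 4 * (S / (8 * C)) := by field_simp; ring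
  have e12 : S / (4 * C) = 2 * (S / (8 * C)) := by field_simp; ring
  rw [mul_zero, sub_zero, e11] at pot
  rw [e12]
  exact fin_bd pot hE e1 e2 e3 e4 e5 e6 e7 p0 h0 ε0 g0

end Crest.Agent.N228.H

end
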