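import Crest.Agent.N228.H.Run2

/-! # Row 228, part A' (helper71): one level -/

set_option autoImplicit false
set_option linter.dupNamespace false
open Finset

noncomputable section

namespace Crest.Agent.N228.H

open Crest.Agent.N222.A Rn

namespace Rn

variable {n : ℝ} {W : W2 n} {G : Type} [Fintype G]

theorem start {st : W.St} {x : W.Z} {χ a : G → W.Z → ℝ} {K df Am K0 w0 π Sg Λ : ℝ} (ζ : W.Z → ℝ)
    (hK : K = Fintype.card G) (K1 : 1 ≤ K) (df0 : 0 < df) (df2 : K * df ≤ 1) (w00 : 0 ≤ w0)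
    (sm : ∀ y, W.A.Sm (χ y)) (hd : del (fun y z => (1 - K * df) * χ y z + df) x = 0)
    (h : ∀ y, 0 ≤ χ y x ∧ 0 ≤ a y x ∧ a y x ≤ Am ∧ (W.ps st x).T.Γ (χ y) (χ y) ≤ K0) :
    (W.ps st x).E - K * (K0 / df) / 2 * w0 - 2 * K * Am * df - 2 * ∑ y, a y x * χ y x ≤
      Ψ W st w0 π Sg Λ 0 a (fun y z => (1 - K * df) * χ y z + df) (fun _ _ => 0) ζ x := by
  have Kd : 0 ≤ 1 - K * df := sub_nonneg.2 df2
  have Kd1 : 0 ≤ K * df := by positivity
  have b1 : (W.ps st x).I (fun y z => (1 - K * df) * χ y z + df) ≤ Fintype.card G * (K0 / df) := by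
    refine sum_le_card fun y => div_le_div₀ (((W.ps st x).T.nonneg (sm y)).trans (h y).2.2.2) ?_ df0 ?_
    · rw [Pt.chain_self (φ := fun s => (1 - K * df) * s + df) _ (sm y)
        (Alg.add_const (Alg.smul _ (sm y)) _) (((hasDerivAt_id' _).const_mul _).add_const _), mul_one]
      exact (mul_le_of_le_one_left ((W.ps st x).T.nonneg (sm y))
        (pow_le_one₀ Kd (by linarith))).trans (h y).2.2.2
    · rw [W.ps_p]; exact le_add_of_nonneg_left (mul_nonneg Kd (h y).1)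
  have b2 : ∑ y, (a y x * ((1 - K * df) * χ y x + df) - a y x * χ y x) ≤ Fintype.card G * (Am * df) :=
    sum_le_card fun y => by
      obtain ⟨b3, b4, b5, -⟩ := h y
      linarith [mul_nonneg (mul_nonneg b3 b4) Kd1, mul_le_mul_of_nonneg_right b5 df0.le]
  have b3 := mul_le_mul_of_nonneg_left b1 w00
  rw [sum_sub_distrib, ← hK] at b2
  rw [← hK] at b3
  simp only [Ψ, PS.Φ, W.ps_p, hd, zero_div, sub_zero, one_mul, mul_zero, sum_const_zero,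
    abs_zero, zero_pow two_ne_zero]
  linarith

theorem finish {st : W.St} {x : W.Z} {a P F : G → W.Z → ℝ} {ζ : W.Z → ℝ} {K w π S Λ : ℝ} (S0 : 0 < S)
    (w0 : 0 ≤ w) (hΛ : 0 ≤ Λ) (hζ : 0 ≤ ζ x) (sP : ∀ y, W.A.Sm (P y)) (hP : ∀ y, 0 ≤ P y x)
    (ad : |del (fun y z => S⁻¹ * F y z) x| ≤ K) :
    Ψ W st w π S (Λ * K) S a P F ζ x + π * ζ x * del P x ^ 2 + 2 * ∑ y, a y x * (S⁻¹ * F y x)
      + Λ * (ζ x * del (fun y z => S⁻¹ * F y z) x ^ 2) ≤ (W.ps st x).E := by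
  have i0 := (inv_pos.2 S0).le
  have b1 := mul_nonneg w0 (I_nonneg (st := st) sP hP)
  have b2 : ∑ y, a y x * (S⁻¹ * F y x) = S⁻¹ * ∑ y, a y x * F y x := by
    rw [mul_sum]; exact sum_congr rfl fun _ _ => by ring
  have b3 : |del (fun y z => S⁻¹ * F y z) x| = S⁻¹ * |∑ y, F y x - S| := by
    rw [← abs_of_nonneg i0, ← abs_mul, abs_of_nonneg i0, del, ← mul_sum, mul_sub,
      inv_mul_cancel₀ S0.ne']
  have b4 := mul_le_mul_of_nonneg_left (mul_le_mul_of_nonneg_right ad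
    (abs_nonneg (del (fun y z => S⁻¹ * F y z) x))) (mul_nonneg hΛ hζ)
  rw [← sq, sq_abs, b3] at b4
  simp only [Ψ, PS.Φ, W.ps_p, div_self S0.ne', sub_self, zero_mul, sum_const_zero, b2]
  simp only [div_eq_mul_inv]
  linarith

theorem gam_q {T : Pt W.A} {f ζ : W.Z → ℝ} {K a b : ℝ} (sf : W.A.Sm f) (sζ : W.A.Sm ζ)
    (h0 : 0 ≤ ζ T.p) (h1 : ζ T.p ≤ 1) (hf : |f T.p - 1| ≤ K) (ha : T.Γ f f ≤ a) (hb : T.Γ ζ ζ ≤ b) :
    T.Γ (fun z => ζ z * (f z - 1) ^ 2) (fun z => ζ z * (f z - 1) ^ 2) ≤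
      8 * K ^ 2 * a + 2 * K ^ 4 * b := by
  have sd := Alg.pow (Alg.sub_const sf 1) 2
  have g2 := T.mul_self_le sζ sd
  rw [Pt.chain_self (φ := fun s => (s - 1) ^ 2) (c := 2 * (f T.p - 1)) _ sf sd
    (by simpa using ((hasDerivAt_id' (f T.p)).sub_const (1 : ℝ)).fun_pow 2)] at g2
  have g4 : (f T.p - 1) ^ 2 ≤ K ^ 2 := sq_le_sq' (abs_le.1 hf).1 (abs_le.1 hf).2
  have g6 := mul_le_mul (pow_le_pow_left₀ (sq_nonneg _) g4 2) hb (T.nonneg sζ) (by positivity)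
  have g7 := mul_le_mul g4 ha (T.nonneg sf) (by positivity)
  have g8 := mul_le_of_le_one_left (mul_nonneg (sq_nonneg (f T.p - 1)) (T.nonneg sf))
    (pow_le_one₀ (n := 2) h0 h1)
  linarith

theorem core (hC : ConvStmt) {G : Type} [Fintype G] [DecidableEq G]
    {K df w0 w1 α c1 T t' Vm l' τ1 c2 c3 cr ε C κ B e sb h Am κr μ t Λ K0 B0 τ : ℝ}
    (hKG : K = Fintype.card (Option G))
    (p : Par n K df w0 w1 α c1 T t' Vm l' τ1 c2 c3 cr ε C κ B e sb h)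
    (hR : Rd W (Option G) w0 w1 df Am (1 / 400) C sb (2 / e) ε κr h) {N : ℕ} (hN : N * h = T)
    {w lam γ1 γ2 : ℕ → ℝ} (ew : w 0 = w0)
    (q : ∀ r < N, Num w0 w1 α c1 h (w r) (w (r + 1)) (lam r) (γ1 r) (γ1 (r + 1)) (γ2 r))
    (hls : ∑ r ∈ range N, price n α (w r) (lam r) (γ1 r) (γ2 r) * h ≤ 32 / 5 * μ ^ 2)
    (ht : 0 < t) (hΛ : 0 ≤ Λ) (df2 : K * df ≤ 1) (df3 : 2 * K * Am * df ≤ t / 20)
    (w02 : K * (K0 / df) / 2 * w0 ≤ t / 20) (T1 : 16 * K ^ 3 ≤ t * (T * w0)) (et : t' * T = t / 20)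
    (c31 : Λ * K / (T * w0) * |w1| ≤ c3) (κ3 : Real.log (1 + |B0|) * κ ≤ t / 20)
    (B1 : cr * T + t / 20 + (13 / 2 * μ ^ 2 + t / 4) + c1 * K ≤ κ * Real.log (1 + B))
    (e3 : c1 ^ 2 * e ≤ t / 20) (τ3 : (4 * N) ^ 2 * τ ≤ 1) (τ4 : (2 / e) ^ 2 * cc ^ 2 * τ ≤ κr)
    (τ5 : 2 * K ^ 4 * cc ^ 2 * τ ≤ t / 2)
    {st : W.St} {χ a : Option G → W.Z → ℝ} {ϖ o : W.Z → ℝ} (sm : ∀ y, W.A.Sm (χ y) ∧ W.A.Sm (a y))
    (sϖ : W.A.Sm ϖ) (so : W.A.Sm o)
    (hx : ∀ x, ∑ y, χ y x = 1 ∧ (∀ y, 0 ≤ χ y x ∧ 0 ≤ a y x ∧ a y x ≤ Am ∧ (ϖ x ≠ 0 → a y x = 0)) ∧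
      0 ≤ ϖ x ∧ ϖ x ≤ 1 ∧ (-1 ≤ o x → χ none x = 1 ∧ ϖ x = 1) ∧ (5 ≤ W.om x → 1 ≤ o x))
    (hL : ∀ x ∈ W.L, (∀ y, (W.ps st x).T.Γ (χ y) (χ y) ≤ K0 ∧
      (W.ps st x).T.Γ (a y) (a y) ≤ α ^ 2) ∧ (W.ps st x).T.Γ ϖ ϖ ≤ τ1 ∧
      (W.ps st x).T.Γ o o ≤ τ ∧ (ϖ x < 1 → (W.ps st x).bn ≤ B0)) :
    ∃ (st' : W.St) (P : Option G → W.Z → ℝ) (q : W.Z → ℝ), W.R st st' ∧ W.Le st st' ∧
      (∀ y, W.A.Sm (P y)) ∧ W.A.Sm q ∧
      (∀ x, (∀ y, 0 ≤ P y x ∧ P y x ≤ 1) ∧ 0 ≤ q x ∧ (ϖ x < 1 → q x = del P x ^ 2) ∧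
        (0 ≤ o x → q x = 0)) ∧
      ∀ x ∈ W.L, (∀ y, (W.ps st' x).T.Γ (P y) (P y) ≤ t) ∧ (W.ps st' x).T.Γ q q ≤ t ∧
        (W.ps st x).E - (if ϖ x = 1 then 0 else 13 / 2 * μ ^ 2) - t - 2 * ∑ y, a y x * χ y x
          + 2 * ∑ y, a y x * P y x + Λ * q x ≤ (W.ps st' x).E := by
  have eK : K = Fintype.card G + 1 := by rw [hKG, Fintype.card_option]; push_cast; rfl
  have K1 := p.K1
  have df0 := p.df0
  have e0 := p.e0
  have h0 := p.h0
  have N0 : (0 : ℝ) < N := (mul_pos_iff_of_pos_right h0).1 (hN ▸ p.T0)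
  obtain ⟨s, hs⟩ : ∃ s : ℕ → ℝ, ∀ r, s r = ∑ i ∈ range r, h * w i := ⟨_, fun _ => rfl⟩
  have Tw : 0 < T * w0 := mul_pos p.T0 p.w00
  have S1 : T * w0 ≤ s N := by
    rw [hs, ← hN, mul_assoc, ← nsmul_eq_mul, ← card_range N, ← sum_const, card_range]
    exact sum_le_sum fun i hi => mul_le_mul_of_nonneg_left (q i (mem_range.1 hi)).w0_le h0.le
  have S0 : 0 < s N := Tw.trans_le S1
  have sζ : W.A.Sm fun z => cut (-o z) := Alg.cut (Alg.neg so)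
  have gζ : ∀ x ∈ W.L, (W.ps st x).T.Γ (fun z => cut (-o z)) (fun z => cut (-o z)) ≤ cc ^ 2 * τ :=
    fun x hxL => by
      rw [Pt.chain_self (φ := fun s => cut (-s)) _ so sζ
        ((hasDerivAt_cut _).comp _ (hasDerivAt_neg' _)), mul_neg_one, neg_sq]
      exact mul_le_mul (deriv_cut_sq_le _) (hL x hxL).2.2.1 ((W.ps st x).T.nonneg so) (sq_nonneg _)
  have ζ1 : ∀ x, ϖ x < 1 → cut (-o x) = 1 := fun x h1 =>
    cut_one (le_of_not_gt fun h2 => h1.ne ((hx x).2.2.2.2.1 (neg_le.1 h2.le)).2)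
  have χ1 : ∀ y x, χ y x ≤ 1 := fun y x => (hx x).1 ▸
    single_le_sum (f := fun y => χ y x) (fun y _ => ((hx x).2.1 y).1) (mem_univ y)
  have Kd : 0 ≤ 1 - K * df := sub_nonneg.2 df2
  have Kd1 : df ≤ K * df := le_mul_of_one_le_left df0.le K1
  have d0 : ∀ x, del (fun y z => (1 - K * df) * χ y z + df) x = 0 := fun x => by
    simp only [del, sum_add_distrib, ← mul_sum, (hx x).1, sum_const, card_univ, nsmul_eq_mul, ← hKG]
    ring
  have LS : ∑ i ∈ range N, (101 / 100 * price n α (w i) (lam i) (γ1 i) (γ2 i) + 5 * t') * h ≤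
      13 / 2 * μ ^ 2 + t / 4 := by
    simp only [add_mul, sum_add_distrib, mul_assoc, ← mul_sum, sum_const, card_range, nsmul_eq_mul, hN]
    linarith only [sq_nonneg μ, hls, et]
  obtain ⟨st', P, F, r, le, hP, H⟩ := iter hC (hKG ▸ p) hR hN q hs (Λ := Λ * K) (b0 := t / 20)
    (by positivity)
    (((mul_le_mul_of_nonneg_left (le_abs_self _) (by positivity)).trans (mul_le_mul_of_nonneg_right
      (div_le_div_of_nonneg_left (by positivity) Tw S1) (abs_nonneg _))).trans c31) LS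
    (hKG ▸ B1) (c := fun y => y.elim (1 - K * df + df) fun _ => df)
    (fun y => by
      cases y <;> simp only [Option.elim] <;> constructor <;> linarith only [Kd, Kd1, df0])
    (by simp only [Fintype.sum_option, Option.elim, sum_const, card_univ, nsmul_eq_mul, eK]; ring)
    (st := st) (a := a) (P0 := fun y z => (1 - K * df) * χ y z + df) (ζ := fun z => cut (-o z))
    (fun y => (sm y).2) (fun y => Alg.add_const (Alg.smul _ (sm y).1) _) sϖ sζ so (fun x => by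
      obtain ⟨a1, a2, a3, a4, a5, a6⟩ := hx x
      refine ⟨fun y => ⟨le_add_of_nonneg_left (mul_nonneg Kd (a2 y).1),
        by linarith only [mul_le_of_le_one_right Kd (χ1 y x), Kd1], (a2 y).2.1, (a2 y).2.2.1,
        (a2 y).2.2.2, fun h1 => ?_⟩, a3, a4, cut_nonneg _, cut_le_one _,
        fun h1 => ⟨(a5 (by linarith only [h1])).2, cut_zero (neg_nonpos.2 h1)⟩, ζ1 x, a6, d0 x⟩
      have b1 := (a5 (by linarith only [h1])).1
      cases y with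
      | none => simp [b1]
      | some g =>
        rw [Fintype.sum_option, b1, add_eq_left] at a1
        simp [(sum_eq_zero_iff_of_nonneg fun g _ => (a2 (some g)).1).1 a1 g (mem_univ g)])
    (fun x hxL => ⟨(mul_le_mul_of_nonneg_left (hL x hxL).2.2.1 (sq_nonneg _)).trans τ3,
      (mul_le_mul_of_nonneg_left (gζ x hxL) (sq_nonneg _)).trans (by linarith only [τ4]),
      fun y => ((hL x hxL).1 y).2, (hL x hxL).2.1, fun h1 => by
        have : Real.log (1 + (W.ps st x).bn) ≤ Real.log (1 + |B0|) :=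
          Real.log_le_log (by linarith only [(W.ps st x).bn_nonneg])
            (by linarith only [(hL x hxL).2.2.2 h1, le_abs_self B0])
        linarith only [mul_le_mul_of_nonneg_left this p.κ0, κ3]⟩) N le_rfl
  have sB : ∀ y, W.A.Sm fun z => (s N)⁻¹ * F y z := fun y => Alg.smul _ (hP y).2.1
  have sS : W.A.Sm fun z => ∑ y, (s N)⁻¹ * F y z := Alg.sum _ fun y _ => sB y
  have mB : ∀ x y, 0 ≤ (s N)⁻¹ * F y x ∧ (s N)⁻¹ * F y x ≤ 1 := fun x y =>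
    ⟨mul_nonneg (inv_pos.2 S0).le ((hP y).2.2 x).2.2.1,
      by rw [inv_mul_le_iff₀ S0, mul_one]; exact ((hP y).2.2 x).2.2.2.1⟩
  have iS : 16 * K ^ 3 * (s N)⁻¹ ≤ t := by
    rw [mul_inv_le_iff₀ S0]; exact T1.trans (mul_le_mul_of_nonneg_left S1 ht.le)
  have i0 := (inv_pos.2 S0).le
  refine ⟨st', fun y z => (s N)⁻¹ * F y z,
    fun z => cut (-o z) * del (fun y z => (s N)⁻¹ * F y z) z ^ 2, r, le, sB,
    W.A.mul sζ (Alg.pow (Alg.sub_const sS 1) 2), fun x => ⟨mB x,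
      mul_nonneg (cut_nonneg _) (sq_nonneg _), fun h1 => by simp only [ζ1 x h1, one_mul],
      fun h1 => by simp only [cut_zero (neg_nonpos.2 h1), zero_mul]⟩, fun x hxL => ?_⟩
  have ad := abs_del_le (P := fun y z => (s N)⁻¹ * F y z) (hKG ▸ K1) (mB x)
  rw [← hKG] at ad
  refine ⟨fun y => ?_, ?_, ?_⟩
  · have := (H x hxL).1 (Pi.single y (s N)⁻¹)
    simp only [Pi.single_apply, ite_mul, zero_mul, sum_ite_eq', mem_univ, if_true, ite_pow,
      zero_pow two_ne_zero] at this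
    rw [sq, mul_assoc, inv_mul_cancel₀ S0.ne', mul_one] at this
    linarith only [this, iS, i0, le_mul_of_one_le_left i0 (one_le_pow₀ (n := 3) K1)]
  · have g1 := (H x hxL).1 fun _ => (s N)⁻¹
    rw [sum_const, card_univ, nsmul_eq_mul, ← hKG, sq, mul_assoc, mul_assoc, inv_mul_cancel₀ S0.ne',
      mul_one] at g1
    have := gam_q (K := K) sS sζ (cut_nonneg _) (cut_le_one _) (by rw [W.ps_p]; exact ad) g1
      ((le x hxL _ sζ).trans (gζ x hxL))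
    exact this.trans (by linarith only [iS, τ5])
  obtain ⟨i1, i2⟩ := (H x hxL).2 _ _ rfl rfl
  have eπ : 2 / e - N * (h / (e * T)) = 1 / e := by rw [← hN]; field_simp; norm_num
  have a0 := start (st := st) (π := 2 / e) (Sg := s N) (Λ := Λ * K) (fun z => cut (-o z)) hKG K1 df0
    df2 p.w00.le (fun y => (sm y).1) (d0 x) fun y => ⟨((hx x).2.1 y).1, ((hx x).2.1 y).2.1,
      ((hx x).2.1 y).2.2.1, ((hL x hxL).1 y).1⟩
  have qN := q _ (Nat.sub_lt (Nat.cast_pos.1 N0) one_pos)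
  rw [show N - 1 + 1 = N from Nat.sub_add_cancel (Nat.cast_pos.1 N0)] at qN
  have a1 := finish (st := st') (a := a) (ζ := fun z => cut (-o z)) (π := 1 / e) S0
    (p.w00.le.trans (qN.w0_le.trans qN.le_w')) hΛ (cut_nonneg _) (fun y => (hP y).1)
    (fun y => df0.le.trans ((hP y).2.2 x).1) ad
  rw [eπ, hN, ew] at i1 i2
  have a2 : 0 ≤ 1 / e * cut (-o x) * del P x ^ 2 := by have := cut_nonneg (-o x); positivity
  split_ifs with h1
  · linarith only [i1 h1, a0, a1, a2, df3, w02, et, ht]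
  have h2 : ϖ x < 1 := lt_of_le_of_ne (hx x).2.2.2.1 h1
  rcases i2 h2 with k | k
  · have b1 := mul_nonneg p.κ0 (Real.log_nonneg (le_add_of_nonneg_right (W.ps st' x).bn_nonneg))
    have b2 := abs_le.1 qN.g1'
    have c0 := zero_le_one.trans p.c11
    have b4 : c1 * h ≤ c1 := mul_le_of_le_one_right c0 p.h1
    have b5 : γ1 N * del P x ≤ 2 * c1 * |del P x| := (le_abs_self _).trans (by
      rw [abs_mul]
      exact mul_le_mul_of_nonneg_right (abs_le.2 ⟨by linarith only [b2.1, b4, c0, qN.g1.1],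
        by linarith only [b2.2, b4, qN.g1.2]⟩) (abs_nonneg _))
    have b6 : 2 * c1 * |del P x| ≤ 2 / e / 2 * del P x ^ 2 + t / 20 := abs_le_sq (by positivity) (by
      rw [show 2 * (2 / e) * (t / 20) = 4 * (t / 20) / e by ring, le_div_iff₀ e0]
      linarith only [e3])
    have e4 : 2 / e / 2 * del P x ^ 2 = 1 / e * cut (-o x) * del P x ^ 2 := by rw [ζ1 x h2]; ring
    linarith only [k, a0, a1, df3, w02, ht, LS, b1, b5, b6, e4]
  · linarith only [k, a0, a1, a2, df3, w02, ht, sq_nonneg μ]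

end Rn

/-- **RUN** -/
theorem run (hR : RoundStmt) (hC : ConvStmt) (hS : SchedStmt) : RunStmt := by
  intro n W G _ _ μ t Λ Am K0 hn hμ ht hΛ hA hK
  obtain ⟨K, hKG⟩ : ∃ K : ℝ, K = Fintype.card (Option G) := ⟨_, rfl⟩
  have K1 : 1 ≤ K := by rw [hKG]; exact_mod_cast Fintype.card_pos
  have n0 : 0 < n := one_pos.trans_le hn
  obtain ⟨df, df0, df1, df2, df3⟩ := small2 K (2 * K * Am) one_pos (show 0 < t / 20 by positivity)
    (by positivity) (by positivity)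
  obtain ⟨w0, w00, w01, w02⟩ := small (K * (K0 / df) / 2) (show 0 < t / 20 by positivity)
  obtain ⟨T, T0, T1⟩ : ∃ T : ℝ, 0 < T ∧ 16 * K ^ 3 ≤ t * (T * w0) :=
    ⟨16 * K ^ 3 / (t * w0), by positivity, le_of_eq (by field_simp)⟩
  obtain ⟨w1, c1, h0, c11, h00, hS⟩ := hS n μ w0 T hn hμ w00 w01 T0
  obtain ⟨C, C1, hR⟩ := hR n W (Option G) w0 w1 df Am (1 / 400) hn w00 df0 df1 hA (by norm_num)
    (by norm_num)
  obtain ⟨α, hα⟩ : ∃ α : ℝ, α = μ ^ 3 / (2 * n) := ⟨_, rfl⟩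
  rw [← hα] at hS ⊢
  have α0 : 0 ≤ α := by rw [hα]; positivity
  obtain ⟨t', t0, et⟩ : ∃ t' : ℝ, 0 < t' ∧ t' * T = t / 20 :=
    ⟨t / (20 * T), by positivity, by field_simp⟩
  obtain ⟨l', l0, -, l1⟩ := small (α * K) t0
  obtain ⟨Vm, V0, V1⟩ : ∃ Vm : ℝ, 0 ≤ Vm ∧ α / l' + 1 + 2 * c1 ≤ w0 * Vm / 2 :=
    ⟨2 * (α / l' + 1 + 2 * c1) / w0, by positivity, le_of_eq (by field_simp)⟩
  obtain ⟨τ1, τ0, -, τ2⟩ := small (2 * w1 * K * Vm / df) t0
  obtain ⟨c3, c30, c31⟩ : ∃ c3 : ℝ, 0 ≤ c3 ∧ Λ * K / (T * w0) * |w1| ≤ c3 :=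
    ⟨_, by positivity, le_rfl⟩
  obtain ⟨c2, c21⟩ : ∃ c2, n * c1 ^ 2 / (2 * w0) + α * c1 + c1 + 2 * c1 * Vm + c3 ≤ c2 := ⟨_, le_rfl⟩
  obtain ⟨cr, cr1⟩ : ∃ cr, α * c1 * K + 1 + 4 * n * (2 * c1 + 1) ^ 2 / w0 ^ 2 + 2 * t' + c3 * K ≤ cr :=
    ⟨_, le_rfl⟩
  have cr0 : 0 ≤ cr := le_trans (by positivity) cr1
  obtain ⟨ε, ε0, ε1, ε2, ε3⟩ := small2 1 (1000 * n) t0 (show 0 < t' * w0 ^ 2 by positivity)
    zero_le_one (by positivity)
  refine ⟨τ1, τ0, fun B0 => ?_⟩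
  obtain ⟨κ, κ0, -, κ1, κ2, κ3⟩ := small3 C (8 * T) (Real.log (1 + |B0|)) (lt_min one_pos t0) one_pos
    (show 0 < t / 20 by positivity) (by positivity) (by positivity)
    (Real.log_nonneg (le_add_of_nonneg_right (abs_nonneg B0)))
  obtain ⟨B, B0', B1⟩ : ∃ B : ℝ, 0 ≤ B ∧
      cr * T + t / 20 + (13 / 2 * μ ^ 2 + t / 4) + c1 * K ≤ κ * Real.log (1 + B) := by
    refine ⟨Real.exp ((cr * T + t / 20 + (13 / 2 * μ ^ 2 + t / 4) + c1 * K) / κ) - 1,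
      sub_nonneg.2 (Real.one_le_exp (by positivity)), le_of_eq ?_⟩
    rw [add_sub_cancel, Real.log_exp]; field_simp
  obtain ⟨e, e0, -, e1, e2, e3⟩ := small3 (c1 ^ 2 * B ^ 2) (c2 ^ 2 * T) (c1 ^ 2) ε0
    (show 0 < 2 * t' by positivity) (show 0 < t / 20 by positivity) (by positivity) (by positivity)
    (by positivity)
  obtain ⟨h1, κr, h10, κr0, hR⟩ := hR (2 * c1 + α / l') (2 / e) ε (by positivity) (by positivity) ε0
  obtain ⟨h2, h20, h21, h22, h23, h24⟩ := small3 1 1 Vm h00 h10 one_pos zero_le_one zero_le_one V0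
  obtain ⟨N, N0, N1⟩ : ∃ N : ℕ, (0 : ℝ) < N ∧ T / N ≤ h2 := by
    obtain ⟨N, hN⟩ := exists_nat_gt (T / h2)
    have : (0 : ℝ) < N := lt_trans (by positivity) hN
    exact ⟨N, this, by rw [div_le_iff₀ this, mul_comm, ← div_le_iff₀ h20]; exact hN.le⟩
  obtain ⟨h, hh, hN⟩ : ∃ h : ℝ, h = T / N ∧ N * h = T := ⟨_, rfl, by field_simp⟩
  rw [← hh] at N1
  have hh0 : 0 < h := by rw [hh]; positivity
  obtain ⟨w, lam, γ1, γ2, ew, q, hls⟩ := hS h N hh0 (by linarith only [N1, h22]) hN.le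
  have c0 := one_le_cc
  obtain ⟨τ, τ0', -, τ3, τ4, τ5⟩ := small3 ((4 * N) ^ 2) ((2 / e) ^ 2 * cc ^ 2) (2 * K ^ 4 * cc ^ 2)
    one_pos κr0 (half_pos ht) (by positivity) (by positivity) (by positivity)
  exact ⟨τ, τ0', fun st χ a ϖ o sm sϖ so hx hL => core hC hKG (c2 := c2) (l' := l') (τ1 := τ1)
    ⟨hn, K1, df0, w00, α0, c11, T0, t0, l0, by linarith only [l1], V0, V1, τ0.le,
      le_of_eq_of_le (by ring) τ2, c30, c21, cr1, ε0, ε1, by linarith only [ε2], ε3,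
      zero_le_one.trans C1, κ0.le, by linarith only [min_le_left 1 t', κ1],
      by linarith only [min_le_right 1 t', κ1], κ2, B0', e0, e1, by linarith only [e2],
      le_add_of_nonneg_right (by positivity), by
        rw [add_mul, div_mul_cancel₀ _ l0.ne']; exact le_add_of_nonneg_left (by positivity),
      hh0, N1.trans h21, by linarith only [mul_le_mul_of_nonneg_right N1 V0, h24]⟩
    (fun w st P0 a o pf c => hR h w st P0 a o pf c hh0 (by linarith only [N1, h23])) hN ew q hls ht hΛ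
    df2 df3 w02 T1 et c31 κ3 B1 e3 τ3 τ4 τ5 sm sϖ so hx hL⟩

end Crest.Agent.N228.H

end
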