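import Crest.Agent.N228.H.Defs

/-! # Row 228, part A' (helper71): one round with conversion and banking -/

set_option autoImplicit false
set_option linter.dupNamespace false
open Finset

noncomputable section

namespace Crest.Agent.N228.H.Rn

open Crest.Agent.N222.A

theorem master {n η h w α lam γ ε Φ0 Φ1 δ0 δ S I a dw : ℝ} (hn : 0 < n) (hη : η < 1) (hh : 0 < h)
    (hw : 0 < w) (hI : 0 ≤ I) (ha : α / lam + ε + dw / (2 * h) - γ ≤ a)
    (H : Φ0 + γ * δ0 + S - h * (n * γ ^ 2 / (4 * w * (1 - η)) + α * lam) * (1 + δ) - ε * h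
      + (1 - η) * (h * w ^ 2 / (8 * n)) * I ^ 2 ≤ Φ1 - h * (γ - α / lam - ε) * I + γ * δ) :
    Φ0 + γ * δ0 + S - h * (n * γ ^ 2 / (4 * w * (1 - η)) + α * lam) * (1 + δ) - ε * h
      - 2 * n * a ^ 2 / ((1 - η) * w ^ 2) * h ≤ Φ1 - dw / 2 * I + γ * δ := by
  have h1 : 0 < 1 - η := sub_pos.2 hη
  have h2 : h * a * I ≤ (1 - η) * (h * w ^ 2 / (8 * n)) * I ^ 2
      + 2 * n * a ^ 2 / ((1 - η) * w ^ 2) * h := by
    have e : (1 - η) * (h * w ^ 2 / (8 * n)) * I ^ 2 + 2 * n * a ^ 2 / ((1 - η) * w ^ 2) * h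
        - h * a * I = h / (8 * n * ((1 - η) * w ^ 2)) * ((1 - η) * w ^ 2 * I - 4 * n * a) ^ 2 := by
      field_simp
      ring
    have : 0 ≤ h / (8 * n * ((1 - η) * w ^ 2)) * ((1 - η) * w ^ 2 * I - 4 * n * a) ^ 2 := by
      positivity
    linarith
  have h3 := mul_le_mul_of_nonneg_right (mul_le_mul_of_nonneg_left ha hh.le) hI
  have e : h * (α / lam + ε + dw / (2 * h) - γ) * I = dw / 2 * I - h * (γ - α / lam - ε) * I := by
    field_simp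
    ring
  linarith

theorem abs_le_sq {c d δ t : ℝ} (hd : 0 < d) (h : c ^ 2 ≤ 2 * d * t) :
    c * |δ| ≤ d / 2 * δ ^ 2 + t := by
  rw [← sq_abs δ]
  have : 2 * d * (c * |δ|) ≤ 2 * d * (d / 2 * |δ| ^ 2 + t) := by nlinarith [sq_nonneg (d * |δ| - c)]
  exact le_of_mul_le_mul_left this (by positivity)

/-- the numbers which do not depend on the round -/
structure Par (n K df w0 w1 α c1 T t Vm l' τ1 c2 c3 cr ε C κ B e sb h : ℝ) : Prop where
  n1 : 1 ≤ n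
  K1 : 1 ≤ K
  df0 : 0 < df
  w00 : 0 < w0
  α0 : 0 ≤ α
  c11 : 1 ≤ c1
  T0 : 0 < T
  t0 : 0 < t
  l0 : 0 < l'
  l1 : α * l' * K ≤ t
  V0 : 0 ≤ Vm
  V1 : α / l' + 1 + 2 * c1 ≤ w0 * Vm / 2
  τ0 : 0 ≤ τ1
  τ2 : 2 * w1 * K * Vm * τ1 / df ≤ t
  c30 : 0 ≤ c3
  c21 : n * c1 ^ 2 / (2 * w0) + α * c1 + c1 + 2 * c1 * Vm + c3 ≤ c2
  cr1 : α * c1 * K + 1 + 4 * n * (2 * c1 + 1) ^ 2 / w0 ^ 2 + 2 * t + c3 * K ≤ cr
  ε0 : 0 < ε
  ε1 : ε ≤ 1
  ε2 : ε ≤ t
  ε3 : 1000 * n * ε ≤ t * w0 ^ 2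
  C0 : 0 ≤ C
  κ0 : 0 ≤ κ
  κ1 : κ * C ≤ 1
  κ2 : κ * C ≤ t
  κ3 : 8 * T * κ ≤ 1
  B0 : 0 ≤ B
  e0 : 0 < e
  e1 : c1 ^ 2 * B ^ 2 * e ≤ ε
  e2 : c2 ^ 2 * (e * T) ≤ 2 * t
  s1 : 2 * c1 ≤ sb
  s2 : α ≤ sb * l'
  h0 : 0 < h
  h1 : h ≤ 1
  h2 : h * Vm ≤ 1

set_option maxHeartbeats 1600000 in
/-- the three estimates of a round; `Y` is the potential after conversion and banking -/
theorem three {n K df w0 w1 α c1 T t Vm l' τ1 c2 c3 cr ε C κ B e sb h : ℝ}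
    (p : Par n K df w0 w1 α c1 T t Vm l' τ1 c2 c3 cr ε C κ B e sb h)
    {w w' lam γ1 γ1' γ2 : ℝ} (q : Num w0 w1 α c1 h w w' lam γ1 γ1' γ2)
    {π ζ ϖ Φ0 Φ1 Y δ0 δ S I be b b' : ℝ} {core : Prop} (π1 : 1 / e ≤ π) (π2 : π ≤ 2 / e)
    (ζ0 : 0 ≤ ζ) (ζ1 : ζ ≤ 1) (ϖ0 : 0 ≤ ϖ) (ϖ1 : ϖ ≤ 1) (hc : ϖ < 1 → ζ = 1 ∧ core)
    (hδ : 0 ≤ 1 + δ ∧ 1 + δ ≤ K) (hI : 0 ≤ I) (hS : 0 ≤ S) (hbe : 0 ≤ be)
    (l1 : Real.log (1 + be) ≤ Real.log (1 + b) + C * (h + S))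
    (l2 : Real.log (1 + b') ≤ Real.log (1 + b) + C * (h + S) + h * (π * ζ) * δ ^ 2)
    (H : ∀ lam γ : ℝ, 0 < lam → α ≤ sb * lam → 0 ≤ γ → γ ≤ sb →
      (γ = 0 ∨ (core ∧ γ ^ 2 * be ^ 2 ≤ ε * (π * ζ))) →
      Φ0 + γ * δ0 + S - h * (n * γ ^ 2 / (4 * w * (1 - 1 / 400)) + α * lam) * (1 + δ) - ε * h
        + (1 - 1 / 400) * (h * w ^ 2 / (8 * n)) * I ^ 2 ≤ Φ1 - h * (γ - α / lam - ε) * I + γ * δ)
    (hY : Φ1 - (w' * (1 - h * Vm * ϖ ^ 2) - w) / 2 * I - t * h + h / (e * T) * ζ * δ ^ 2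
      - c3 * h * ζ * |δ| ≤ Y) :
    Φ0 - cr * h ≤ Y ∧ (ϖ = 1 → Φ0 - 5 * t * h ≤ Y) ∧ (ϖ < 1 →
      Φ0 + γ1 * δ0 - κ * Real.log (1 + b) - (101 / 100 * price n α w lam γ1 γ2 + 5 * t) * h ≤
        Y + γ1' * ((1 - h * Vm * ϖ ^ 2) * δ) - κ * Real.log (1 + b') ∨
      Φ0 - κ * Real.log (1 + b) + κ * Real.log (1 + B) - cr * h ≤ Y) := by
  have n0 : 0 < n := one_pos.trans_le p.n1
  have h0 := p.h0
  have w0' := p.w00
  have hw : 0 < w := w0'.trans_le q.w0_le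
  have α0 := p.α0
  have t0 := p.t0
  have e0 := p.e0
  have T0 := p.T0
  have l0 := q.lam0
  have c0 : 0 ≤ c1 := zero_le_one.trans p.c11
  have aδ : |δ| ≤ K := abs_le.2 ⟨by linarith [p.K1], by linarith⟩
  have x0 : 0 ≤ h * Vm * ϖ ^ 2 := by have := p.V0; positivity
  have x1 : h * Vm * ϖ ^ 2 ≤ h * Vm :=
    mul_le_of_le_one_right (mul_nonneg h0.le p.V0) (pow_le_one₀ ϖ0 ϖ1)
  have dw : (w' * (1 - h * Vm * ϖ ^ 2) - w) / (2 * h) ≤ (w' - w) / (2 * h) :=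
    div_le_div_of_nonneg_right (by linarith [mul_nonneg (hw.le.trans q.le_w') x0]) (by positivity)
  have dw0 : 0 ≤ (w' - w) / (2 * h) := div_nonneg (sub_nonneg.2 q.le_w') (by positivity)
  have al0 : 0 ≤ α / lam := by positivity
  have al : α ≤ sb * lam := by
    rw [← div_le_iff₀ l0]; linarith [q.sum, q.g1.2, q.g2.2, p.s1]
  have d0 : 0 ≤ h / (e * T) * ζ * δ ^ 2 := by positivity
  have crude : Φ0 + S - (cr - t) * h ≤ Y := by
    have M := master (a := 2 * c1 + 1) (dw := w' * (1 - h * Vm * ϖ ^ 2) - w) n0 (by norm_num) h0 hw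
      hI (by linarith [q.sum, q.g1.2, q.g2.2, p.ε1])
      (H lam 0 l0 al le_rfl (by linarith [p.s1]) (Or.inl rfl))
    have a1 : α * lam * (1 + δ) ≤ α * c1 * K :=
      mul_le_mul (mul_le_mul_of_nonneg_left q.lam1 α0) hδ.2 hδ.1 (by positivity)
    have a2 : 2 * n * (2 * c1 + 1) ^ 2 / ((1 - 1 / 400) * w ^ 2) ≤
        4 * n * (2 * c1 + 1) ^ 2 / w0 ^ 2 := by
      rw [div_le_div_iff₀ (by positivity) (pow_pos w0' 2)]
      have := pow_le_pow_left₀ w0'.le q.w0_le 2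
      have h5 : 0 ≤ n * (2 * c1 + 1) ^ 2 := by positivity
      linarith [mul_le_mul_of_nonneg_left this h5, mul_nonneg h5 (sq_nonneg w)]
    have a3 : c3 * (ζ * |δ|) ≤ c3 * K := mul_le_mul_of_nonneg_left
      ((mul_le_of_le_one_left (abs_nonneg _) ζ1).trans aδ) p.c30
    have a4 := mul_le_mul_of_nonneg_right
      (show α * lam * (1 + δ) + ε + 2 * n * (2 * c1 + 1) ^ 2 / ((1 - 1 / 400) * w ^ 2) + t
        + c3 * (ζ * |δ|) ≤ cr - t by linarith [p.cr1, p.ε1]) h0.le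
    simp only [zero_mul, add_zero, ne_eq, OfNat.ofNat_ne_zero, not_false_eq_true, zero_pow,
      mul_zero, zero_div, zero_add] at M
    linarith
  have c3le : c3 ≤ c2 := by
    have : 0 ≤ n * c1 ^ 2 / (2 * w0) := div_nonneg (by positivity) (mul_pos two_pos w0').le
    linarith [p.c21, mul_nonneg α0 c0, mul_nonneg c0 p.V0]
  have ab : c2 * |δ| ≤ 1 / (e * T) / 2 * δ ^ 2 + t := abs_le_sq (by positivity) (by
    rw [show 2 * (1 / (e * T)) * t = 2 * t / (e * T) by ring, le_div_iff₀ (by positivity)]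
    exact p.e2)
  have th := mul_pos t0 h0
  refine ⟨by linarith, fun hϖ => ?_, fun hϖ => ?_⟩
  · have M := master (a := 0) (dw := w' * (1 - h * Vm * ϖ ^ 2) - w) n0 (by norm_num) h0 hw hI (by
      have e1 : (w' * (1 - h * Vm * ϖ ^ 2) - w) / (2 * h) = (w' - w) / (2 * h) - w' * Vm / 2 := by
        rw [hϖ]; field_simp; ring
      have := mul_le_mul_of_nonneg_right (q.w0_le.trans q.le_w') p.V0
      linarith [q.sum, q.g1.2, q.g2.2, p.ε1, p.V1])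
      (H l' 0 p.l0 p.s2 le_rfl (by linarith [p.s1]) (Or.inl rfl))
    have a1 : α * l' * (1 + δ) ≤ t :=
      (mul_le_mul_of_nonneg_left hδ.2 (mul_nonneg α0 p.l0.le)).trans p.l1
    have a2 : c3 * |δ| ≤ 1 / (e * T) / 2 * δ ^ 2 + t :=
      (mul_le_mul_of_nonneg_right c3le (abs_nonneg _)).trans ab
    have a3 := mul_le_mul_of_nonneg_left a2 (mul_nonneg h0.le ζ0)
    have a4 : h * ζ * t ≤ t * h := by linarith [mul_le_of_le_one_right th.le ζ1]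
    have a5 := mul_le_mul_of_nonneg_left a1 h0.le
    have a6 := mul_le_mul_of_nonneg_right p.ε2 h0.le
    simp only [zero_mul, add_zero, ne_eq, OfNat.ofNat_ne_zero, not_false_eq_true, zero_pow,
      mul_zero, zero_div, zero_add] at M
    have e2 : h * ζ * (1 / (e * T) / 2 * δ ^ 2 + t) = h / (e * T) * ζ * δ ^ 2 / 2 + h * ζ * t := by
      ring
    linarith
  obtain ⟨rfl, hcore⟩ := hc hϖ
  have k1 : κ * (C * (h + S)) ≤ t * h + S := by
    linarith [mul_le_mul_of_nonneg_right p.κ1 hS, mul_le_mul_of_nonneg_right p.κ2 h0.le]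
  rcases le_or_gt be B with hB | hB
  · left
    have M := master (a := γ2 + ε) (dw := w' * (1 - h * Vm * ϖ ^ 2) - w) n0 (by norm_num) h0 hw
      hI (by linarith [q.sum]) (H lam γ1 l0 al q.g1.1 (by linarith [p.s1, q.g1.2]) (Or.inr ⟨hcore, by
        have a1 : γ1 ^ 2 * be ^ 2 ≤ c1 ^ 2 * B ^ 2 := mul_le_mul (pow_le_pow_left₀ q.g1.1 q.g1.2 2)
          (pow_le_pow_left₀ hbe hB 2) (sq_nonneg _) (sq_nonneg _)
        have a2 : c1 ^ 2 * B ^ 2 ≤ ε * (1 / e) := by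
          rw [mul_one_div, le_div_iff₀ e0]; exact p.e1
        linarith [mul_le_mul_of_nonneg_left π1 p.ε0.le]⟩))
    set A1 := n * γ1 ^ 2 / (4 * w * (1 - 1 / 400)) + α * lam with hA1
    have a0 : 0 ≤ A1 := by positivity
    have a1 : A1 ≤ n * c1 ^ 2 / (2 * w0) + α * c1 :=
      add_le_add (div_le_div₀ (by positivity) (mul_le_mul_of_nonneg_left
        (pow_le_pow_left₀ q.g1.1 q.g1.2 2) n0.le) (mul_pos two_pos w0') (by linarith [q.w0_le]))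
        (mul_le_mul_of_nonneg_left q.lam1 α0)
    have a2 : A1 + 2 * n * (γ2 + ε) ^ 2 / ((1 - 1 / 400) * w ^ 2) ≤
        101 / 100 * price n α w lam γ1 γ2 + t := by
      have b1 : n * γ1 ^ 2 / (4 * w * (1 - 1 / 400)) = 400 / 399 * (n * γ1 ^ 2 / (4 * w)) := by
        field_simp; norm_num
      have b2 : 2 * n * (γ2 + ε) ^ 2 / ((1 - 1 / 400) * w ^ 2) ≤
          101 / 100 * (2 * n * γ2 ^ 2 / w ^ 2) + t := by
        rw [div_le_iff₀ (by positivity)]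
        have b3 : (101 / 100 * (2 * n * γ2 ^ 2 / w ^ 2) + t) * ((1 - 1 / 400) * w ^ 2) =
            399 / 400 * (101 / 50 * (n * γ2 ^ 2) + t * w ^ 2) := by field_simp; ring
        have b4 := mul_le_mul_of_nonneg_left (pow_le_pow_left₀ w0'.le q.w0_le 2) t0.le
        have b5 : n * ε * ε ≤ n * ε := mul_le_of_le_one_right (mul_nonneg n0.le p.ε0.le) p.ε1
        rw [b3]
        linarith [p.ε3, mul_nonneg n0.le (sq_nonneg (γ2 - 200 * ε)), mul_nonneg n0.le (sq_nonneg γ2),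
          mul_nonneg n0.le p.ε0.le]
      have b6 : 0 ≤ n * γ1 ^ 2 / (4 * w) := by positivity
      have b7 : 0 ≤ α * lam := by positivity
      rw [hA1, b1, price]
      linarith
    have g1 : |γ1'| ≤ 2 * c1 := by
      have := abs_le.1 q.g1'
      have := mul_le_of_le_one_right c0 p.h1
      exact abs_le.2 ⟨by linarith [q.g1.1], by linarith [q.g1.2]⟩
    have a3 : γ1 * δ - γ1' * ((1 - h * Vm * ϖ ^ 2) * δ) ≤ (c1 * h + 2 * c1 * (h * Vm)) * |δ| := by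
      rw [show γ1 * δ - γ1' * ((1 - h * Vm * ϖ ^ 2) * δ) =
        (-(γ1' - γ1) + γ1' * (h * Vm * ϖ ^ 2)) * δ by ring]
      refine (le_abs_self _).trans ?_
      rw [abs_mul]
      refine mul_le_mul_of_nonneg_right ((abs_add_le _ _).trans (add_le_add ?_ ?_)) (abs_nonneg _)
      · rw [abs_neg]; exact q.g1'
      · rw [abs_mul, abs_of_nonneg x0]; exact mul_le_mul g1 x1 x0 (by positivity)
    have a4 : A1 * δ ≤ A1 * |δ| := mul_le_mul_of_nonneg_left (le_abs_self δ) a0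
    have a5 : (A1 + c1 + 2 * c1 * Vm + c3) * |δ| ≤ c2 * |δ| :=
      mul_le_mul_of_nonneg_right (by linarith [p.c21]) (abs_nonneg _)
    have a6 := mul_le_mul_of_nonneg_left (a5.trans ab) h0.le
    have a7 : κ * (h * (π * 1) * δ ^ 2) ≤ h / (e * T) * 1 * δ ^ 2 / 4 := by
      have b1 : κ * π ≤ 1 / (e * T) / 4 := by
        refine (mul_le_mul_of_nonneg_left π2 p.κ0).trans ?_
        rw [div_div, ← mul_div_assoc, div_le_div_iff₀ e0 (by positivity)]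
        linarith [mul_le_mul_of_nonneg_left p.κ3 e0.le]
      have := mul_le_mul_of_nonneg_right b1 (mul_nonneg h0.le (sq_nonneg δ))
      refine le_of_eq_of_le (by ring) (this.trans_eq (by ring))
    have a8 := mul_le_mul_of_nonneg_left l2 p.κ0
    have a9 := mul_le_mul_of_nonneg_right a2 h0.le
    have a10 := mul_le_mul_of_nonneg_left a4 h0.le
    have a11 := mul_le_mul_of_nonneg_right p.ε2 h0.le
    have e2 : h * (1 / (e * T) / 2 * δ ^ 2 + t) = h / (e * T) * 1 * δ ^ 2 / 2 + t * h := by ring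
    linarith
  · right
    have a1 : Real.log (1 + B) ≤ Real.log (1 + be) :=
      Real.log_le_log (by linarith [p.B0]) (by linarith)
    have a2 := mul_le_mul_of_nonneg_left (a1.trans l1) p.κ0
    linarith

end Crest.Agent.N228.H.Rn

end
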