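import Crest.Agent.N228.H.Run0

/-! # Row 228, part A' (helper71): one round in the world -/

set_option autoImplicit false
set_option linter.dupNamespace false
open Finset

noncomputable section

namespace Crest.Agent.N228.H.Rn

open Crest.Agent.N222.A

variable {n : ℝ} (W : W2 n) {G : Type} [Fintype G]

/-- the conclusion of `RoundStmt` -/
def Rd (G : Type) [Fintype G] (w0 w1 df Am η C sb πb ε κ h : ℝ) : Prop :=
  ∀ (w : ℝ) (st : W.St) (P0 a : G → W.Z → ℝ) (o pf : W.Z → ℝ) (c : G → ℝ),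
    w0 ≤ w → w ≤ w1 → (∀ y, W.A.Sm (P0 y) ∧ W.A.Sm (a y) ∧ df ≤ c y ∧ c y ≤ 1 ∧ ∀ x,
      df ≤ P0 y x ∧ P0 y x ≤ 1 ∧ 0 ≤ a y x ∧ a y x ≤ Am ∧ (1 ≤ o x → P0 y x = c y ∧ a y x = 0)) →
    W.A.Sm o → W.A.Sm pf → (∀ x, 0 ≤ pf x ∧ pf x ≤ πb ∧ (1 ≤ o x → pf x = 0)) →
    (∀ x, 5 ≤ W.om x → 5 ≤ o x) →
    (∀ x ∈ W.L, (W.ps st x).T.Γ o o ≤ 1 ∧ (W.ps st x).T.Γ pf pf ≤ κ) →
    ∃ (st' : W.St) (P : G → W.Z → ℝ), W.R st st' ∧
      (∀ y, W.A.Sm (P y) ∧ ∀ x, df ≤ P y x ∧ P y x ≤ 1 ∧ (5 ≤ o x → P y x = c y)) ∧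
      ∀ x ∈ W.L, (∀ (f : W.Z → ℝ) (t : G → ℝ), W.A.Sm f →
          (W.ps st' x).T.Γ (fun z => f z + ∑ y, t y * P y z) (fun z => f z + ∑ y, t y * P y z) ≤
            (W.ps st x).T.Γ f f + ∑ y, t y ^ 2 / (h * w)) ∧
        ∃ S be : ℝ, 0 ≤ S ∧ 0 ≤ be ∧
          Real.log (1 + be) ≤ Real.log (1 + (W.ps st x).bn) + C * (h + S) ∧
          Real.log (1 + (W.ps st' x).bn) ≤
            Real.log (1 + (W.ps st x).bn) + C * (h + S) + h * pf x * del P x ^ 2 ∧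
          ∀ α lam γ : ℝ, 0 ≤ α → 0 < lam → α ≤ sb * lam → (∀ y, (W.ps st x).T.Γ (a y) (a y) ≤ α ^ 2) →
            0 ≤ γ → γ ≤ sb → (γ = 0 ∨ (o x < 1 ∧ γ ^ 2 * be ^ 2 ≤ ε * pf x)) →
            (W.ps st x).Φ w a P0 pf + γ * del P0 x + S
              - h * (n * γ ^ 2 / (4 * w * (1 - η)) + α * lam) * (1 + del P x) - ε * h
              + (1 - η) * (h * w ^ 2 / (8 * n)) * (W.ps st' x).I P ^ 2 ≤
            (W.ps st' x).Φ w a P pf - h * (γ - α / lam - ε) * (W.ps st' x).I P + γ * del P x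

/-- the potential with the banked terms -/
def Ψ (st : W.St) (w π Sg Λ s : ℝ) (a P F : G → W.Z → ℝ) (ζ : W.Z → ℝ) (x : W.Z) : ℝ :=
  (W.ps st x).Φ w (fun y z => (1 - s / Sg) * a y z) P (fun z => π * ζ z)
    - 2 / Sg * ∑ y, a y x * F y x - Λ / Sg * ζ x * |∑ y, F y x - s|

variable {W}

theorem I_nonneg {st : W.St} {P : G → W.Z → ℝ} (hP : ∀ y, W.A.Sm (P y)) {x : W.Z}
    (h0 : ∀ y, 0 ≤ P y x) : 0 ≤ (W.ps st x).I P :=
  sum_nonneg fun y _ => div_nonneg ((W.ps st x).T.nonneg (hP y)) (by rw [W.ps_p]; exact h0 y)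

theorem rd (hC : ConvStmt) {df w0 w1 α c1 T t Vm l' τ1 c2 c3 cr ε C κ B e sb h Am κr : ℝ}
    (p : Par n (Fintype.card G) df w0 w1 α c1 T t Vm l' τ1 c2 c3 cr ε C κ B e sb h)
    (hR : Rd W G w0 w1 df Am (1 / 400) C sb (2 / e) ε κr h)
    {w w' lam γ1 γ1' γ2 : ℝ} (q : Num w0 w1 α c1 h w w' lam γ1 γ1' γ2) {π Sg Λ s : ℝ}
    (π1 : 1 / e ≤ π - h / (e * T)) (π2 : π ≤ 2 / e) (s0 : 0 ≤ s) (s1 : s + h * w ≤ Sg) (Λ0 : 0 ≤ Λ)
    (Λ1 : Λ / Sg * w1 ≤ c3) {c : G → ℝ} (hc : ∀ y, df ≤ c y ∧ c y ≤ 1) (c1' : ∑ y, c y = 1)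
    {st : W.St} {a P0 : G → W.Z → ℝ} (F : G → W.Z → ℝ) {ϖ ζ o : W.Z → ℝ}
    (sa : ∀ y, W.A.Sm (a y)) (sP : ∀ y, W.A.Sm (P0 y)) (sϖ : W.A.Sm ϖ) (sζ : W.A.Sm ζ)
    (so : W.A.Sm o)
    (hx : ∀ x, (∀ y, df ≤ P0 y x ∧ P0 y x ≤ 1 ∧ 0 ≤ a y x ∧ a y x ≤ Am ∧ (ϖ x ≠ 0 → a y x = 0) ∧
      (1 ≤ o x → P0 y x = c y)) ∧ 0 ≤ ϖ x ∧ ϖ x ≤ 1 ∧ 0 ≤ ζ x ∧ ζ x ≤ 1 ∧
      (1 ≤ o x → ϖ x = 1 ∧ ζ x = 0) ∧ (ϖ x < 1 → ζ x = 1) ∧ (5 ≤ W.om x → 5 ≤ o x))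
    (hL : ∀ x ∈ W.L, (W.ps st x).T.Γ o o ≤ 1 ∧ (2 / e) ^ 2 * (W.ps st x).T.Γ ζ ζ ≤ κr ∧
      (∀ y, (W.ps st x).T.Γ (a y) (a y) ≤ α ^ 2) ∧ (W.ps st x).T.Γ ϖ ϖ ≤ τ1) :
    ∃ (st' : W.St) (P P' : G → W.Z → ℝ), W.R st st' ∧ W.Le st st' ∧
      (∀ y, W.A.Sm (P y) ∧ W.A.Sm (P' y) ∧ ∀ x, 0 ≤ P y x ∧ P y x ≤ 1 ∧ df ≤ P' y x ∧ P' y x ≤ 1 ∧
        (5 ≤ o x → P' y x = c y)) ∧
      ∀ x ∈ W.L, (∀ (f : W.Z → ℝ) (t : G → ℝ), W.A.Sm f →
          (W.ps st' x).T.Γ (fun z => f z + ∑ y, t y * P y z) (fun z => f z + ∑ y, t y * P y z) ≤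
            (W.ps st x).T.Γ f f + ∑ y, t y ^ 2 / (h * w)) ∧
        ∀ Φ0 Φ1, Φ0 = Ψ W st w π Sg Λ s a P0 F ζ x → Φ1 = Ψ W st' w' (π - h / (e * T)) Sg Λ
            (s + h * w) a P' (fun y z => F y z + h * w * P y z) ζ x →
          Φ0 - cr * h ≤ Φ1 ∧ (ϖ x = 1 → Φ0 - 5 * t * h ≤ Φ1) ∧ (ϖ x < 1 →
            Φ0 + γ1 * del P0 x - κ * Real.log (1 + (W.ps st x).bn)
              - (101 / 100 * price n α w lam γ1 γ2 + 5 * t) * h ≤
              Φ1 + γ1' * del P' x - κ * Real.log (1 + (W.ps st' x).bn) ∨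
            Φ0 - κ * Real.log (1 + (W.ps st x).bn) + κ * Real.log (1 + B) - cr * h ≤ Φ1) := by
  have h0 := p.h0
  have e0 := p.e0
  have T0 := p.T0
  have hw : 0 < w := p.w00.trans_le q.w0_le
  have hhw := mul_pos h0 hw
  have S0 : 0 < Sg := by linarith
  have d0 : 0 < h / (e * T) := by positivity
  have ie : 0 < 1 / e := by positivity
  have π0 : 0 ≤ π := by linarith
  have θ0 : 0 ≤ 1 - s / Sg := sub_nonneg.2 ((div_le_one S0).2 (by linarith))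
  have θ1 : 1 - s / Sg ≤ 1 := sub_le_self _ (div_nonneg s0 S0.le)
  obtain ⟨st', P, r, hP, H⟩ := hR w st P0 (fun y z => (1 - s / Sg) * a y z) o (fun z => π * ζ z) c
    q.w0_le (q.le_w'.trans q.le_w1) (fun y => ⟨sP y, Alg.smul _ (sa y), (hc y).1, (hc y).2, fun x => by
      obtain ⟨a1, a2, a3, a4, a5, a6⟩ := (hx x).1 y
      refine ⟨a1, a2, mul_nonneg θ0 a3, (mul_le_of_le_one_left a3 θ1).trans a4, fun h1 => ⟨a6 h1, ?_⟩⟩
      rw [a5 (by rw [((hx x).2.2.2.2.2.1 h1).1]; exact one_ne_zero), mul_zero]⟩)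
    so (Alg.smul _ sζ) (fun x => ⟨mul_nonneg π0 (hx x).2.2.2.1,
      (mul_le_of_le_one_right π0 (hx x).2.2.2.2.1).trans π2,
      fun h1 => by rw [((hx x).2.2.2.2.2.1 h1).2, mul_zero]⟩) (fun x => (hx x).2.2.2.2.2.2.2)
    fun x hxL => ⟨(hL x hxL).1, by
      rw [Pt.smul_left _ _ sζ (Alg.smul _ sζ), Pt.smul_right _ _ sζ sζ, ← mul_assoc, ← sq]
      exact (mul_le_mul_of_nonneg_right (pow_le_pow_left₀ π0 π2 2)
        ((W.ps st x).T.nonneg sζ)).trans (hL x hxL).2.1⟩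
  have le : W.Le st st' := fun x hxL f hf => by simpa using (H x hxL).1 f (fun _ => 0) hf
  set ev : W.Z → ℝ := fun z => h * Vm * ϖ z ^ 2 with hev
  have se : W.A.Sm ev := Alg.smul _ (Alg.pow sϖ 2)
  have hV := mul_nonneg h0.le p.V0
  have v0 : ∀ x, 0 ≤ ev x := fun x => mul_nonneg hV (sq_nonneg _)
  have v1 : ∀ x, ev x ≤ 1 := fun x =>
    (mul_le_of_le_one_right hV (pow_le_one₀ (hx x).2.1 (hx x).2.2.1)).trans p.h2
  refine ⟨st', P, fun y z => (1 - ev z) * P y z + ev z * c y, r, le, fun y => ⟨(hP y).1,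
    W.A.add (W.A.mul (Alg.const_sub 1 se) (hP y).1) (Alg.mul_const se _), fun x => ?_⟩,
    fun x hxL => ⟨(H x hxL).1, ?_⟩⟩
  · obtain ⟨a1, a2, a3⟩ := (hP y).2 x
    have := v0 x
    have := v1 x
    refine ⟨p.df0.le.trans a1, a2, by nlinarith [(hc y).1], by nlinarith [(hc y).2], fun h5 => ?_⟩
    simp only [a3 h5]; ring
  rintro _ _ rfl rfl
  obtain ⟨S, be, hS, hbe, l1, l2, H⟩ := (H x hxL).2
  obtain ⟨hy, ϖ0, ϖ1, ζ0, ζ1, ho, hζ, -⟩ := hx x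
  have hd : del (fun y z => (1 - ev z) * P y z + ev z * c y) x = (1 - ev x) * del P x := by
    simp only [del, sum_add_distrib, ← mul_sum, c1']; ring
  have P0' : ∀ y, 0 ≤ P y x := fun y => p.df0.le.trans ((hP y).2 x).1
  have hI := I_nonneg (st := st') (fun y => (hP y).1) P0'
  have f1 : (W.ps st' x).I (fun y z => (1 - ev z) * P y z + ev z * c y) ≤
      (1 - ev x) * (W.ps st' x).I P + Fintype.card G * (4 * (h * Vm) * τ1 / df) := by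
    have g1 : (W.ps st' x).T.Γ ev ev ≤ 4 * (h * Vm) * τ1 * ev x := by
      rw [hev, Pt.chain_self (φ := fun s => h * Vm * s ^ 2) _ sϖ se
        ((hasDerivAt_pow 2 _).const_mul (h * Vm)), W.ps_p]
      have := mul_le_mul_of_nonneg_left ((le x hxL ϖ sϖ).trans (hL x hxL).2.2.2)
        (mul_nonneg (mul_nonneg (zero_le_four (α := ℝ)) hV) (v0 x))
      refine le_of_eq_of_le ?_ (this.trans_eq (by ring))
      simp only [hev]; push_cast; ring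
    rw [PS.I, PS.I, mul_sum, ← nsmul_eq_mul, ← card_univ, ← sum_const, ← sum_add_distrib]
    refine sum_le_sum fun y _ => ?_
    have := hC _ _ (W.ps st' x) (P y) ev (c y) df (4 * (h * Vm) * τ1) (hP y).1 se p.df0
    rw [W.ps_p] at this
    exact this ((hP y).2 x).1 ((hP y).2 x).2.1 (hc y).1 (hc y).2 (v0 x) (v1 x)
      (mul_nonneg (mul_nonneg zero_le_four hV) p.τ0) g1
  have f2 : ∑ y, (1 - (s + h * w) / Sg) * a y x * ((1 - ev x) * P y x + ev x * c y)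
      + 1 / Sg * ∑ y, a y x * (F y x + h * w * P y x) =
      ∑ y, (1 - s / Sg) * a y x * P y x + 1 / Sg * ∑ y, a y x * F y x := by
    simp only [mul_sum, ← sum_add_distrib]
    refine sum_congr rfl fun y _ => ?_
    by_cases h1 : ϖ x = 0
    · simp only [hev, h1]; ring
    · rw [(hy y).2.2.2.2.1 h1]; ring
  have f3 : ((1 - ev x) * del P x) ^ 2 ≤ del P x ^ 2 := by
    rw [mul_pow]
    exact mul_le_of_le_one_left (sq_nonneg _) (pow_le_one₀ (by linarith [v1 x]) (by linarith [v0 x]))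
  have f4 : |∑ y, (F y x + h * w * P y x) - (s + h * w)| ≤ |∑ y, F y x - s| + h * w * |del P x| := by
    rw [← abs_of_pos hhw, ← abs_mul, abs_of_pos hhw]
    refine le_of_eq_of_le ?_ (abs_add_le _ _)
    rw [sum_add_distrib, ← mul_sum, del]; congr 1; ring
  have f5 : Λ / Sg * w ≤ c3 :=
    (mul_le_mul_of_nonneg_left (q.le_w'.trans q.le_w1) (div_nonneg Λ0 S0.le)).trans Λ1
  have f6 : w' / 2 * (Fintype.card G * (4 * (h * Vm) * τ1 / df)) ≤ t * h := by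
    have := mul_le_mul_of_nonneg_right p.τ2 h0.le
    have h3 := mul_le_mul_of_nonneg_right q.le_w1 (show 0 ≤ (Fintype.card G : ℝ) *
      (2 * (h * Vm) * τ1 / df) by have := p.τ0; have := p.df0; positivity)
    refine le_of_eq_of_le (by ring) (h3.trans (le_of_eq_of_le (by ring) this))
  have key := three p q (Φ0 := (W.ps st x).Φ w (fun y z => (1 - s / Sg) * a y z) P0 fun z => π * ζ z)
    (Y := Ψ W st' w' (π - h / (e * T)) Sg Λ (s + h * w) a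
      (fun y z => (1 - ev z) * P y z + ev z * c y) (fun y z => F y z + h * w * P y z) ζ x
      + (2 / Sg * ∑ y, a y x * F y x + Λ / Sg * ζ x * |∑ y, F y x - s|)) (core := o x < 1)
    (by linarith) π2 ζ0 ζ1 ϖ0 ϖ1
    (fun h1 => ⟨hζ h1, lt_of_not_ge fun h2 => h1.ne (ho h2).1⟩)
    ⟨by rw [del, add_sub_cancel]; exact sum_nonneg fun y _ => P0' y, by
      rw [del, add_sub_cancel, ← mul_one (Fintype.card G : ℝ), ← nsmul_eq_mul, ← card_univ,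
        ← sum_const]
      exact sum_le_sum fun y _ => ((hP y).2 x).2.1⟩ hI hS hbe l1 l2
    (fun lam γ a1 a2 => H α lam γ p.α0 a1 a2 fun y => by
      rw [Pt.smul_left _ _ (sa y) (Alg.smul _ (sa y)), Pt.smul_right _ _ (sa y) (sa y), ← mul_assoc]
      exact (mul_le_of_le_one_left ((W.ps st x).T.nonneg (sa y)) (mul_le_one₀ θ1 θ0 θ1)).trans
        ((hL x hxL).2.2.1 y))
    (by
      have g1 := mul_le_mul_of_nonneg_left f1 (half_pos (hw.trans_le q.le_w')).le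
      have g2 := mul_le_mul_of_nonneg_left f3 (mul_nonneg (ie.le.trans π1) ζ0)
      have g3 := mul_le_mul_of_nonneg_left f4 (mul_nonneg (div_nonneg Λ0 S0.le) ζ0)
      have g4 := mul_le_mul_of_nonneg_right f5 (mul_nonneg (mul_nonneg h0.le ζ0) (abs_nonneg (del P x)))
      simp only [Ψ, PS.Φ, W.ps_p, hd]
      simp only [hev] at g1 g2 f2 ⊢
      linear_combination g1 + g2 + g3 + g4 + f6 + 2 * f2)
  rw [hd]
  simp only [Ψ, hev] at key ⊢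
  exact ⟨by linarith [key.1], fun h1 => by linarith [key.2.1 h1],
    fun h1 => (key.2.2 h1).imp (fun _ => by linarith) fun _ => by linarith⟩

end Crest.Agent.N228.H.Rn

end
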