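import Crest.Agent.N228.H.Run1

/-! # Row 228, part A' (helper71): the iteration -/

set_option autoImplicit false
set_option linter.dupNamespace false
open Finset

noncomputable section

namespace Crest.Agent.N228.H

open Crest.Agent.N222.A Rn

namespace Rn

theorem small (a : ℝ) {b : ℝ} (hb : 0 < b) : ∃ x, 0 < x ∧ x ≤ 1 ∧ a * x ≤ b := by
  have h : 0 < |a| + b := by positivity
  refine ⟨b / (|a| + b), by positivity, (div_le_one h).2 (by linarith [abs_nonneg a]), ?_⟩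
  rw [← mul_div_assoc, div_le_iff₀ h]
  nlinarith [mul_le_mul_of_nonneg_right (le_abs_self a) hb.le]

theorem small2 (a a' : ℝ) {b b' : ℝ} (hb : 0 < b) (hb' : 0 < b') (ha : 0 ≤ a) (ha' : 0 ≤ a') :
    ∃ x, 0 < x ∧ x ≤ 1 ∧ a * x ≤ b ∧ a' * x ≤ b' := by
  obtain ⟨x, x0, x1, x2⟩ := small a hb
  obtain ⟨y, y0, -, y2⟩ := small a' hb'
  exact ⟨min x y, lt_min x0 y0, (min_le_left _ _).trans x1,
    (mul_le_mul_of_nonneg_left (min_le_left _ _) ha).trans x2,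
    (mul_le_mul_of_nonneg_left (min_le_right _ _) ha').trans y2⟩

theorem small3 (a a' a'' : ℝ) {b b' b'' : ℝ} (hb : 0 < b) (hb' : 0 < b') (hb'' : 0 < b'') (ha : 0 ≤ a)
    (ha' : 0 ≤ a') (ha'' : 0 ≤ a'') : ∃ x, 0 < x ∧ x ≤ 1 ∧ a * x ≤ b ∧ a' * x ≤ b' ∧ a'' * x ≤ b'' := by
  obtain ⟨x, x0, x1, x2, x3⟩ := small2 a a' hb hb' ha ha'
  obtain ⟨y, y0, -, y2⟩ := small a'' hb''
  exact ⟨min x y, lt_min x0 y0, (min_le_left _ _).trans x1,
    (mul_le_mul_of_nonneg_left (min_le_left _ _) ha).trans x2,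
    (mul_le_mul_of_nonneg_left (min_le_left _ _) ha').trans x3,
    (mul_le_mul_of_nonneg_left (min_le_right _ _) ha'').trans y2⟩

variable {n : ℝ} {W : W2 n} {G : Type} [Fintype G]

theorem sum_le_card {f : G → ℝ} {c : ℝ} (h : ∀ y, f y ≤ c) : ∑ y, f y ≤ Fintype.card G * c := by
  rw [← nsmul_eq_mul, ← card_univ, ← sum_const]
  exact sum_le_sum fun y _ => h y

theorem abs_del_le {P : G → W.Z → ℝ} {x : W.Z} (h1 : (1 : ℝ) ≤ Fintype.card G)
    (h : ∀ y, 0 ≤ P y x ∧ P y x ≤ 1) : |del P x| ≤ Fintype.card G := by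
  have a : 0 ≤ ∑ y, P y x := sum_nonneg fun y _ => (h y).1
  have b := sum_le_card fun y => (h y).2
  exact abs_le.2 ⟨by rw [del]; linarith, by rw [del]; linarith⟩

/-- the iteration -/
theorem iter (hC : ConvStmt) {df w0 w1 α c1 T t Vm l' τ1 c2 c3 cr ε C κ B e sb h Am κr : ℝ}
    (p : Par n (Fintype.card G) df w0 w1 α c1 T t Vm l' τ1 c2 c3 cr ε C κ B e sb h)
    (hR : Rd W G w0 w1 df Am (1 / 400) C sb (2 / e) ε κr h) {N : ℕ} (hN : N * h = T)
    {w lam γ1 γ2 s : ℕ → ℝ}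
    (q : ∀ r < N, Num w0 w1 α c1 h (w r) (w (r + 1)) (lam r) (γ1 r) (γ1 (r + 1)) (γ2 r))
    (hs : ∀ r, s r = ∑ i ∈ range r, h * w i) {Λ LS b0 : ℝ} (Λ0 : 0 ≤ Λ) (Λ1 : Λ / s N * w1 ≤ c3)
    (hLS : ∑ i ∈ range N, (101 / 100 * price n α (w i) (lam i) (γ1 i) (γ2 i) + 5 * t) * h ≤ LS)
    (hB : cr * T + b0 + LS + c1 * Fintype.card G ≤ κ * Real.log (1 + B))
    {c : G → ℝ} (hc : ∀ y, df ≤ c y ∧ c y ≤ 1) (c1' : ∑ y, c y = 1)
    {st : W.St} {a P0 : G → W.Z → ℝ} {ϖ ζ o : W.Z → ℝ}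
    (sa : ∀ y, W.A.Sm (a y)) (sP : ∀ y, W.A.Sm (P0 y)) (sϖ : W.A.Sm ϖ) (sζ : W.A.Sm ζ)
    (so : W.A.Sm o)
    (hx : ∀ x, (∀ y, df ≤ P0 y x ∧ P0 y x ≤ 1 ∧ 0 ≤ a y x ∧ a y x ≤ Am ∧ (ϖ x ≠ 0 → a y x = 0) ∧
      (0 ≤ o x → P0 y x = c y)) ∧ 0 ≤ ϖ x ∧ ϖ x ≤ 1 ∧ 0 ≤ ζ x ∧ ζ x ≤ 1 ∧
      (0 ≤ o x → ϖ x = 1 ∧ ζ x = 0) ∧ (ϖ x < 1 → ζ x = 1) ∧ (5 ≤ W.om x → 1 ≤ o x) ∧ del P0 x = 0)
    (hL : ∀ x ∈ W.L, (4 * N) ^ 2 * (W.ps st x).T.Γ o o ≤ 1 ∧
      (2 / e) ^ 2 * (W.ps st x).T.Γ ζ ζ ≤ κr ∧ (∀ y, (W.ps st x).T.Γ (a y) (a y) ≤ α ^ 2) ∧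
      (W.ps st x).T.Γ ϖ ϖ ≤ τ1 ∧ (ϖ x < 1 → κ * Real.log (1 + (W.ps st x).bn) ≤ b0)) :
    ∀ r ≤ N, ∃ (st' : W.St) (P F : G → W.Z → ℝ), W.R st st' ∧ W.Le st st' ∧
      (∀ y, W.A.Sm (P y) ∧ W.A.Sm (F y) ∧ ∀ x, df ≤ P y x ∧ P y x ≤ 1 ∧ 0 ≤ F y x ∧ F y x ≤ s r ∧
        (r ≤ N * o x → P y x = c y)) ∧
      ∀ x ∈ W.L, (∀ t : G → ℝ, (W.ps st' x).T.Γ (fun z => ∑ y, t y * F y z)
          (fun z => ∑ y, t y * F y z) ≤ (∑ y, t y ^ 2) * s r) ∧
        ∀ Φ0 Φ1, Φ0 = Ψ W st (w 0) (2 / e) (s N) Λ 0 a P0 (fun _ _ => 0) ζ x →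
          Φ1 = Ψ W st' (w r) (2 / e - r * (h / (e * T))) (s N) Λ (s r) a P F ζ x →
          (ϖ x = 1 → Φ0 - 5 * t * (r * h) ≤ Φ1) ∧ (ϖ x < 1 → Φ0 - b0 - ∑ i ∈ range r,
              (101 / 100 * price n α (w i) (lam i) (γ1 i) (γ2 i) + 5 * t) * h ≤
              Φ1 + γ1 r * del P x - κ * Real.log (1 + (W.ps st' x).bn) ∨
            Φ0 + cr * (T - r * h) ≤ Φ1) := by
  have h0 := p.h0
  have e0 := p.e0
  have T0 := p.T0
  have N0 : (0 : ℝ) < N := (mul_pos_iff_of_pos_right h0).1 (hN ▸ T0)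
  have wp : ∀ i < N, 0 < w i := fun i hi => p.w00.trans_le (q i hi).w0_le
  intro r
  induction r with
  | zero =>
    refine fun _ => ⟨st, P0, fun _ _ => 0, W.R_refl _, fun _ _ _ _ => le_rfl, fun y => ⟨sP y,
      W.A.const 0, fun x => ⟨((hx x).1 y).1, ((hx x).1 y).2.1, le_rfl, by simp [hs], fun h1 =>
        ((hx x).1 y).2.2.2.2.2 ((mul_nonneg_iff_of_pos_left N0).1 (by simpa using h1))⟩⟩,
      fun x hxL => ⟨fun t => ?_, ?_⟩⟩
    · simp [hs, Pt.const_left _ 0 (W.A.const 0)]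
    rintro _ _ rfl rfl
    simp only [hs 0, range_zero, sum_empty, Nat.cast_zero, zero_mul, sub_zero, mul_zero,
      (hx x).2.2.2.2.2.2.2.2, add_zero]
    exact ⟨fun _ => le_rfl, fun h1 => Or.inl (by linarith [(hL x hxL).2.2.2.2 h1])⟩
  | succ r ih =>
    intro hr
    obtain ⟨st1, P, F, r1, le1, hP, H⟩ := ih (Nat.le_of_succ_le hr)
    have rN : (r : ℝ) + 1 ≤ N := by exact_mod_cast hr
    have r0 : (0 : ℝ) ≤ r := r.cast_nonneg
    have es : s (r + 1) = s r + h * w r := by rw [hs, sum_range_succ, ← hs]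
    have eπ : 2 / e - r * (h / (e * T)) - h / (e * T) = 2 / e - (r + 1 : ℕ) * (h / (e * T)) := by
      push_cast; ring
    have d0 : 0 < h / (e * T) := by positivity
    have so' : W.A.Sm fun z => 4 * N * o z + (1 - 4 * r) := Alg.add_const (Alg.smul _ so) _
    obtain ⟨st2, P1, P2, r2, le2, hP2, H2⟩ := rd hC p hR (q r hr) (π := 2 / e - r * (h / (e * T)))
      (Sg := s N) (s := s r) (by
        have : (N : ℝ) * (h / (e * T)) = 1 / e := by rw [← hN]; field_simp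
        have e2 : 2 / e = 1 / e + 1 / e := by ring
        nlinarith [mul_le_mul_of_nonneg_right rN d0.le])
      (sub_le_self _ (by positivity))
      (by rw [hs]; exact sum_nonneg fun i hi => (mul_pos h0 (wp i (by
        have := mem_range.1 hi; omega))).le)
      (by rw [← es, hs, hs]; exact sum_le_sum_of_subset_of_nonneg (range_mono hr) fun i hi _ =>
        (mul_pos h0 (wp i (mem_range.1 hi))).le) Λ0 Λ1 hc c1' (st := st1) F sa (fun y => (hP y).1)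
      sϖ sζ so' (fun x => by
        obtain ⟨a1, a2, a3, a4, a5, a6, a7, a8, -⟩ := hx x
        refine ⟨fun y => ⟨((hP y).2.2 x).1, ((hP y).2.2 x).2.1, (a1 y).2.2.1, (a1 y).2.2.2.1,
          (a1 y).2.2.2.2.1, fun h1 => ((hP y).2.2 x).2.2.2.2 (by linarith)⟩, a2, a3, a4, a5,
          fun h1 => a6 ((mul_nonneg_iff_of_pos_left N0).1 (by linarith)), a7, fun h1 => ?_⟩
        nlinarith [mul_le_mul_of_nonneg_left (a8 h1) N0.le])
      fun x hxL => ⟨(le1 x hxL _ so').trans (by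
          rw [Pt.chain_self (φ := fun s => 4 * N * s + (1 - 4 * r)) (c := 4 * N) _ so so'
            (by simpa only [mul_one] using ((hasDerivAt_id' _).const_mul (4 * N : ℝ)).add_const _)]
          exact (hL x hxL).1),
        (mul_le_mul_of_nonneg_left (le1 x hxL _ sζ) (sq_nonneg _)).trans (hL x hxL).2.1,
        fun y => (le1 x hxL _ (sa y)).trans ((hL x hxL).2.2.1 y),
        (le1 x hxL _ sϖ).trans (hL x hxL).2.2.2.1⟩
    have hw := mul_pos h0 (wp r hr)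
    refine ⟨st2, P2, fun y z => F y z + h * w r * P1 y z, W.R_trans r1 r2,
      fun x hxL f hf => (le2 x hxL f hf).trans (le1 x hxL f hf), fun y => ⟨(hP2 y).2.1,
        W.A.add (hP y).2.1 (Alg.smul _ (hP2 y).1), fun x => ?_⟩, fun x hxL => ⟨fun t => ?_, ?_⟩⟩
    · obtain ⟨a1, a2, a3, a4, a5⟩ := (hP2 y).2.2 x
      obtain ⟨-, -, b3, b4, -⟩ := (hP y).2.2 x
      refine ⟨a3, a4, add_nonneg b3 (mul_nonneg hw.le a1), ?_, fun h1 => a5 ?_⟩
      · rw [es]; exact add_le_add b4 (mul_le_of_le_one_right hw.le a2)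
      · push_cast at h1; linarith
    · have := (H2 x hxL).1 (fun z => ∑ y, t y * F y z) (fun y => t y * (h * w r))
        (Alg.sum _ fun y _ => Alg.smul _ (hP y).2.1)
      have e1 : (fun z => ∑ y, t y * (F y z + h * w r * P1 y z)) =
          fun z => ∑ y, t y * F y z + ∑ y, t y * (h * w r) * P1 y z := funext fun z => by
        rw [← sum_add_distrib]; exact sum_congr rfl fun _ _ => by ring
      have e2 : ∑ y, (t y * (h * w r)) ^ 2 / (h * w r) = (∑ y, t y ^ 2) * (h * w r) := by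
        rw [sum_mul]; exact sum_congr rfl fun _ _ => by field_simp
      rw [e1, es, mul_add]
      linarith [(H x hxL).1 t]
    rintro _ _ rfl rfl
    obtain ⟨i1, i2⟩ := (H x hxL).2 _ _ rfl rfl
    obtain ⟨j1, j2, j3⟩ := (H2 x hxL).2 _ _ rfl rfl
    rw [eπ, ← es] at j1 j2 j3
    rw [sum_range_succ]
    have e3 : ((r + 1 : ℕ) : ℝ) * h = r * h + h := by push_cast; ring
    rw [e3]
    refine ⟨fun h1 => by linarith [i1 h1, j2 h1], fun h1 => (i2 h1).elim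
      (fun k1 => (j3 h1).imp (fun _ => by linarith) fun k2 => ?_) fun _ => Or.inr (by linarith)⟩
    have a1 : ∑ i ∈ range r, (101 / 100 * price n α (w i) (lam i) (γ1 i) (γ2 i) + 5 * t) * h ≤ LS :=
      (sum_le_sum_of_subset_of_nonneg (range_mono (Nat.le_of_succ_le hr)) fun i hi _ => by
        have := wp i (mem_range.1 hi)
        have := (q i (mem_range.1 hi)).lam0
        have := p.α0
        have := p.t0
        have := p.n1
        unfold price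
        positivity).trans hLS
    have a2 : γ1 r * del P x ≤ c1 * Fintype.card G := (le_abs_self _).trans (by
      rw [abs_mul, abs_of_nonneg (q r hr).g1.1]
      exact mul_le_mul (q r hr).g1.2 (abs_del_le p.K1 fun y => ⟨p.df0.le.trans ((hP y).2.2 x).1,
        ((hP y).2.2 x).2.1⟩) (abs_nonneg _) (zero_le_one.trans p.c11))
    have a3 : 0 ≤ cr * (r * h) := by
      have := p.cr1
      have := p.α0
      have := p.t0
      have := p.n1
      have := p.c11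
      have := p.c30
      have : 0 ≤ cr := le_trans (by positivity) p.cr1
      positivity
    linarith

end Rn

end Crest.Agent.N228.H

end
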