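import Crest.Agent.N228.H.Defs

/-!
# Row 228, part A': the schedule (`SchedStmt`)
-/

set_option autoImplicit false
open Finset

noncomputable section

namespace Crest.Agent.N228.H

namespace Sc

/-- the potential -/
def Psi (v : ℝ) : ℝ := 31 / 20 * min v 2 + 33 / 5 * (1 / 2 - 1 / max v 2)

lemma Psi_le (v : ℝ) : Psi v ≤ 32 / 5 := by
  have h1 := min_le_right v 2
  have h2 : 0 ≤ 1 / max v 2 := by positivity
  unfold Psi
  linarith

lemma Psi_nonneg {v : ℝ} (h : 0 ≤ v) : 0 ≤ Psi v := by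
  have h1 : 0 ≤ min v 2 := by positivity
  have h2 : 1 / max v 2 ≤ 1 / 2 := one_div_le_one_div_of_le two_pos (le_max_right _ _)
  unfold Psi
  linarith

lemma poly {s : ℝ} (h0 : 0 ≤ s) (h1 : s ≤ 1 / 2) : 8 * s - 32 * s ^ 2 + 64 * s ^ 4 ≤ 109 / 200 := by
  have e : s ^ 4 = s ^ 2 * s ^ 2 := by ring
  rcases le_total s (1 / 5) with h | h
  · have : s ^ 2 * s ^ 2 ≤ s ^ 2 * (1 / 25) := mul_le_mul_of_nonneg_left (by nlinarith) (sq_nonneg _)
    nlinarith [sq_nonneg (s - 25 / 184)]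
  rcases le_total s (1 / 4) with h' | h'
  · have : s ^ 2 * s ^ 2 ≤ s ^ 2 * (1 / 16) := mul_le_mul_of_nonneg_left (by nlinarith) (sq_nonneg _)
    nlinarith
  · have : s ^ 2 * s ^ 2 ≤ s ^ 2 * (3 / 4 * s - 1 / 8) :=
      mul_le_mul_of_nonneg_left (by nlinarith) (sq_nonneg _)
    nlinarith [mul_nonneg (sub_nonneg.2 h') (sub_nonneg.2 h1),
      mul_nonneg h0 (mul_nonneg (sub_nonneg.2 h') (sub_nonneg.2 h1))]

lemma claim {v0 v D x : ℝ} (h0 : 0 < v0) (hv : v0 ≤ v) (hD : 0 < D) (hD1 : D ≤ 1 / 100)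
    (hx : 0 ≤ x) (hx1 : x ≤ 1 / 100) (hx2 : x ^ 2 ≤ v0 ^ 7 / 40) :
    D * (min v 2 ^ 2 / (2 * v ^ 2) + min v 2 ^ 3 / v ^ 3 +
      2 * (2 * (v ^ 2 - min v 2 ^ 2) + x) ^ 2 / (min v 2 * v ^ 6)) ≤ Psi (v + D) - Psi v := by
  have hv0 : 0 < v := h0.trans_le hv
  rcases le_total v 2 with h | h
  · have h1 : v ^ 2 / (2 * v ^ 2) + v ^ 3 / v ^ 3 + 2 * (2 * (v ^ 2 - v ^ 2) + x) ^ 2 / (v * v ^ 6) =
        3 / 2 + 2 * x ^ 2 / v ^ 7 := by field_simp; ring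
    have h2 : 2 * x ^ 2 / v ^ 7 ≤ 1 / 20 := by
      rw [div_le_iff₀ (by positivity)]
      linarith [pow_le_pow_left₀ h0.le hv 7]
    have h3 : 31 / 20 * D ≤ Psi (v + D) - Psi v := by
      unfold Psi
      rw [min_eq_left h, max_eq_right h]
      rcases le_total (v + D) 2 with h' | h'
      · rw [min_eq_left h', max_eq_right h']; linarith
      · rw [min_eq_right h', max_eq_left h']
        have : 1 / (v + D) ≤ 1 / 2 - 31 / 132 * (v + D - 2) := by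
          rw [div_le_iff₀ (by positivity)]
          nlinarith
        linarith
    rw [min_eq_left h, h1]
    nlinarith
  · have h' : 2 ≤ v + D := by linarith
    unfold Psi
    rw [min_eq_right h, max_eq_left h, min_eq_right h', max_eq_left h']
    obtain ⟨s, hs⟩ : ∃ s, s = 1 / v := ⟨_, rfl⟩
    have s0 : 0 < s := by rw [hs]; positivity
    have s1 : s ≤ 1 / 2 := hs ▸ one_div_le_one_div_of_le two_pos h
    have h1 : (2 : ℝ) ^ 2 / (2 * v ^ 2) + 2 ^ 3 / v ^ 3 +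
        2 * (2 * (v ^ 2 - 2 ^ 2) + x) ^ 2 / (2 * v ^ 6) =
        (2 + 8 * s + (2 * (1 - 4 * s ^ 2) + x * s ^ 2) ^ 2) / v ^ 2 := by
      rw [hs]; field_simp; ring
    have h2 : 2 + 8 * s + (2 * (1 - 4 * s ^ 2) + x * s ^ 2) ^ 2 ≤ 164 / 25 := by
      have a1 : s ^ 2 ≤ 1 / 4 := by nlinarith
      have a2 : x * s ^ 2 ≤ 1 / 100 * (1 / 4) := mul_le_mul hx1 a1 (sq_nonneg _) (by norm_num)
      have a3 : 0 ≤ x * s ^ 2 := by positivity
      have a4 := poly s0.le s1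
      generalize x * s ^ 2 = t at *
      nlinarith [sq_nonneg s]
    have h3 : 164 / 25 / v ^ 2 ≤ 33 / 5 / (v * (v + D)) := by
      rw [div_le_div_iff₀ (by positivity) (by positivity)]
      nlinarith
    have h4 : 31 / 20 * 2 + 33 / 5 * (1 / 2 - 1 / (v + D)) - (31 / 20 * 2 + 33 / 5 * (1 / 2 - 1 / v)) =
        D * (33 / 5 / (v * (v + D))) := by field_simp; ring
    rw [h1, h4]
    exact mul_le_mul_of_nonneg_left ((div_le_div_of_nonneg_right h2 (by positivity)).trans h3) hD.le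

/-- the increment -/
def DD (n μ h v : ℝ) : ℝ := μ ^ 2 * h / (n * min v 2)

/-- the second coupling -/
def g2 (n μ h v : ℝ) : ℝ :=
  μ ^ 2 / (n * min v 2) * (2 * (v ^ 2 - min v 2 ^ 2) + (3 * v * DD n μ h v + DD n μ h v ^ 2) / 2)

/-- the constant -/
def c1 (μ v0 V : ℝ) : ℝ :=
  1 + 2 * μ / v0 ^ 2 + 4 * μ ^ 2 + 2 * μ ^ 2 * (μ ^ 2 / v0) + μ ^ 2 / v0 * (2 * V ^ 2 + 1)

variable {n μ h v0 v V : ℝ}

lemma le_nm (hn : 1 ≤ n) (h0 : 0 < v0) (h1 : v0 ≤ 1) (hv : v0 ≤ v) : v0 ≤ n * min v 2 :=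
  (le_min hv (by linarith)).trans (le_mul_of_one_le_left (le_min (by linarith) two_pos.le) hn)

lemma DD_bd (hn : 1 ≤ n) (hμ : 0 < μ) (hh : 0 < h) (h0 : 0 < v0) (h1 : v0 ≤ 1) (hv : v0 ≤ v) :
    0 < DD n μ h v ∧ DD n μ h v ≤ μ ^ 2 / v0 * h := by
  have := le_nm hn h0 h1 hv
  refine ⟨div_pos (by positivity) (h0.trans_le this), ?_⟩
  rw [DD, div_mul_eq_mul_div]
  exact div_le_div_of_nonneg_left (by positivity) h0 this

lemma step (hn : 1 ≤ n) (hμ : 0 < μ) (hh : 0 < h) (h0 : 0 < v0) (h1 : v0 ≤ 1) (hv : v0 ≤ v)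
    (hV : v + DD n μ h v ≤ V) (hs : (2 * V + 1) * (μ ^ 2 / v0 * h) ≤ min (1 / 100) (v0 ^ 4 / 7)) :
    Num (v0 ^ 3) (V ^ 3) (μ ^ 3 / (2 * n)) (c1 μ v0 V) h (v ^ 3) ((v + DD n μ h v) ^ 3)
      (μ * min v 2 / v ^ 2) (2 * μ ^ 2 * min v 2 / n) (2 * μ ^ 2 * min (v + DD n μ h v) 2 / n)
      (g2 n μ h v) ∧
    price n (μ ^ 3 / (2 * n)) (v ^ 3) (μ * min v 2 / v ^ 2) (2 * μ ^ 2 * min v 2 / n) (g2 n μ h v) * h ≤
      μ ^ 2 * (Psi (v + DD n μ h v) - Psi v) := by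
  obtain ⟨d0, d1⟩ := DD_bd hn hμ hh h0 h1 hv
  have hm := le_nm hn h0 h1 hv
  have hv0 : 0 < v := h0.trans_le hv
  have m0 : 0 < min v 2 := by positivity
  have m1 := min_le_left v 2
  have m2 := min_le_right v 2
  have hV0 : 0 < V := by linarith
  have n0 : 0 < n := by linarith
  have hη := (mul_le_mul_of_nonneg_left d1 (by positivity : 0 ≤ 2 * V + 1)).trans hs
  obtain ⟨η1, η2⟩ := le_min_iff.1 hη
  have hL := abs_min_sub_min_le_max (v + DD n μ h v) 2 v 2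
  have hcl := fun x => claim (x := x) h0 hv d0 (by nlinarith)
  have hD : h = n * min v 2 * DD n μ h v / μ ^ 2 := by rw [DD]; field_simp
  rw [add_sub_cancel_left, sub_self, abs_zero, abs_of_pos d0, max_eq_left d0.le] at hL
  unfold g2
  generalize DD n μ h v = D at *
  have x0 : 0 ≤ (3 * v * D + D ^ 2) / 2 := by positivity
  have x1 : (3 * v * D + D ^ 2) / 2 ≤ (2 * V + 1) * D := by nlinarith
  have x2 : ((3 * v * D + D ^ 2) / 2) ^ 2 ≤ v0 ^ 7 / 40 := by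
    have a1 := pow_le_pow_left₀ x0 (x1.trans η2) 2
    have a2 : v0 ^ 8 ≤ v0 ^ 7 := pow_le_pow_of_le_one h0.le h1 (by norm_num)
    have a3 : 0 ≤ v0 ^ 7 := by positivity
    nlinarith
  replace hcl := hcl _ x0 (x1.trans η1) x2
  generalize min (v + D) 2 = m' at *
  generalize min v 2 = m at *
  have p1 : 0 ≤ 2 * μ / v0 ^ 2 := by positivity
  have p2 : 0 ≤ 4 * μ ^ 2 := by positivity
  have p3 : 0 ≤ 2 * μ ^ 2 * (μ ^ 2 / v0) := by positivity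
  have p4 : 0 ≤ μ ^ 2 / v0 * (2 * V ^ 2 + 1) := by positivity
  have y0 : 0 ≤ v ^ 2 - m ^ 2 := sub_nonneg.2 (pow_le_pow_left₀ m0.le m1 2)
  refine ⟨⟨by gcongr, by gcongr; linarith, by gcongr, by positivity, ?_, ⟨by positivity, ?_⟩, ?_,
    ⟨by positivity, ?_⟩, le_of_eq ?_⟩, ?_⟩
  · have : μ * m / v ^ 2 ≤ μ * 2 / v0 ^ 2 := by gcongr
    unfold c1
    linarith [show μ * 2 / v0 ^ 2 = 2 * μ / v0 ^ 2 by ring]
  · have : 2 * μ ^ 2 * m / n ≤ 2 * μ ^ 2 * 2 / 1 := by gcongr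
    unfold c1
    linarith
  · rw [← sub_div, ← mul_sub, abs_div, abs_mul, abs_of_pos n0,
      abs_of_pos (by positivity : 0 < 2 * μ ^ 2)]
    calc 2 * μ ^ 2 * |m' - m| / n ≤ 2 * μ ^ 2 * (μ ^ 2 / v0 * h) / 1 := by gcongr; linarith
      _ = 2 * μ ^ 2 * (μ ^ 2 / v0) * h := by ring
      _ ≤ _ := mul_le_mul_of_nonneg_right (by unfold c1; linarith) hh.le
  · have : v ^ 2 ≤ V ^ 2 := by gcongr; linarith
    have : μ ^ 2 / (n * m) * (2 * (v ^ 2 - m ^ 2) + (3 * v * D + D ^ 2) / 2) ≤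
        μ ^ 2 / v0 * (2 * V ^ 2 + 1) :=
      mul_le_mul (by gcongr) (by nlinarith [sq_nonneg m]) (by positivity) (by positivity)
    unfold c1
    linarith
  · rw [hD]
    field_simp
    ring
  · refine le_trans (le_of_eq ?_) (mul_le_mul_of_nonneg_left hcl (sq_nonneg μ))
    rw [hD, price]
    field_simp
    ring

end Sc

open Sc in
theorem sched : SchedStmt := by
  intro n μ w0 T hn hμ hw hw1 hT
  obtain ⟨v0, h0, rfl⟩ : ∃ v0 : ℝ, 0 < v0 ∧ v0 ^ 3 = w0 :=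
    ⟨w0 ^ ((3 : ℕ) : ℝ)⁻¹, Real.rpow_pos_of_pos hw _, Real.rpow_inv_natCast_pow hw.le (by norm_num)⟩
  have h1 : v0 ≤ 1 := (pow_le_one_iff_of_nonneg h0.le (by norm_num)).1 hw1
  obtain ⟨V, hV⟩ : ∃ V, V = v0 + μ ^ 2 / v0 * T := ⟨_, rfl⟩
  have hV0 : 0 < V := by rw [hV]; positivity
  refine ⟨V ^ 3, c1 μ v0 V, min (1 / 100) (v0 ^ 4 / 7) / ((2 * V + 1) * (μ ^ 2 / v0)), ?_,
    by positivity, fun h N hh hh0 hN => ?_⟩
  · have : 0 ≤ 2 * μ / v0 ^ 2 + 4 * μ ^ 2 + 2 * μ ^ 2 * (μ ^ 2 / v0) +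
        μ ^ 2 / v0 * (2 * V ^ 2 + 1) := by positivity
    unfold c1
    linarith
  rw [le_div_iff₀ (by positivity), mul_comm, mul_assoc] at hh0
  let v : ℕ → ℝ := fun r => Nat.rec v0 (fun _ x => x + DD n μ h x) r
  have hv : ∀ r : ℕ, v0 ≤ v r ∧ v r ≤ v0 + μ ^ 2 / v0 * (r * h) := fun r => by
    induction r with
    | zero => simp [v]
    | succ r ih =>
      obtain ⟨d0, d1⟩ := DD_bd hn hμ hh h0 h1 ih.1
      change v0 ≤ v r + DD n μ h (v r) ∧ v r + DD n μ h (v r) ≤ _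
      push_cast
      constructor <;> linarith [ih.1, ih.2]
  have hs := fun r (hr : r < N) => step hn hμ hh h0 h1 (hv r).1 (V := V) (by
    refine (hv (r + 1)).2.trans ?_
    rw [hV]
    have : ((r + 1 : ℕ) : ℝ) ≤ N := by exact_mod_cast hr
    have := (mul_le_mul_of_nonneg_right this hh.le).trans hN
    gcongr) hh0
  refine ⟨fun r => v r ^ 3, fun r => μ * min (v r) 2 / v r ^ 2, fun r => 2 * μ ^ 2 * min (v r) 2 / n,
    fun r => g2 n μ h (v r), rfl, fun r hr => (hs r hr).1,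
    (sum_le_sum (g := fun r => μ ^ 2 * (Psi (v (r + 1)) - Psi (v r)))
      fun r hr => (hs r (mem_range.1 hr)).2).trans ?_⟩
  rw [← mul_sum, sum_range_sub fun r => Psi (v r), mul_comm]
  exact mul_le_mul_of_nonneg_right
    (by linarith [Psi_le (v N), Psi_nonneg (h0.le.trans (hv 0).1)]) (sq_nonneg μ)

end Crest.Agent.N228.H

end
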