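import Crest.Agent.N228.H.Run
import Crest.Agent.N228.H.Rd4
import Crest.Agent.N228.H.Sched

/-! # Row 228, part A' (helper71): one level, unconditional -/

namespace Crest.Agent.N228.H

theorem runStmt : RunStmt := run round conv sched

end Crest.Agent.N228.H
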