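import Crest.Agent.N228.Cf.Step

/-!
# Row 228, A' (helper28): pointwise geometry of a graph step (any `u`, any `m`)
-/

set_option autoImplicit false
set_option linter.unusedSectionVars false
open Set Filter Topology Function
open scoped ContDiff
open Crest.Agent.N222 Crest.Agent.N222.Imm Crest.Agent.N222.A Crest.Agent.N228.Cf

noncomputable section

namespace Crest.Agent.N228.H

section Alg

variable {R : Type} [CommRing R] [Algebra ℝ R] {ι : Type} [Fintype ι] [DecidableEq ι]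
  {S : Pre R ι} (h : S.IsDS) {u v w : R} (hv : v ^ 2 * (1 + S.gam u u) = 1) (hw : w * v = 1)
include h hv hw

theorem alg_A_D (a : Option ι) :
    ∑ c, S.A u v a c * (S.graph u v).D c u = -(S.graph u v).D a v := by
  have h' := h.graph_isDS hv
  have e1 : ∀ k, ∑ a, (S.graph u v).P a (some k) * (S.graph u v).D a u = v * S.X u v k := by
    intro k
    simp only [h.gP_symm hv _ (some k), h'.PD]
    change S.D k u + -S.X u v k * S.dir (S.X u v) u = _
    rw [h.id_X_u hv hw, show S.X u v k = v * S.D k u from rfl]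
    linear_combination (-S.D k u) * hw
  have e2 : ∑ c, S.A u v a c * (S.graph u v).D c u = v * ∑ k, ∑ e, (S.graph u v).P a (some k) *
      (∑ c, (S.graph u v).P c (some e) * (S.graph u v).D c u) * S.hess u k e := by
    simp only [h.A_eq hv, Finset.mul_sum, Finset.sum_mul]
    rw [Finset.sum_comm]
    refine Finset.sum_congr rfl fun k _ => ?_
    rw [Finset.sum_comm]
    exact Finset.sum_congr rfl fun e _ => Finset.sum_congr rfl fun c _ => by ring
  rw [e2, h.gD u v a v]
  simp only [e1, h.D_v hv, Finset.mul_sum, mul_neg, Finset.sum_neg_distrib, neg_neg]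
  exact Finset.sum_congr rfl fun k _ => Finset.sum_congr rfl fun e _ => by ring

theorem alg_hess_u (a c : Option ι) : (S.graph u v).hess u a c = v * S.A u v a c := by
  rw [h.graph_hess hv, h.id_X_u hv hw, h.A_eq hv]
  linear_combination (-∑ k, ∑ e, (S.graph u v).P a (some k) * (S.graph u v).P c (some e) *
    S.hess u k e) * hw

end Alg

variable {d : ℕ} {ι : Type} [Fintype ι] [DecidableEq ι] {X : Type} [TopologicalSpace X]
  {M : Imm d ι X} {b : ι → X → ℝ} {u m f k : X → ℝ}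

/-- `|Hess f|²` -/
def hq {κ : Type} [Fintype κ] (S : Pre (X → ℝ) κ) (f : X → ℝ) (p : X) : ℝ :=
  ∑ a, ∑ c, S.hess f a c p ^ 2

/-- `|b|` -/
def bn {κ : Type} [Fintype κ] (b : κ → X → ℝ) (p : X) : ℝ := √(∑ a, b a p ^ 2)

/-- `χ = |∇'u|² = 1 - 1 / W²` -/
def chi (M : Imm d ι X) (u : X → ℝ) (p : X) : ℝ := 1 - vv M.pre u p ^ 2

/-- `b(X)` -/
def bX (M : Imm d ι X) (b : ι → X → ℝ) (u : X → ℝ) (p : X) : ℝ :=
  ∑ a, M.pre.X u (vv M.pre u) a p * b a p

/-- the change of the drift -/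
def db (M : Imm d ι X) (u m : X → ℝ) (c : Option ι) (p : X) : ℝ :=
  ww M.pre u p * (stepS M.pre u).D c (vv M.pre u) p + m p * (stepS M.pre u).D c u p

theorem hq_nonneg {κ : Type} [Fintype κ] (S : Pre (X → ℝ) κ) (f : X → ℝ) (p : X) :
    0 ≤ hq S f p := Finset.sum_nonneg fun _ _ => Finset.sum_nonneg fun _ _ => sq_nonneg _

theorem bn_nonneg {κ : Type} [Fintype κ] (b : κ → X → ℝ) (p : X) : 0 ≤ bn b p := Real.sqrt_nonneg _

theorem bn_sq {κ : Type} [Fintype κ] (b : κ → X → ℝ) (p : X) : bn b p ^ 2 = ∑ a, b a p ^ 2 :=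
  Real.sq_sqrt (Finset.sum_nonneg fun _ _ => sq_nonneg _)

theorem bn_eq_norm {κ : Type} [Fintype κ] (b : κ → X → ℝ) (p : X) :
    bn b p = ‖(WithLp.toLp 2 fun a => b a p : E κ)‖ := by
  rw [EuclideanSpace.norm_eq]
  simp [bn]

theorem bn_add_le {κ : Type} [Fintype κ] (b c : κ → X → ℝ) (p : X) :
    bn (fun a q => b a q + c a q) p ≤ bn b p + bn c p := by
  rw [bn_eq_norm, bn_eq_norm, bn_eq_norm]
  exact norm_add_le (WithLp.toLp 2 fun a => b a p : E κ) (WithLp.toLp 2 fun a => c a p)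

theorem gam_apply' {κ : Type} [Fintype κ] (S : Pre (X → ℝ) κ) (f k : X → ℝ) (p : X) :
    S.gam f k p = ∑ a, S.D a f p * S.D a k p := by simp [Pre.gam]

theorem dir_apply' {κ : Type} [Fintype κ] (S : Pre (X → ℝ) κ) (b : κ → X → ℝ) (f : X → ℝ) (p : X) :
    S.dir b f p = ∑ a, b a p * S.D a f p := by simp [Pre.dir]

theorem dir_sq_le {κ : Type} [Fintype κ] (S : Pre (X → ℝ) κ) (b : κ → X → ℝ) (f : X → ℝ) (p : X) :
    S.dir b f p ^ 2 ≤ bn b p ^ 2 * S.gam f f p := by
  rw [dir_apply', bn_sq, gam_apply']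
  simpa only [sq (S.D _ _ _)] using
    Finset.sum_mul_sq_le_sq_mul_sq Finset.univ (fun a => b a p) fun a => S.D a f p

theorem gam_sq_le {κ : Type} [Fintype κ] (S : Pre (X → ℝ) κ) (f k : X → ℝ) (p : X) :
    S.gam f k p ^ 2 ≤ S.gam f f p * S.gam k k p := by
  rw [gam_apply', gam_apply', gam_apply']
  simpa only [sq (S.D _ _ _)] using
    Finset.sum_mul_sq_le_sq_mul_sq Finset.univ (fun a => S.D a f p) fun a => S.D a k p

theorem gam_nonneg' {κ : Type} [Fintype κ] (S : Pre (X → ℝ) κ) (f : X → ℝ) (p : X) :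
    0 ≤ S.gam f f p := by
  rw [gam_apply']; exact Finset.sum_nonneg fun _ _ => mul_self_nonneg _

theorem vv_pos' (M : Imm d ι X) (u : X → ℝ) (p : X) : 0 < vv M.pre u p := M.vv_pos u p

theorem vv_le_one' (M : Imm d ι X) (u : X → ℝ) (p : X) : vv M.pre u p ≤ 1 := M.vv_le_one u p

theorem chi_nonneg (M : Imm d ι X) (u : X → ℝ) (p : X) : 0 ≤ chi M u p := by
  have := vv_pos' M u p; have := vv_le_one' M u p
  rw [chi]; nlinarith

theorem chi_lt_one (M : Imm d ι X) (u : X → ℝ) (p : X) : chi M u p < 1 := by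
  have := vv_pos' M u p
  rw [chi]; nlinarith

theorem chi_eq (hu : M.Sm u) (p : X) : (stepS M.pre u).gam u u p = chi M u p := step_gam_vv hu p

theorem chi_eq' (M : Imm d ι X) (u : X → ℝ) (p : X) :
    vv M.pre u p ^ 2 * M.pre.gam u u p = chi M u p := by
  rw [chi]; linear_combination vv_sq_mul M u p

theorem xd_sq_le (M : Imm d ι X) (u f : X → ℝ) (p : X) :
    xd M u f p ^ 2 ≤ chi M u p * M.pre.gam f f p := by
  rw [xd, mul_pow, ← chi_eq', mul_assoc]
  exact mul_le_mul_of_nonneg_left (gam_sq_le _ _ _ _) (sq_nonneg _)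

theorem xd_u (M : Imm d ι X) (u : X → ℝ) (p : X) : xd M u u p = ww M.pre u p * chi M u p := by
  rw [xd, ← chi_eq']
  linear_combination (-(vv M.pre u p * M.pre.gam u u p)) * ww_mul_vv M u p

theorem X_sq (M : Imm d ι X) (u : X → ℝ) (p : X) :
    ∑ a, M.pre.X u (vv M.pre u) a p * M.pre.X u (vv M.pre u) a p = chi M u p := by
  rw [← chi_eq', gam_apply, Finset.mul_sum]
  exact Finset.sum_congr rfl fun a _ => by simp only [Pre.X, Pi.mul_apply]; ring

theorem bX_sq_le (M : Imm d ι X) (b : ι → X → ℝ) (u : X → ℝ) (p : X) :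
    bX M b u p ^ 2 ≤ chi M u p * bn b p ^ 2 := by
  rw [bX, ← X_sq, bn_sq]
  simpa only [sq (M.pre.X _ _ _ _)] using Finset.sum_mul_sq_le_sq_mul_sq Finset.univ
    (fun a => M.pre.X u (vv M.pre u) a p) fun a => b a p

theorem hh_eq (M : Imm d ι X) (b : ι → X → ℝ) (u : X → ℝ) (p : X) :
    hh M b u p = hm M u p + bX M b u p := by
  simp [Pre.hb, hm, bX]

theorem a2_eq (M : Imm d ι X) (u : X → ℝ) (p : X) : M.pre.a2 u (vv M.pre u) p =
    ∑ a, ∑ c, M.pre.A u (vv M.pre u) a c p * M.pre.A u (vv M.pre u) a c p := by simp [Pre.a2]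

theorem a2_nonneg' (M : Imm d ι X) (u : X → ℝ) (p : X) : 0 ≤ M.pre.a2 u (vv M.pre u) p := by
  rw [a2_eq]
  exact Finset.sum_nonneg fun _ _ => Finset.sum_nonneg fun _ _ => mul_self_nonneg _

theorem a2_le_bb (M : Imm d ι X) (u : X → ℝ) (p : X) : M.pre.a2 u (vv M.pre u) p ≤ bb M u p :=
  le_add_of_nonneg_right (mul_nonneg (sq_nonneg _) (gam_nonneg' _ _ _))

theorem bb_nonneg (M : Imm d ι X) (u : X → ℝ) (p : X) : 0 ≤ bb M u p :=
  (a2_nonneg' M u p).trans (a2_le_bb M u p)

theorem gam_vv_le (hu : M.Sm u) (p : X) : (stepS M.pre u).gam (vv M.pre u) (vv M.pre u) p ≤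
    chi M u p * M.pre.a2 u (vv M.pre u) p := by
  have h1 : ∀ a, ∑ c, M.pre.A u (vv M.pre u) a c p * (stepS M.pre u).D c u p =
      -(stepS M.pre u).D a (vv M.pre u) p := fun a => by
    have := congrArg M.val (alg_A_D M.isDS (hvR hu) (w := ⟨_, sm_ww hu⟩)
      (Subtype.ext (funext (ww_mul_vv M u))) a)
    simp only [map_mul, map_neg, map_sum, (M.hom.graph _ _).D, M.hom.A, val_apply] at this
    have k := congrFun this p
    simp only [Pi.mul_apply, Pi.neg_apply, Finset.sum_apply] at k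
    exact k
  rw [gam_apply', a2_eq, Finset.mul_sum]
  refine Finset.sum_le_sum fun a _ => ?_
  have h2 := Finset.sum_mul_sq_le_sq_mul_sq Finset.univ (fun c => M.pre.A u (vv M.pre u) a c p)
    fun c => (stepS M.pre u).D c u p
  rw [h1, neg_sq] at h2
  rw [← chi_eq hu, gam_apply', mul_comm (∑ c, _)]
  simpa only [sq] using h2

/-- `|d log W|² ≤ χ B` -/
theorem dl_le (hu : M.Sm u) (p : X) : ww M.pre u p ^ 2 *
    (stepS M.pre u).gam (vv M.pre u) (vv M.pre u) p ≤ chi M u p * bb M u p := by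
  have h1 := gam_vv_le hu p
  have h2 := ww_mul_vv M u p
  have e : (stepS M.pre u).gam (vv M.pre u) (vv M.pre u) p = (1 - chi M u p) *
      (ww M.pre u p ^ 2 * (stepS M.pre u).gam (vv M.pre u) (vv M.pre u) p) := by
    rw [chi]
    linear_combination (-(stepS M.pre u).gam (vv M.pre u) (vv M.pre u) p *
      (ww M.pre u p * vv M.pre u p + 1)) * h2
  rw [bb]
  nlinarith

/-- `X(ω)² ≤ χ² B` -/
theorem tau_sq_le (hu : M.Sm u) (p : X) :
    xd M u (vv M.pre u) p ^ 2 ≤ chi M u p ^ 2 * bb M u p := by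
  have h1 := gam_sq_le (stepS M.pre u) u (vv M.pre u) p
  rw [step_gam_v hu (sm_vv hu), chi_eq hu] at h1
  have h2 := mul_le_mul_of_nonneg_left h1 (sq_nonneg (ww M.pre u p))
  have h3 := mul_le_mul_of_nonneg_left (dl_le hu p) (chi_nonneg M u p)
  have e : ww M.pre u p ^ 2 * (vv M.pre u p * xd M u (vv M.pre u) p) ^ 2 =
      xd M u (vv M.pre u) p ^ 2 := by
    linear_combination (xd M u (vv M.pre u) p ^ 2 * (ww M.pre u p * vv M.pre u p + 1)) *
      ww_mul_vv M u p
  rw [e] at h2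
  nlinarith

/-- `H² ≤ d |A|²` -/
theorem hm_sq_le (hu : M.Sm u) (p : X) : hm M u p ^ 2 ≤ d * M.pre.a2 u (vv M.pre u) p := by
  let _ : MeasurableSpace X := ⊤
  set N := M.graph u hu with hN
  have e : N.pre = stepS M.pre u := pre_graph hu
  have t2 : ∑ a, ∑ c, N.pre.P a c p * M.pre.A u (vv M.pre u) a c p = hm M u p := by
    rw [Finset.sum_comm]
    refine Eq.trans (Finset.sum_congr rfl fun c _ => ?_) (tr_A hu p)
    have h := congrFun (A_tan hu c c) p
    simp only [Finset.sum_apply, Pi.mul_apply] at h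
    rw [← h]
    refine Finset.sum_congr rfl fun a _ => ?_
    rw [N.P_symm a c, e]
    rfl
  have t3 : ∑ a, ∑ c, N.pre.P a c p * N.pre.P a c p = d := by
    rw [← N.tr_P p]
    refine Finset.sum_congr rfl fun a _ => ?_
    rw [← N.PP a a p]
    exact Finset.sum_congr rfl fun c _ => by rw [N.P_symm c a]
  have h := Finset.sum_mul_sq_le_sq_mul_sq Finset.univ
    (fun x : Option ι × Option ι => N.pre.P x.1 x.2 p) fun x => M.pre.A u (vv M.pre u) x.1 x.2 p
  simp only [Fintype.sum_prod_type, sq (N.pre.P _ _ _), sq (M.pre.A _ _ _ _ _)] at h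
  rwa [t2, t3, ← a2_eq] at h

/-- the Laplacian of the graph -/
theorem step_lap (hu : M.Sm u) (hf : M.Sm f) (p : X) : ∃ r, r ^ 2 ≤ chi M u p ^ 2 * hq M.pre f p ∧
    (stepS M.pre u).lap f p = M.pre.lap f p - r - hm M u p * xd M u f p := by
  have := congrArg M.val (M.isDS.graph_lap (hvR hu) ⟨f, hf⟩)
  simp only [map_sub, map_mul, map_sum, (M.hom.graph _ _).lap, M.hom.lap, M.hom.hess, M.hom.dv,
    M.hom.dir, M.hom.X, val_apply] at this
  have k := congrFun this p
  simp only [Pi.mul_apply, Pi.sub_apply, Finset.sum_apply] at k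
  rw [dirX] at k
  refine ⟨_, ?_, k⟩
  have h := cs_two (fun a c => M.pre.hess f a c p) fun a => M.pre.X u (vv M.pre u) a p
  rw [X_sq, mul_comm] at h
  simpa only [hq, sq (M.pre.hess _ _ _ _), mul_comm (M.pre.hess _ _ _ _ : ℝ)] using h

theorem gb_apply (M : Imm d ι X) (b : ι → X → ℝ) (u m : X → ℝ) (c : Option ι) (p : X) :
    gb M b u m c p = M.pre.lift u (vv M.pre u) b c p + db M u m c p := by
  simp only [Pre.newb, db, stepS, Pi.add_apply, Pi.mul_apply, add_assoc]

theorem tanR (hb : ∀ c, M.Sm (b c)) (tb : M.pre.Tan b) :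
    M.preR.Tan fun c => (⟨b c, hb c⟩ : SmR M.ch) := fun c => Subtype.ext (by
  rw [← val_apply, map_sum]
  simp only [map_mul, M.hom.P]
  exact tb c)

/-- the drift term of the graph -/
theorem step_dir (hb : ∀ c, M.Sm (b c)) (tb : M.pre.Tan b) (hu : M.Sm u) (hf : M.Sm f) (p : X) :
    (stepS M.pre u).dir (gb M b u m) f p = M.pre.dir b f p - bX M b u p * xd M u f p
      + (stepS M.pre u).dir (db M u m) f p := by
  have := congrArg M.val (M.isDS.id_lift_D (hvR hu) (tanR hb tb) ⟨f, hf⟩)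
  simp only [map_sub, map_mul, map_sum, (M.hom.graph _ _).D, M.hom.lift, M.hom.dir, M.hom.X,
    val_apply] at this
  have k := congrFun this p
  simp only [Pi.mul_apply, Pi.sub_apply, Finset.sum_apply] at k
  rw [dirX] at k
  rw [dir_apply', dir_apply' (stepS M.pre u)]
  simp only [gb_apply, add_mul, Finset.sum_add_distrib]
  exact congrArg (· + _) k

theorem bn_gb_le (hb : ∀ c, M.Sm (b c)) (tb : M.pre.Tan b) (hu : M.Sm u) (p : X) :
    bn (gb M b u m) p ≤ bn b p + bn (db M u m) p := by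
  have := congrArg M.val (M.isDS.id_lift_sq (hvR hu) (tanR hb tb))
  simp only [map_sub, map_mul, map_sum, M.hom.lift, M.hom.X, val_apply] at this
  have k := congrFun this p
  simp only [Pi.mul_apply, Pi.sub_apply, Finset.sum_apply] at k
  have e : gb M b u m = fun c q => M.pre.lift u (vv M.pre u) b c q + db M u m c q :=
    funext fun c => funext fun q => gb_apply M b u m c q
  rw [e]
  refine (bn_add_le _ _ p).trans (add_le_add_left (Real.sqrt_le_sqrt ?_) _)
  simp only [sq]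
  rw [k]
  exact sub_le_self _ (mul_self_nonneg _)

theorem bn_db_le (hu : M.Sm u) (p : X) :
    bn (db M u m) p ≤ √(chi M u p * bb M u p) + |m p| * √(chi M u p) := by
  refine (bn_add_le (fun c q => ww M.pre u q * (stepS M.pre u).D c (vv M.pre u) q)
    (fun c q => m q * (stepS M.pre u).D c u q) p).trans (add_le_add ?_ (le_of_eq ?_))
  · refine Real.sqrt_le_sqrt (le_trans (le_of_eq ?_) (dl_le hu p))
    rw [gam_apply', Finset.mul_sum]
    exact Finset.sum_congr rfl fun c _ => by ring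
  · rw [← Real.sqrt_sq_eq_abs, ← Real.sqrt_mul (sq_nonneg _), ← chi_eq hu, gam_apply',
      Finset.mul_sum, bn]
    congr 1
    exact Finset.sum_congr rfl fun c _ => by ring

theorem bn_db_sq_le (hu : M.Sm u) (p : X) :
    bn (db M u m) p ^ 2 ≤ 2 * (chi M u p * bb M u p) + 2 * (m p ^ 2 * chi M u p) := by
  have h1 := pow_le_pow_left₀ (bn_nonneg _ _) (bn_db_le (m := m) hu p) 2
  have h2 := Real.sq_sqrt (mul_nonneg (chi_nonneg M u p) (bb_nonneg M u p))
  have h3 : (|m p| * √(chi M u p)) ^ 2 = m p ^ 2 * chi M u p := by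
    rw [mul_pow, sq_abs, Real.sq_sqrt (chi_nonneg M u p)]
  nlinarith [sq_nonneg (√(chi M u p * bb M u p) - |m p| * √(chi M u p))]

theorem sum_P_sq_le {κ : Type} [Fintype κ] [DecidableEq κ] (N : Imm d κ X) (p : X) (Y : κ → ℝ) :
    ∑ c, (∑ e, N.pre.P c e p * Y e) ^ 2 ≤ ∑ e, Y e ^ 2 := by
  have h := pow_le_pow_left₀ (norm_nonneg _) (N.norm_PL_le p (WithLp.toLp 2 Y)) 2
  rw [EuclideanSpace.real_norm_sq_eq, EuclideanSpace.real_norm_sq_eq] at h
  simpa only [PL_apply] using h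

theorem pull_sq_le (N : Imm d (Option ι) X) (p : X) (T : ι → ι → ℝ) :
    ∑ a, ∑ c, (∑ k, ∑ e, N.pre.P a (some k) p * N.pre.P c (some e) p * T k e) ^ 2 ≤
      ∑ k, ∑ e, T k e ^ 2 := by
  have h1 : ∀ y : ι → ℝ, ∑ c, (∑ e, N.pre.P c (some e) p * y e) ^ 2 ≤ ∑ e, y e ^ 2 := fun y => by
    simpa [Fintype.sum_option] using sum_P_sq_le N p fun c => c.elim 0 y
  have h2 : ∀ a c, ∑ k, ∑ e, N.pre.P a (some k) p * N.pre.P c (some e) p * T k e =
      ∑ k, N.pre.P a (some k) p * ∑ e, N.pre.P c (some e) p * T k e := fun a c => by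
    simp only [Finset.mul_sum, mul_assoc]
  simp only [h2]
  rw [Finset.sum_comm]
  refine (Finset.sum_le_sum fun c _ => h1 _).trans ?_
  rw [Finset.sum_comm]
  exact Finset.sum_le_sum fun k _ => h1 _

/-- the Hessian of an old function on the graph -/
theorem step_hq (hu : M.Sm u) (hf : M.Sm f) (p : X) : hq (stepS M.pre u) f p ≤
    2 * hq M.pre f p + 2 * (M.pre.a2 u (vv M.pre u) p * xd M u f p ^ 2) := by
  have h1 : ∀ a c, (stepS M.pre u).hess f a c p = ∑ k, ∑ e, (stepS M.pre u).P a (some k) p *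
      (stepS M.pre u).P c (some e) p * M.pre.hess f k e p
        - M.pre.A u (vv M.pre u) a c p * xd M u f p := fun a c => by
    have := congrArg M.val (M.isDS.graph_hess (hvR hu) ⟨f, hf⟩ a c)
    simp only [map_sub, map_mul, map_sum, (M.hom.graph _ _).hess, (M.hom.graph _ _).P, M.hom.hess,
      M.hom.A, M.hom.dir, M.hom.X, val_apply] at this
    have k := congrFun this p
    simp only [Pi.mul_apply, Pi.sub_apply, Finset.sum_apply] at k
    rw [dirX] at k
    exact k
  have h2 := pull_sq_le (M.graph u hu) p fun k e => M.pre.hess f k e p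
  rw [pre_graph hu] at h2
  refine le_trans ?_ (add_le_add_left (mul_le_mul_of_nonneg_left h2 zero_le_two) _)
  rw [hq, a2_eq]
  simp only [h1, Finset.sum_mul, Finset.mul_sum _ _ (2 : ℝ), ← Finset.sum_add_distrib]
  refine Finset.sum_le_sum fun a _ => Finset.sum_le_sum fun c _ => ?_
  generalize ∑ k, ∑ e, (stepS M.pre u).P a (some k) p * (stepS M.pre u).P c (some e) p *
    M.pre.hess f k e p = s
  nlinarith [sq_nonneg (s + M.pre.A u (vv M.pre u) a c p * xd M u f p)]

/-- the Hessian of a function of the height -/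
theorem step_hq_comp (hu : M.Sm u) {φ : ℝ → ℝ} (p : X) (hφ : ContDiffAt ℝ 2 φ (u p)) :
    hq (stepS M.pre u) (fun q => φ (u q)) p ≤ 2 * (deriv φ (u p) ^ 2 * M.pre.a2 u (vv M.pre u) p)
      + 2 * (deriv (deriv φ) (u p) ^ 2 * chi M u p ^ 2) := by
  have hu' : (M.graph u hu).Sm u := hu
  have h0 : ∀ a c, (stepS M.pre u).hess u a c p =
      vv M.pre u p * M.pre.A u (vv M.pre u) a c p := fun a c => by
    have := congrArg M.val (alg_hess_u M.isDS (hvR hu) (w := ⟨_, sm_ww hu⟩)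
      (Subtype.ext (funext (ww_mul_vv M u))) a c)
    simp only [map_mul, (M.hom.graph _ _).hess, M.hom.A, val_apply] at this
    exact congrFun this p
  have h1 := fun a c => hess_comp hu' hφ a c
  rw [pre_graph hu] at h1
  have h2 : vv M.pre u p ^ 2 ≤ 1 := pow_le_one₀ (vv_pos' M u p).le (vv_le_one' M u p)
  rw [hq, a2_eq, ← chi_eq hu, gam_apply', sq (∑ a, _), Finset.sum_mul_sum]
  simp only [h1, h0, Finset.mul_sum, ← Finset.sum_add_distrib]
  refine Finset.sum_le_sum fun a _ => Finset.sum_le_sum fun c _ => ?_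
  nlinarith [sq_nonneg (deriv φ (u p) * (vv M.pre u p * M.pre.A u (vv M.pre u) a c p)
    - deriv (deriv φ) (u p) * ((stepS M.pre u).D a u p * (stepS M.pre u).D c u p)),
    mul_le_mul_of_nonneg_left h2 (sq_nonneg (deriv φ (u p) * M.pre.A u (vv M.pre u) a c p))]

end Crest.Agent.N228.H

end
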