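import Mathlib

/-!
# Row 228, A' (helper28): the real number inequalities of the heat step

`o = 1 / W`, `c = χ = 1 - o²`, `T = τ u`, `σ = P₀ / P`, `t = X(o)`.
-/

set_option autoImplicit false

noncomputable section

namespace Crest.Agent.N228.H

theorem abs_le_of_sq_le_four {x a b : ℝ} (ha : 0 ≤ a) (hb : 0 ≤ b) (h : x ^ 2 ≤ 4 * a * b) :
    |x| ≤ a + b :=
  abs_le.2 (abs_le_of_sq_le_sq' (by nlinarith [sq_nonneg (a - b)]) (by positivity))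

/-- the exact energy identity -/
theorem en_id {o u h w σ A v t XP XA Xv B e : ℝ} (ho : o ≠ 0) (hu : u ≠ 0) (hh : h ≠ 0)
    (hw : w ≠ 0) :
    B + ((1 - o) / u - u * (1 - σ) / h / 4 - v * (u * (1 - σ) / h) / 2 - A * o * u / 2) ^ 2
      - (e + (-(1 - o) / u + o * (u * (1 - σ) / h) / 4 - A * u / 2)) ^ 2
      - 2 * (-t / u - (1 - o) * (o⁻¹ * (1 - o ^ 2)) / u ^ 2
        - ((o⁻¹ * (1 - o ^ 2)) * (1 + σ) - 4 * h * w * XP / u) / h / 4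
        - (Xv * (u * (1 - σ) / h)
          + v * (((o⁻¹ * (1 - o ^ 2)) * (1 + σ) - 4 * h * w * XP / u) / h)) / 2
        - (XA * o * u + A * t * u + A * o * (o⁻¹ * (1 - o ^ 2))) / 2)
      - (1 - o ^ 2) / (2 * h) - 2 * (w * A) * (u ^ 2 / (4 * h * w))
      + 2 * (w * A) * (σ * (u ^ 2 / (4 * h * w))) =
    (B + 2 * t / u + (1 - o ^ 2) ^ 2 / u ^ 2)
      + (1 - o ^ 2) * (2 * (1 - o) * o⁻¹ - (1 - o ^ 2)) / u ^ 2
      + (1 - o ^ 2) * (u * (1 - σ) / h) ^ 2 / 16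
      + ((1 - o ^ 2) * (o⁻¹ - 1) - (1 - σ) * ((o⁻¹ - 1) * (1 - o ^ 2) + (1 - o) ^ 2) / 2) / h
      + (σ * (1 - o ^ 2) / (2 * h) - 2 * w * XP / u) - 4 * w * (v * XP) / u
      + (A * u * t - (1 - o) * (A * u) * (u * (1 - σ) / h) / 2 - (A * u) ^ 2 * (1 - o ^ 2) / 4)
      + o * u * XA
      + (v * ((1 - σ) * (o⁻¹ - 1) + 2 * σ * o⁻¹ * (1 - o ^ 2)) / h
        + (u * (1 - σ) / h) ^ 2 * (v + v ^ 2) / 4 + u * (1 - σ) / h * Xv
        + o * (A * v) * (u * (1 - σ) / h) * u / 2)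
      - (2 * (-(1 - o) / u + o * (u * (1 - σ) / h) / 4 - A * u / 2) * e + e ^ 2) := by
  field_simp
  ring

theorem own_gain {o σ : ℝ} (o0 : 0 < o) (o1 : o ≤ 1) (hσ : 0 ≤ σ) : (1 - o ^ 2) ^ 2 / 8 ≤
    (1 - o ^ 2) * (o⁻¹ - 1) - (1 - σ) * ((o⁻¹ - 1) * (1 - o ^ 2) + (1 - o) ^ 2) / 2 := by
  have hW : 1 ≤ o⁻¹ := (one_le_inv₀ o0).2 o1
  have e1 : (o⁻¹ - 1) * (1 - o ^ 2) = (1 - o) ^ 2 * (o⁻¹ + 1) := by field_simp; ring
  have h1 : 0 ≤ σ * ((o⁻¹ - 1) * (1 - o ^ 2) + (1 - o) ^ 2) := by rw [e1]; positivity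
  have h2 : (1 - o ^ 2) ^ 2 ≤ 4 * (1 - o) ^ 2 := by
    have : (1 - o ^ 2) ^ 2 = (1 + o) ^ 2 * (1 - o) ^ 2 := by ring
    rw [this]
    exact mul_le_mul_of_nonneg_right (by nlinarith) (sq_nonneg _)
  have h3 := mul_le_mul_of_nonneg_left hW (sq_nonneg (1 - o))
  nlinarith

theorem wall_gain {o σ : ℝ} (o0 : 0 < o) (o1 : o ≤ 1) (hσ : 0 ≤ σ) :
    σ * (1 - o ^ 2) ≤ (1 - σ) * (o⁻¹ - 1) + 2 * σ * o⁻¹ * (1 - o ^ 2) := by
  have hW : 1 ≤ o⁻¹ := (one_le_inv₀ o0).2 o1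
  have e1 : o⁻¹ * (1 - o ^ 2) = o⁻¹ - o := by field_simp
  have c0 : 0 ≤ 1 - o ^ 2 := by nlinarith
  have h1 := mul_nonneg hσ (mul_nonneg (sub_nonneg.2 hW) c0)
  have h2 := mul_nonneg hσ (sub_nonneg.2 o1)
  nlinarith

/-- the energy inequality, raw form -/
theorem en_le {o u h w σ df A v t XP XA Xv B e j0 η' ε' : ℝ} (o0 : 0 < o) (o1 : o ≤ 1) (hu : 0 < u)
    (hh : 0 < h) (hw : 0 < w) (hdf : 0 ≤ df) (hσ : df ≤ σ) (hA : 0 ≤ A) (hv : 0 ≤ v) (hB : 0 ≤ B)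
    (hη : 0 < η') (hε : 0 ≤ ε') (hj : 0 ≤ j0) (ht : t ^ 2 ≤ (1 - o ^ 2) ^ 2 * B)
    (hP : XP ^ 2 ≤ (1 - o ^ 2) * (j0 * (σ * (u ^ 2 / (4 * h * w))))) (hvP : v * XP = 0)
    (hAv : A * v = 0) (hXv : Xv ^ 2 ≤ (1 - o ^ 2) * (v ^ 3 * df / (2 * h) + ε')) :
    (B + 2 * t / u + (1 - o ^ 2) ^ 2 / u ^ 2) + (1 - o ^ 2) ^ 2 / (8 * h)
      + (1 - o ^ 2) * (u * (1 - σ) / h) ^ 2 / 32 + v ^ 2 * (u * (1 - σ) / h) ^ 2 / 8
      - η' * B - (17 / 4 + 1 / (4 * η')) * ((A * u) ^ 2 * (1 - o ^ 2)) + o * u * XA - 16 * ε'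
      - (2 * |-(1 - o) / u + o * (u * (1 - σ) / h) / 4 - A * u / 2| * |e| + e ^ 2) - w / 2 * j0 ≤
    B + ((1 - o) / u - u * (1 - σ) / h / 4 - v * (u * (1 - σ) / h) / 2 - A * o * u / 2) ^ 2
      - (e + (-(1 - o) / u + o * (u * (1 - σ) / h) / 4 - A * u / 2)) ^ 2
      - 2 * (-t / u - (1 - o) * (o⁻¹ * (1 - o ^ 2)) / u ^ 2
        - ((o⁻¹ * (1 - o ^ 2)) * (1 + σ) - 4 * h * w * XP / u) / h / 4
        - (Xv * (u * (1 - σ) / h)
          + v * (((o⁻¹ * (1 - o ^ 2)) * (1 + σ) - 4 * h * w * XP / u) / h)) / 2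
        - (XA * o * u + A * t * u + A * o * (o⁻¹ * (1 - o ^ 2))) / 2)
      - (1 - o ^ 2) / (2 * h) - 2 * (w * A) * (u ^ 2 / (4 * h * w))
      + 2 * (w * A) * (σ * (u ^ 2 / (4 * h * w))) := by
  rw [en_id o0.ne' hu.ne' hh.ne' hw.ne', hvP, hAv, mul_zero (4 * w), zero_div]
  have σ0 : 0 ≤ σ := hdf.trans hσ
  have hW : 1 ≤ o⁻¹ := (one_le_inv₀ o0).2 o1
  have y0 : 0 ≤ 1 - o := sub_nonneg.2 o1
  have h1 := div_le_div_of_nonneg_right (own_gain o0 o1 σ0) hh.le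
  have h2 := wall_gain o0 o1 σ0
  generalize u * (1 - σ) / h = T at *
  have yc : 1 - o ≤ 1 - o ^ 2 := by nlinarith
  have h0 : 0 ≤ (1 - o ^ 2) * (2 * (1 - o) * o⁻¹ - (1 - o ^ 2)) / u ^ 2 := by
    refine div_nonneg (mul_nonneg (y0.trans yc) ?_) (sq_nonneg _)
    nlinarith [mul_le_mul_of_nonneg_left hW y0]
  generalize -(1 - o) / u + o * T / 4 - A * u / 2 = m0 at *
  have hm : 2 * m0 * e ≤ 2 * |m0| * |e| := by
    have := le_abs_self (m0 * e)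
    rw [abs_mul] at this
    linarith
  have c1 : 1 - o ^ 2 ≤ 1 := by nlinarith
  generalize 1 - o = y at *
  generalize 1 - o ^ 2 = c at *
  have c0 : 0 ≤ c := y0.trans yc
  -- the old Fisher information
  have h3 : |2 * w * XP / u| ≤ w / 2 * j0 + σ * c / (2 * h) := by
    refine abs_le_of_sq_le_four (by positivity) (by positivity) ?_
    have e1 : (2 * w * XP / u) ^ 2 = 4 * w ^ 2 / u ^ 2 * XP ^ 2 := by field_simp; ring
    have e2 : 4 * (w / 2 * j0) * (σ * c / (2 * h)) =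
        4 * w ^ 2 / u ^ 2 * (c * (j0 * (σ * (u ^ 2 / (4 * h * w))))) := by field_simp; ring
    rw [e1, e2]
    exact mul_le_mul_of_nonneg_left hP (by positivity)
  -- the wall
  have h4 : |T * Xv| ≤ (v ^ 2 * T ^ 2 / 8 + v * (df * c) / h) + (c * T ^ 2 / 64 + 16 * ε') := by
    have a1 : 0 ≤ v ^ 2 * T ^ 2 / 8 := by positivity
    have a2 : 0 ≤ v * (df * c) / h := by positivity
    have b1 : 0 ≤ c * T ^ 2 / 64 := by positivity
    refine abs_le.2 (abs_le_of_sq_le_sq' ?_ (by positivity))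
    have e1 : T ^ 2 * (c * (v ^ 3 * df / (2 * h) + ε')) =
        4 * (v ^ 2 * T ^ 2 / 8) * (v * (df * c) / h) + 4 * (c * T ^ 2 / 64) * (16 * ε') := by
      field_simp; ring
    have h5 := mul_le_mul_of_nonneg_left hXv (sq_nonneg T)
    rw [e1, ← mul_pow] at h5
    nlinarith [sq_nonneg (v ^ 2 * T ^ 2 / 8 - v * (df * c) / h),
      sq_nonneg (c * T ^ 2 / 64 - 16 * ε'),
      mul_nonneg (add_nonneg a1 a2) (add_nonneg b1 (by positivity : 0 ≤ 16 * ε'))]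
  have h5 : v * (df * c) / h ≤ v * ((1 - σ) * (o⁻¹ - 1) + 2 * σ * o⁻¹ * c) / h :=
    div_le_div_of_nonneg_right (mul_le_mul_of_nonneg_left
      ((mul_le_mul_of_nonneg_right hσ c0).trans h2) hv) hh.le
  -- the bracket
  have s0 : 0 ≤ A * u := by positivity
  generalize A * u = s at *
  have h6 : |s * t| ≤ η' * B + 1 / (4 * η') * (s ^ 2 * c) := by
    refine abs_le_of_sq_le_four (by positivity) (by positivity) ?_
    have e1 : 4 * (η' * B) * (1 / (4 * η') * (s ^ 2 * c)) = s ^ 2 * (c * B) := by field_simp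
    rw [e1, mul_pow]
    refine mul_le_mul_of_nonneg_left (ht.trans ?_) (sq_nonneg _)
    exact mul_le_mul_of_nonneg_right (by nlinarith) hB
  have h7 : |y * s * T / 2| ≤ c * T ^ 2 / 64 + 4 * (s ^ 2 * c) := by
    refine abs_le_of_sq_le_four (by positivity) (by positivity) ?_
    have h8 : y ^ 2 ≤ c ^ 2 := pow_le_pow_left₀ y0 yc 2
    nlinarith [mul_le_mul_of_nonneg_left h8 (sq_nonneg (s * T))]
  have h9 : 0 ≤ T ^ 2 * v := by positivity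
  have e9 : c ^ 2 / 8 / h = c ^ 2 / (8 * h) := by field_simp
  rw [e9] at h1
  linarith [(abs_le.1 h3).2, (abs_le.1 h4).1, (abs_le.1 h6).1, (abs_le.1 h7).2]

/-- `B ≤ 2 HH + 4 χ² / u²` -/
theorem bb_le_HH {c u t B : ℝ} (hu : 0 < u) (hB : 0 ≤ B) (ht : t ^ 2 ≤ c ^ 2 * B) :
    0 ≤ B + 2 * t / u + c ^ 2 / u ^ 2 ∧
      B ≤ 2 * (B + 2 * t / u + c ^ 2 / u ^ 2) + 4 * (c ^ 2 / u ^ 2) := by
  have e1 : (2 * t / u) ^ 2 = 4 / u ^ 2 * t ^ 2 := by field_simp; ring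
  have h0 := mul_le_mul_of_nonneg_left ht (show 0 ≤ 4 / u ^ 2 by positivity)
  have h1 : |2 * t / u| ≤ B + c ^ 2 / u ^ 2 := by
    refine abs_le_of_sq_le_four hB (by positivity) ?_
    rw [e1]
    exact h0.trans_eq (by ring)
  have h2 : |2 * t / u| ≤ B / 2 + 2 * (c ^ 2 / u ^ 2) := by
    refine abs_le_of_sq_le_four (by positivity) (by positivity) ?_
    rw [e1]
    exact h0.trans_eq (by ring)
  have h3 : 0 ≤ c ^ 2 / u ^ 2 := by positivity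
  exact ⟨by linarith [(abs_le.1 h1).1], by linarith [(abs_le.1 h2).1]⟩

end Crest.Agent.N228.H

end
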