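import Crest.Agent.N228.H.St2

/-!
# Row 228, A' (helper28): the constants of the heat step
-/

set_option autoImplicit false
set_option linter.unusedSectionVars false

noncomputable section

namespace Crest.Agent.N228.H

/-- the numbers of one step at one point -/
structure Num (K h w df η o u T A v t B e : ℝ) : Prop where
  K1 : 1 ≤ K
  h0 : 0 < h
  h1 : h ≤ 1
  w0 : 0 < w
  Kw : 1 ≤ K * w
  Kd : 1 ≤ K * (w * df)
  η0 : 0 < η
  η1 : η < 1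
  Kη : 1 ≤ K * η
  o0 : 0 < o
  o1 : o ≤ 1
  u0 : 0 < u
  ul : 4 * h * w * df ≤ u ^ 2
  uu : u ^ 2 ≤ 4 * h * w
  A0 : 0 ≤ A
  A1 : w * A ≤ K
  v0 : 0 ≤ v
  B0 : 0 ≤ B
  ht : t ^ 2 ≤ (1 - o ^ 2) ^ 2 * B

/-- the curvature gain -/
def HHn (o u t B : ℝ) : ℝ := B + 2 * t / u + (1 - o ^ 2) ^ 2 / u ^ 2

/-- the total gain -/
def gn (h o u T v t B e : ℝ) : ℝ :=
  HHn o u t B + (1 - o ^ 2) ^ 2 / h + (1 - o ^ 2) * T ^ 2 + v ^ 2 * T ^ 2 + h ^ 3 + e ^ 2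

namespace Num

variable {K h w df η o u T A v t B e : ℝ} (N : Num K h w df η o u T A v t B e)
include N

theorem c0 : 0 ≤ 1 - o ^ 2 := by nlinarith [N.o0, N.o1]

theorem c1 : 1 - o ^ 2 ≤ 1 := by nlinarith [N.o0]

theorem yc : 1 - o ≤ 1 - o ^ 2 := by nlinarith [N.o0, N.o1]

theorem HH0 : 0 ≤ HHn o u t B := (bb_le_HH N.u0 N.B0 N.ht).1

theorem parts : HHn o u t B ≤ gn h o u T v t B e ∧ (1 - o ^ 2) ^ 2 / h ≤ gn h o u T v t B e ∧
    (1 - o ^ 2) * T ^ 2 + v ^ 2 * T ^ 2 ≤ gn h o u T v t B e ∧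
    (1 - o ^ 2) ^ 2 / h + h ^ 3 ≤ gn h o u T v t B e ∧ e ^ 2 ≤ gn h o u T v t B e ∧
    (1 - o ^ 2) * T ^ 2 ≤ gn h o u T v t B e := by
  have a1 := N.HH0
  have a2 : 0 ≤ (1 - o ^ 2) ^ 2 / h := div_nonneg (sq_nonneg _) N.h0.le
  have a3 : 0 ≤ (1 - o ^ 2) * T ^ 2 := mul_nonneg N.c0 (sq_nonneg _)
  have a4 : 0 ≤ v ^ 2 * T ^ 2 := by positivity
  have a5 : 0 ≤ h ^ 3 := pow_nonneg N.h0.le 3
  have a6 : 0 ≤ e ^ 2 := sq_nonneg e
  unfold gn
  refine ⟨?_, ?_, ?_, ?_, ?_, ?_⟩ <;> linarith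

theorem g0 : 0 ≤ gn h o u T v t B e := N.HH0.trans N.parts.1

theorem winv : w⁻¹ ≤ K := by
  rw [inv_le_iff_one_le_mul₀ N.w0]; exact N.Kw

theorem uinv : (u ^ 2)⁻¹ ≤ K / (4 * h) := by
  have h1 := N.h0
  rw [inv_le_iff_one_le_mul₀ (pow_pos N.u0 2), div_mul_eq_mul_div, le_div_iff₀ (by positivity)]
  have h2 := mul_le_mul_of_nonneg_left N.ul (zero_le_one.trans N.K1)
  have h3 := mul_le_mul_of_nonneg_left N.Kd (show 0 ≤ 4 * h by positivity)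
  nlinarith

theorem cu_le : (1 - o ^ 2) ^ 2 / u ^ 2 ≤ K / 4 * gn h o u T v t B e := by
  have h1 := mul_le_mul_of_nonneg_left N.uinv (sq_nonneg (1 - o ^ 2))
  have h2 := mul_le_mul_of_nonneg_left N.parts.2.1 (show 0 ≤ K / 4 by linarith [N.K1])
  refine le_trans (le_trans (le_of_eq (div_eq_mul_inv _ _)) h1) (le_trans (le_of_eq ?_) h2)
  have := N.h0
  field_simp

theorem B_le : B ≤ 3 * K * gn h o u T v t B e := by
  have h1 := (bb_le_HH N.u0 N.B0 N.ht).2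
  have h2 := N.parts.1
  have h3 := mul_le_mul_of_nonneg_right N.K1 N.g0
  have h4 := N.cu_le
  unfold HHn at h2
  nlinarith

theorem uw_le : u ^ 2 / w ^ 2 ≤ 4 * K * h := by
  have h0 := N.w0
  have h1 : u ^ 2 / w ^ 2 ≤ 4 * h * w / w ^ 2 := div_le_div_of_nonneg_right N.uu (sq_nonneg _)
  have h2 : 4 * h * w / w ^ 2 = 4 * h * w⁻¹ := by field_simp
  have h3 := mul_le_mul_of_nonneg_left N.winv (show 0 ≤ 4 * h by linarith [N.h0])
  linarith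

theorem s_le : (A * u) ^ 2 ≤ 4 * K ^ 3 * h := by
  have h0 := N.w0
  have e1 : (A * u) ^ 2 = (w * A) ^ 2 * (u ^ 2 / w ^ 2) := by field_simp
  have h1 : (w * A) ^ 2 ≤ K ^ 2 := pow_le_pow_left₀ (mul_nonneg h0.le N.A0) N.A1 2
  rw [e1]
  refine (mul_le_mul h1 N.uw_le (by positivity) (sq_nonneg _)).trans_eq ?_
  ring

theorem hc_le : 2 * (h * (1 - o ^ 2)) ≤ gn h o u T v t B e := by
  refine le_trans ?_ N.parts.2.2.2.1
  have h0 := N.h0
  have e1 : (1 - o ^ 2) ^ 2 / h + h ^ 3 - 2 * (h * (1 - o ^ 2)) = (1 - o ^ 2 - h ^ 2) ^ 2 / h := by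
    field_simp; ring
  have : 0 ≤ (1 - o ^ 2 - h ^ 2) ^ 2 / h := by positivity
  linarith

theorem c_le : 2 * (1 - o ^ 2) ≤ h + gn h o u T v t B e := by
  have h0 := N.h0
  have e1 : h + (1 - o ^ 2) ^ 2 / h - 2 * (1 - o ^ 2) = (1 - o ^ 2 - h) ^ 2 / h := by
    field_simp; ring
  have : 0 ≤ (1 - o ^ 2 - h) ^ 2 / h := by positivity
  linarith [N.parts.2.1]

theorem K_le_sq : K ≤ K ^ 2 := by nlinarith [N.K1]

theorem K_le_cube : K ^ 2 ≤ K ^ 3 := pow_le_pow_right₀ N.K1 (by norm_num)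

theorem m0_le : (-(1 - o) / u + o * T / 4 - A * u / 2) ^ 2 * (1 - o ^ 2) ≤
    3 * K ^ 3 * gn h o u T v t B e := by
  have y0 : 0 ≤ 1 - o := sub_nonneg.2 N.o1
  have h1 : (-(1 - o) / u) ^ 2 ≤ (1 - o ^ 2) ^ 2 / u ^ 2 := by
    rw [div_pow, neg_sq]
    exact div_le_div_of_nonneg_right (pow_le_pow_left₀ y0 N.yc 2) (sq_nonneg _)
  have h2 : (o * T) ^ 2 ≤ T ^ 2 := by
    rw [mul_pow]; exact mul_le_of_le_one_left (sq_nonneg _) (pow_le_one₀ N.o0.le N.o1)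
  have h3 : (-(1 - o) / u + o * T / 4 - A * u / 2) ^ 2 ≤
      3 * ((-(1 - o) / u) ^ 2 + (o * T) ^ 2 / 16 + (A * u) ^ 2 / 4) := by
    nlinarith [sq_nonneg (-(1 - o) / u - o * T / 4), sq_nonneg (-(1 - o) / u + A * u / 2),
      sq_nonneg (o * T / 4 + A * u / 2)]
  have h4 := mul_le_mul_of_nonneg_right h3 N.c0
  have h5 : (-(1 - o) / u) ^ 2 * (1 - o ^ 2) ≤ K / 4 * gn h o u T v t B e :=
    (mul_le_of_le_one_right (sq_nonneg _) N.c1).trans (h1.trans N.cu_le)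
  have h6 := mul_le_mul_of_nonneg_right h2 N.c0
  have h7 := mul_le_mul_of_nonneg_right N.s_le N.c0
  have K0 : 0 ≤ K := zero_le_one.trans N.K1
  have h8 := mul_le_mul_of_nonneg_left N.hc_le (show 0 ≤ 2 * K ^ 3 by positivity)
  have h9 := mul_le_mul_of_nonneg_right (N.K_le_sq.trans N.K_le_cube) N.g0
  have h10 := mul_le_mul_of_nonneg_right N.K1 N.g0
  linarith [N.parts.2.2.2.2.2]

/-- `|db|²` -/
theorem db_le {D : ℝ} (hD : D ≤ 2 * ((1 - o ^ 2) * B)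
    + 2 * ((e + (-(1 - o) / u + o * T / 4 - A * u / 2)) ^ 2 * (1 - o ^ 2))) :
    D ≤ 22 * K ^ 3 * gn h o u T v t B e := by
  have h1 := N.m0_le
  generalize -(1 - o) / u + o * T / 4 - A * u / 2 = m0 at *
  have h2 : (e + m0) ^ 2 * (1 - o ^ 2) ≤ (2 * e ^ 2 + 2 * m0 ^ 2) * (1 - o ^ 2) :=
    mul_le_mul_of_nonneg_right (by nlinarith [sq_nonneg (e - m0)]) N.c0
  have h3 : e ^ 2 * (1 - o ^ 2) ≤ e ^ 2 := mul_le_of_le_one_right (sq_nonneg _) N.c1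
  have h4 : (1 - o ^ 2) * B ≤ B := mul_le_of_le_one_left N.B0 N.c1
  have h9 := mul_le_mul_of_nonneg_right (N.K_le_sq.trans N.K_le_cube) N.g0
  have h10 := mul_le_mul_of_nonneg_right N.K1 N.g0
  linarith [N.parts.2.2.2.2.1, N.B_le]

/-- `χ (H + b(X))²` -/
theorem hh_le : (o * e - (1 - o ^ 2) / u + (1 - (1 - o ^ 2) / 2 + v) * T / 2) ^ 2 * (1 - o ^ 2) ≤
    6 * K * gn h o u T v t B e := by
  have c0 := N.c0
  have c1 := N.c1
  have v0 := N.v0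
  have h1 : (o * e) ^ 2 ≤ e ^ 2 := by
    rw [mul_pow]; exact mul_le_of_le_one_left (sq_nonneg _) (pow_le_one₀ N.o0.le N.o1)
  have h2 : ((1 - o ^ 2) / u) ^ 2 ≤ K / 4 * gn h o u T v t B e := by
    rw [div_pow]; exact N.cu_le
  have h3 : (1 - (1 - o ^ 2) / 2 + v) ^ 2 ≤ 2 + 2 * v ^ 2 := by
    nlinarith [sq_nonneg (1 - v), mul_nonneg c0 v0]
  have h4 : ((1 - (1 - o ^ 2) / 2 + v) * T / 2) ^ 2 * (1 - o ^ 2) ≤ gn h o u T v t B e / 2 := by
    have h5 := mul_le_mul_of_nonneg_right h3 (mul_nonneg (sq_nonneg T) c0)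
    have h6 : v ^ 2 * T ^ 2 * (1 - o ^ 2) ≤ v ^ 2 * T ^ 2 :=
      mul_le_of_le_one_right (by positivity) c1
    nlinarith [N.parts.2.2.1]
  generalize (1 - (1 - o ^ 2) / 2 + v) * T / 2 = z at *
  generalize (1 - o ^ 2) / u = x at *
  have h7 : (o * e - x + z) ^ 2 ≤ 3 * ((o * e) ^ 2 + x ^ 2 + z ^ 2) := by
    nlinarith [sq_nonneg (o * e + x), sq_nonneg (o * e - z), sq_nonneg (x + z)]
  have h8 := mul_le_mul_of_nonneg_right h7 c0
  have h9 : (o * e) ^ 2 * (1 - o ^ 2) ≤ (o * e) ^ 2 := mul_le_of_le_one_right (sq_nonneg _) c1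
  have h10 : x ^ 2 * (1 - o ^ 2) ≤ x ^ 2 := mul_le_of_le_one_right (sq_nonneg _) c1
  have h11 := mul_le_mul_of_nonneg_right N.K1 N.g0
  linarith [N.parts.2.2.2.2.1, N.g0]

/-- the energy inequality, digested -/
theorem en {C x : ℝ} (hC : 6000000 * K ^ 11 ≤ C) :
    (1 - η) * (HHn o u t B + (1 - o ^ 2) ^ 2 / (8 * h)) + gn h o u T v t B e / C - C * h ^ 3
      - e ^ 2 + x ≤
    HHn o u t B + (1 - o ^ 2) ^ 2 / (8 * h) + (1 - o ^ 2) * T ^ 2 / 32 + v ^ 2 * T ^ 2 / 8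
      - η / (384 * K) * B - (17 / 4 + 1 / (4 * (η / (384 * K)))) * ((A * u) ^ 2 * (1 - o ^ 2))
      + x := by
  have K1 := N.K1
  have K0 : 0 < K := by linarith
  have η0 := N.η0
  have h0 := N.h0
  have g0 := N.g0
  have c0 := N.c0
  have k11 : ∀ n : ℕ, n ≤ 11 → K ^ n ≤ K ^ 11 := fun n hn => pow_le_pow_right₀ K1 hn
  have ηi : η⁻¹ ≤ K := by rw [inv_le_iff_one_le_mul₀ η0]; exact N.Kη
  have h1 : η / (384 * K) * B ≤ η / 128 * gn h o u T v t B e := by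
    refine (mul_le_mul_of_nonneg_left N.B_le (by positivity)).trans_eq ?_
    field_simp; ring
  have h2 : 17 / 4 + 1 / (4 * (η / (384 * K))) ≤ 101 * K ^ 2 := by
    have e1 : 1 / (4 * (η / (384 * K))) = 96 * K * η⁻¹ := by field_simp; ring
    have := mul_le_mul_of_nonneg_left ηi (show 0 ≤ 96 * K by positivity)
    nlinarith
  have h3 : (17 / 4 + 1 / (4 * (η / (384 * K)))) * ((A * u) ^ 2 * (1 - o ^ 2)) ≤
      101 * K ^ 2 * (4 * K ^ 3 * h * (1 - o ^ 2)) :=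
    mul_le_mul h2 (mul_le_mul_of_nonneg_right N.s_le c0) (by positivity) (by positivity)
  have h4 : |101 * K ^ 2 * (4 * K ^ 3 * h * (1 - o ^ 2))| ≤
      η / 128 * ((1 - o ^ 2) ^ 2 / h) + 5222912 * K ^ 10 * η⁻¹ * h ^ 3 := by
    refine abs_le_of_sq_le_four (by positivity) (by positivity) (le_of_eq ?_)
    field_simp; ring
  have h5 : 5222912 * K ^ 10 * η⁻¹ * h ^ 3 ≤ 5222912 * K ^ 11 * h ^ 3 := by
    have := mul_le_mul_of_nonneg_left ηi (show 0 ≤ 5222912 * K ^ 10 * h ^ 3 by positivity)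
    nlinarith
  have h6 := mul_le_mul_of_nonneg_left N.parts.2.1 (show 0 ≤ η / 128 by positivity)
  have k1 := k11 1 (by norm_num)
  have k0 := k11 0 (by norm_num)
  rw [pow_one] at k1
  rw [pow_zero] at k0
  have C0 : 0 < C := by linarith
  have h7 : gn h o u T v t B e / C ≤ η / 64 * gn h o u T v t B e := by
    rw [div_le_iff₀ C0]
    have : 1 ≤ η / 64 * C := by nlinarith [N.Kη]
    nlinarith
  have h8 : (5222912 * K ^ 11 + 1) * h ^ 3 ≤ C * h ^ 3 :=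
    mul_le_mul_of_nonneg_right (by linarith) (by positivity)
  have a1 := mul_nonneg η0.le N.HH0
  have a2 : 0 ≤ η * ((1 - o ^ 2) ^ 2 / h) := by positivity
  have η1 : 0 ≤ 1 - η := by linarith [N.η1]
  have a3 := mul_nonneg η1 (mul_nonneg c0 (sq_nonneg T))
  have a4 := mul_nonneg η1 (show 0 ≤ v ^ 2 * T ^ 2 by positivity)
  have a5 := mul_nonneg η1 (show 0 ≤ h ^ 3 by positivity)
  have a6 := mul_nonneg η1 (sq_nonneg e)
  have a7 : 0 ≤ v ^ 2 * T ^ 2 := by positivity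
  have a8 : 0 ≤ h ^ 3 := by positivity
  have e8 : (1 - o ^ 2) ^ 2 / (8 * h) = (1 - o ^ 2) ^ 2 / h / 8 := by field_simp
  have e9 : η * gn h o u T v t B e = η * HHn o u t B + η * ((1 - o ^ 2) ^ 2 / h)
      + η * ((1 - o ^ 2) * T ^ 2) + η * (v ^ 2 * T ^ 2) + η * h ^ 3 + η * e ^ 2 := by
    rw [gn]; ring
  rw [e8]
  nlinarith [(abs_le.1 h4).2, sq_nonneg e]

/-- the heat equation (no wall) -/
theorem heat {C r D : ℝ} (hC : 93 * K ^ 4 ≤ C) (hD : D ≤ 22 * K ^ 3 * gn h o u T v t B e)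
    (hr : r ^ 2 ≤ D * ((u / (2 * h * w)) ^ 2 * (1 - o ^ 2))) :
    (u * o ^ 2 * e / (2 * w) + (1 - o) * (1 - o ^ 2) / (2 * w)
      + u * T / (4 * w) * (o * (1 - (1 - o ^ 2) / 2) - 1) + h * r) ^ 2 ≤
      C * h * (1 - o ^ 2) * gn h o u T v t B e + 4 * K * e ^ 2 := by
  have K1 := N.K1
  have K0 : 0 < K := by linarith
  have h0 := N.h0
  have w0 := N.w0
  have g0 := N.g0
  have c0 := N.c0
  have c1 := N.c1
  have y0 : 0 ≤ 1 - o := sub_nonneg.2 N.o1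
  have uw := N.uw_le
  have t1 : (u * o ^ 2 * e / (2 * w)) ^ 2 ≤ K * e ^ 2 := by
    have e1 : (u * o ^ 2 * e / (2 * w)) ^ 2 = u ^ 2 / w ^ 2 * (o ^ 4 * (e ^ 2 / 4)) := by
      field_simp; ring
    have h1 : o ^ 4 * (e ^ 2 / 4) ≤ e ^ 2 / 4 :=
      mul_le_of_le_one_left (by positivity) (pow_le_one₀ N.o0.le N.o1)
    have h2 := mul_le_mul uw h1 (by have := N.o0; positivity) (by positivity)
    have h3 := mul_le_mul_of_nonneg_left N.h1 (show 0 ≤ K * e ^ 2 by positivity)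
    rw [e1]; nlinarith
  have t2 : ((1 - o) * (1 - o ^ 2) / (2 * w)) ^ 2 ≤
      K ^ 2 / 4 * (h * (1 - o ^ 2) * gn h o u T v t B e) := by
    have e1 : ((1 - o) * (1 - o ^ 2) / (2 * w)) ^ 2 =
        w⁻¹ ^ 2 / 4 * (h * (1 - o) ^ 2 * ((1 - o ^ 2) ^ 2 / h)) := by field_simp; ring
    have h1 : (1 - o) ^ 2 ≤ 1 - o ^ 2 := by nlinarith [N.o0]
    rw [e1]
    have := N.parts.2.1
    have := N.winv
    gcongr
  have t3 : (u * T / (4 * w) * (o * (1 - (1 - o ^ 2) / 2) - 1)) ^ 2 ≤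
      K * (h * (1 - o ^ 2) * gn h o u T v t B e) := by
    have h1 : (o * (1 - (1 - o ^ 2) / 2) - 1) ^ 2 ≤ (2 * (1 - o ^ 2)) ^ 2 := by
      refine sq_le_sq' ?_ ?_
      · nlinarith [N.yc, mul_nonneg y0 c0]
      · nlinarith [N.o0, mul_nonneg N.o0.le c0]
    have e1 : (u * T / (4 * w) * (o * (1 - (1 - o ^ 2) / 2) - 1)) ^ 2 =
        u ^ 2 / w ^ 2 * (T ^ 2 / 16 * (o * (1 - (1 - o ^ 2) / 2) - 1) ^ 2) := by field_simp; ring
    have h2 := mul_le_mul uw (mul_le_mul_of_nonneg_left h1 (show 0 ≤ T ^ 2 / 16 by positivity))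
      (by positivity) (by positivity)
    have h3 := mul_le_mul_of_nonneg_left N.parts.2.2.2.2.2
      (show 0 ≤ K * (h * (1 - o ^ 2)) by positivity)
    rw [e1]; nlinarith
  have t4 : (h * r) ^ 2 ≤ 22 * K ^ 4 * (h * (1 - o ^ 2) * gn h o u T v t B e) := by
    have h1 := mul_le_mul_of_nonneg_left (hr.trans (mul_le_mul_of_nonneg_right hD (by positivity)))
      (sq_nonneg h)
    have e1 : h ^ 2 * (22 * K ^ 3 * gn h o u T v t B e * ((u / (2 * h * w)) ^ 2 * (1 - o ^ 2))) =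
        u ^ 2 / w ^ 2 * (22 / 4 * K ^ 3 * gn h o u T v t B e * (1 - o ^ 2)) := by
      field_simp; ring
    have h2 := mul_le_mul_of_nonneg_right uw
      (show 0 ≤ 22 / 4 * K ^ 3 * gn h o u T v t B e * (1 - o ^ 2) by positivity)
    rw [e1] at h1
    rw [mul_pow]; nlinarith
  generalize u * o ^ 2 * e / (2 * w) = a1 at *
  generalize (1 - o) * (1 - o ^ 2) / (2 * w) = a2 at *
  generalize u * T / (4 * w) * (o * (1 - (1 - o ^ 2) / 2) - 1) = a3 at *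
  generalize h * r = a4 at *
  have q0 : 0 ≤ h * (1 - o ^ 2) * gn h o u T v t B e := by positivity
  have k2 := mul_le_mul_of_nonneg_right (pow_le_pow_right₀ K1 (show 2 ≤ 4 by norm_num)) q0
  have k1 := mul_le_mul_of_nonneg_right (pow_le_pow_right₀ K1 (show 1 ≤ 4 by norm_num)) q0
  have k3 := mul_le_mul_of_nonneg_right hC q0
  rw [pow_one] at k1
  have h5 : (a1 + a2 + a3 + a4) ^ 2 ≤ 4 * (a1 ^ 2 + a2 ^ 2 + a3 ^ 2 + a4 ^ 2) := by
    nlinarith [sq_nonneg (a1 - a2), sq_nonneg (a1 - a3), sq_nonneg (a1 - a4), sq_nonneg (a2 - a3),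
      sq_nonneg (a2 - a4), sq_nonneg (a3 - a4)]
  linarith

/-- Gronwall -/
theorem gron {C H bx β D : ℝ} (hC : 8 * K ^ 3 ≤ C) (β0 : 0 ≤ β) (hH : H ^ 2 ≤ K * B)
    (hb : bx ^ 2 ≤ (1 - o ^ 2) * β ^ 2)
    (heq : H + bx = o * e - (1 - o ^ 2) / u + (1 - (1 - o ^ 2) / 2 + v) * T / 2)
    (hD : D ≤ √((1 - o ^ 2) * B) + |e + (-(1 - o) / u + o * T / 4 - A * u / 2)| * √(1 - o ^ 2)) :
    1 + (β + D) ≤ (1 + β) * (1 + C * (h + gn h o u T v t B e)) := by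
  have K1 := N.K1
  have K0 : 0 < K := by linarith
  have c0 := N.c0
  have c1 := N.c1
  have u0 := N.u0
  have g0 := N.g0
  have y0 : 0 ≤ 1 - o := sub_nonneg.2 N.o1
  set r := √(1 - o ^ 2) with hr
  have r0 : 0 ≤ r := Real.sqrt_nonneg _
  have r2 : r ^ 2 = 1 - o ^ 2 := Real.sq_sqrt c0
  have h1 : √((1 - o ^ 2) * B) ≤ ((1 - o ^ 2) + B) / 2 :=
    Real.sqrt_le_iff.2 ⟨by linarith [N.B0], by nlinarith [sq_nonneg (1 - o ^ 2 - B)]⟩
  have h2 : |bx| ≤ r * β := abs_le.2 (abs_le_of_sq_le_sq' (by rw [mul_pow, r2]; exact hb)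
    (mul_nonneg r0 β0))
  have x0 : 0 ≤ (1 - o ^ 2) / u := by positivity
  have h3 : |o * e| ≤ |e| := by
    rw [abs_mul, abs_of_pos N.o0]; exact mul_le_of_le_one_left (abs_nonneg _) N.o1
  have h4 : |T| / 4 ≤ |H| + |bx| + |e| + (1 - o ^ 2) / u := by
    have h5 : |(1 - (1 - o ^ 2) / 2 + v) * T / 2| ≤ |H| + |bx| + |e| + (1 - o ^ 2) / u := by
      refine abs_le.2 ⟨?_, ?_⟩ <;> linarith only [le_abs_self H, neg_abs_le H, le_abs_self bx,
        neg_abs_le bx, le_abs_self (o * e), neg_abs_le (o * e), heq, h3, x0]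
    have h6 : 1 / 2 ≤ 1 - (1 - o ^ 2) / 2 + v := by linarith [N.v0]
    rw [abs_div, abs_mul, abs_of_nonneg (by linarith), abs_two] at h5
    nlinarith [abs_nonneg T]
  have h7 : (1 - o) / u ≤ (1 - o ^ 2) / u := div_le_div_of_nonneg_right N.yc u0.le
  have h8 : |o * T| ≤ |T| := by
    rw [abs_mul, abs_of_pos N.o0]; exact mul_le_of_le_one_left (abs_nonneg _) N.o1
  have s0 : 0 ≤ A * u := mul_nonneg N.A0 u0.le
  have z0 : 0 ≤ (1 - o) / u := by positivity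
  have h9 : |e + (-(1 - o) / u + o * T / 4 - A * u / 2)| ≤
      2 * |e| + 2 * ((1 - o ^ 2) / u) + |H| + r * β + A * u / 2 := by
    rw [neg_div]
    refine abs_le.2 ⟨?_, ?_⟩ <;> linarith only [le_abs_self e, neg_abs_le e, le_abs_self (o * T),
      neg_abs_le (o * T), h2, h4, h7, h8, s0, z0, x0]
  have h10 := mul_le_mul_of_nonneg_right h9 r0
  have x2 : ((1 - o ^ 2) / u) ^ 2 ≤ K / 4 * gn h o u T v t B e := by
    rw [div_pow]; exact N.cu_le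
  have b1 := mul_le_mul_of_nonneg_left N.B_le K0.le
  have k1 := mul_le_mul_of_nonneg_right N.K1 g0
  have k2 := mul_le_mul_of_nonneg_right N.K_le_sq g0
  have k3 := mul_le_mul_of_nonneg_right N.K_le_cube g0
  have k4 := mul_le_mul_of_nonneg_right (N.K1.trans (N.K_le_sq.trans N.K_le_cube)) N.h0.le
  have hg : 0 ≤ h + gn h o u T v t B e := by linarith [N.h0]
  have k5 := mul_le_mul_of_nonneg_right hC hg
  have a1 := two_mul_le_add_sq |e| r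
  have a2 := two_mul_le_add_sq ((1 - o ^ 2) / u) r
  have a3 := two_mul_le_add_sq |H| r
  have a4 := two_mul_le_add_sq (A * u) r
  rw [sq_abs] at a1 a3
  have a5 : D ≤ r ^ 2 * β + C * (h + gn h o u T v t B e) := by
    linarith only [N.c_le, N.s_le, N.B_le, N.parts.2.2.2.2.1, N.h0, hD, h1, h10, a1, a2, a3, a4,
      r2, x2, b1, k1, k2, k3, k4, k5, hH, g0]
  have a6 : r ^ 2 ≤ C * (h + gn h o u T v t B e) := by
    linarith only [N.c_le, N.h0, r2, k1, k2, k3, k4, k5, g0]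
  linarith only [mul_le_mul_of_nonneg_right a6 β0, a5]

end Num

end Crest.Agent.N228.H

end
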