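import Crest.Agent.N228.H.St3
import Crest.Agent.N228.H.St4

/-!
# Row 228, A' (helper28): the heat step on an immersed manifold satisfies `HS`

`nH`, `mH` : the free functions; `eH` : the defect of the equation
`div X + b(X) = - χ / u + (1 - χ / 2 + v) τ u / 2`, `τ = (1 - 4 h w P₀ / u²) / h`.
-/

set_option autoImplicit false
set_option linter.unusedSectionVars false
open Set Filter Topology Function
open scoped ContDiff
open Crest.Agent.N222 Crest.Agent.N222.Imm Crest.Agent.N222.A Crest.Agent.N228.Cf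

noncomputable section

namespace Crest.Agent.N228.H

variable {d : ℕ} {ι : Type} [Fintype ι] [DecidableEq ι] {X : Type} [TopologicalSpace X]
  {ch : X → OpenPartialHomeomorph X (E (Fin d))} {M : Imm d ι X} {b : ι → X → ℝ}
  {u f k P0 a v : X → ℝ} {h w : ℝ}

/-- `τ u` -/
def tu (h w : ℝ) (P0 u : X → ℝ) (p : X) : ℝ := u p * (1 - 4 * h * w * P0 p / u p ^ 2) / h

/-- the free function `n` -/
def nH (M : Imm d ι X) (h w : ℝ) (P0 a v u : X → ℝ) (p : X) : ℝ :=
  (1 - vv M.pre u p) / u p - tu h w P0 u p / 4 - v p * tu h w P0 u p / 2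
    - a p / w * vv M.pre u p * u p / 2

/-- `m = W (h + n)` -/
def mH (M : Imm d ι X) (b : ι → X → ℝ) (h w : ℝ) (P0 a v u : X → ℝ) (p : X) : ℝ :=
  ww M.pre u p * (hh M b u p + nH M h w P0 a v u p)

/-- the defect of the equation -/
def eH (M : Imm d ι X) (b : ι → X → ℝ) (h w : ℝ) (P0 v u : X → ℝ) (p : X) : ℝ :=
  ww M.pre u p * (hh M b u p - (-(1 - vv M.pre u p ^ 2) / u p
    + (1 - (1 - vv M.pre u p ^ 2) / 2 + v p) * tu h w P0 u p / 2))

theorem xd_add (hf : M.Sm f) (hk : M.Sm k) (p : X) :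
    xd M u (fun q => f q + k q) p = xd M u f p + xd M u k p := by
  simp only [xd, gam_apply, D_add (hf.diffAt p) (hk.diffAt p), mul_add, Finset.sum_add_distrib]

theorem xd_sub (hf : M.Sm f) (hk : M.Sm k) (p : X) :
    xd M u (fun q => f q - k q) p = xd M u f p - xd M u k p := by
  simp only [xd, gam_apply, D_sub (hf.diffAt p) (hk.diffAt p), mul_sub, Finset.sum_sub_distrib]

theorem xd_mul (hf : M.Sm f) (hk : M.Sm k) (p : X) :
    xd M u (fun q => f q * k q) p = f p * xd M u k p + xd M u f p * k p := by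
  simp only [xd, gam_apply, D_mul (hf.diffAt p) (hk.diffAt p), Finset.mul_sum, Finset.sum_mul,
    ← Finset.sum_add_distrib]
  exact Finset.sum_congr rfl fun _ _ => by ring

theorem xd_const (c : ℝ) (p : X) : xd M u (fun _ => c) p = 0 := by
  simp [xd, gam_apply, D_const]

theorem xd_comp (hf : M.Sm f) {φ : ℝ → ℝ} {c : ℝ} {p : X} (hφ : HasDerivAt φ c (f p)) :
    xd M u (fun q => φ (f q)) p = c * xd M u f p := by
  simp only [xd, gam_apply, D_comp (hf.diffAt p) hφ, Finset.mul_sum]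
  exact Finset.sum_congr rfl fun _ _ => by ring

theorem ww_eq (M : Imm d ι X) (u : X → ℝ) (p : X) : ww M.pre u p = (vv M.pre u p)⁻¹ :=
  (inv_inv _).symm

theorem tu_eq (u0 : ∀ p, 0 < u p) :
    tu h w P0 u = fun q => h⁻¹ * (u q - 4 * h * w * (P0 q * (u q)⁻¹)) := by
  funext q
  have := (u0 q).ne'
  rw [tu, div_eq_inv_mul _ h]
  congr 1
  field_simp

theorem sm_tu (hP : M.Sm P0) (hu : M.Sm u) (u0 : ∀ p, 0 < u p) : M.Sm (tu h w P0 u) := by
  rw [tu_eq u0]
  exact (sm_const _).mul (hu.sub ((sm_const _).mul (hP.mul (hu.inv fun p => (u0 p).ne'))))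

theorem xd_tu (hP : M.Sm P0) (hu : M.Sm u) (u0 : ∀ p, 0 < u p) (p : X) :
    xd M u (tu h w P0 u) p = (xd M u u p * (1 + 4 * h * w * P0 p / u p ^ 2)
      - 4 * h * w * xd M u P0 p / u p) / h := by
  have hi := hu.inv fun p => (u0 p).ne'
  rw [tu_eq u0, xd_mul (sm_const _) (hu.sub ((sm_const _).mul (hP.mul hi))), xd_const,
    xd_sub hu ((sm_const _).mul (hP.mul hi)), xd_mul (sm_const _) (hP.mul hi), xd_const,
    xd_mul hP hi, xd_comp (φ := fun t => t⁻¹) hu (hasDerivAt_inv (u0 p).ne')]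
  ring

theorem nH_eq : nH M h w P0 a v u = fun q => ((1 - vv M.pre u q) * (u q)⁻¹
    - 1 / 4 * tu h w P0 u q - 1 / 2 * (v q * tu h w P0 u q))
    - 1 / (2 * w) * (a q * (vv M.pre u q * u q)) := by
  funext q; rw [nH]; ring

theorem sm_nH (hP : M.Sm P0) (ha : M.Sm a) (hv : M.Sm v) (hu : M.Sm u) (u0 : ∀ p, 0 < u p) :
    M.Sm (nH M h w P0 a v u) := by
  have hT : M.Sm (tu h w P0 u) := sm_tu hP hu u0
  rw [nH_eq]
  exact (((((sm_const 1).sub (sm_vv hu)).mul (hu.inv fun p => (u0 p).ne')).sub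
    ((sm_const _).mul hT)).sub ((sm_const _).mul (hv.mul hT))).sub
    ((sm_const _).mul (ha.mul ((sm_vv hu).mul hu)))

theorem sm_mH (hb : ∀ c, M.Sm (b c)) (hP : M.Sm P0) (ha : M.Sm a) (hv : M.Sm v) (hu : M.Sm u)
    (u0 : ∀ p, 0 < u p) : M.Sm (mH M b h w P0 a v u) :=
  (sm_ww hu).mul ((sm_hb hb hu).add (sm_nH hP ha hv hu u0))

theorem xd_nH (hP : M.Sm P0) (ha : M.Sm a) (hv : M.Sm v) (hu : M.Sm u) (u0 : ∀ p, 0 < u p)
    (p : X) : xd M u (nH M h w P0 a v u) p = -xd M u (vv M.pre u) p / u p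
      - (1 - vv M.pre u p) * xd M u u p / u p ^ 2 - xd M u (tu h w P0 u) p / 4
      - (xd M u v p * tu h w P0 u p + v p * xd M u (tu h w P0 u) p) / 2
      - (xd M u a p / w * vv M.pre u p * u p + a p / w * xd M u (vv M.pre u) p * u p
        + a p / w * vv M.pre u p * xd M u u p) / 2 := by
  have hT : M.Sm (tu h w P0 u) := sm_tu hP hu u0
  have hi := hu.inv fun p => (u0 p).ne'
  have ho := sm_vv hu
  have h1 : M.Sm fun q => 1 - vv M.pre u q := (sm_const 1).sub ho
  rw [nH_eq, xd_sub (((h1.mul hi).sub ((sm_const _).mul hT)).sub ((sm_const _).mul (hv.mul hT)))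
      ((sm_const _).mul (ha.mul (ho.mul hu))),
    xd_sub ((h1.mul hi).sub ((sm_const _).mul hT)) ((sm_const _).mul (hv.mul hT)),
    xd_sub (h1.mul hi) ((sm_const _).mul hT), xd_mul h1 hi, xd_sub (sm_const 1) ho,
    xd_comp (φ := fun t => t⁻¹) hu (hasDerivAt_inv (u0 p).ne'), xd_mul (sm_const _) hT,
    xd_mul (sm_const _) (hv.mul hT), xd_mul hv hT, xd_mul (sm_const _) (ha.mul (ho.mul hu)),
    xd_mul ha (ho.mul hu), xd_mul ho hu]
  simp only [xd_const]
  ring

theorem nf_mH : nf M b u (mH M b h w P0 a v u) = nH M h w P0 a v u := funext fun q => by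
  simp only [nf, mH]
  linear_combination (hh M b u q + nH M h w P0 a v u q) * ww_mul_vv M u q

theorem mH_eq (p : X) : mH M b h w P0 a v u p = eH M b h w P0 v u p +
    (-(1 - vv M.pre u p) / u p + vv M.pre u p * tu h w P0 u p / 4 - a p / w * u p / 2) := by
  simp only [mH, eH, nH]
  linear_combination (-(1 - vv M.pre u p) / u p + vv M.pre u p * tu h w P0 u p / 4
    - a p / w * u p / 2) * ww_mul_vv M u p

theorem hh_eH (p : X) : hh M b u p = vv M.pre u p * eH M b h w P0 v u p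
    - (1 - vv M.pre u p ^ 2) / u p
    + (1 - (1 - vv M.pre u p ^ 2) / 2 + v p) * tu h w P0 u p / 2 := by
  simp only [eH]
  linear_combination (-(hh M b u p - (-(1 - vv M.pre u p ^ 2) / u p
    + (1 - (1 - vv M.pre u p ^ 2) / 2 + v p) * tu h w P0 u p / 2))) * ww_mul_vv M u p

theorem hasDerivAt_sq_div (c t : ℝ) : HasDerivAt (fun t : ℝ => t ^ 2 / c) (2 * t / c) t := by
  simpa using (hasDerivAt_pow 2 t).div_const c

theorem deriv_sq_div (c : ℝ) : deriv (fun t : ℝ => t ^ 2 / c) = fun t => 2 * t / c :=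
  funext fun t => (hasDerivAt_sq_div c t).deriv

theorem deriv2_sq_div (c t : ℝ) : deriv (deriv fun t : ℝ => t ^ 2 / c) t = 2 / c := by
  rw [deriv_sq_div]
  simp

theorem contDiff_sq_div (c : ℝ) : ContDiff ℝ ∞ fun t : ℝ => t ^ 2 / c :=
  (contDiff_id.pow 2).div_const c

theorem lap_sq (hu : M.Sm u) (c : ℝ) (p : X) : (stepS M.pre u).lap (fun q => u q ^ 2 / c) p =
    2 * u p / c * (vv M.pre u p * hm M u p) + 2 / c * (1 - vv M.pre u p ^ 2) := by
  have hu' : (M.graph u hu).Sm u := hu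
  have := lap_comp (p := p) hu' ((contDiff_sq_div c).contDiffAt.of_le two_le_inf)
  rwa [pre_graph hu, deriv2_sq_div, deriv_sq_div, step_lap_v hu, step_gam_vv hu] at this

theorem gam_sq (hu : M.Sm u) (c : ℝ) (p : X) :
    (stepS M.pre u).gam (fun q => u q ^ 2 / c) (fun q => u q ^ 2 / c) p =
      (2 * u p / c) ^ 2 * (1 - vv M.pre u p ^ 2) := by
  have hu' : (M.graph u hu).Sm u := hu
  rw [← step_gam_vv hu, ← pre_graph hu]
  simp only [gam_apply, D_comp (hu'.diffAt p) (hasDerivAt_sq_div c (u p)), Finset.mul_sum]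
  exact Finset.sum_congr rfl fun _ _ => by ring

theorem dir_sq (hu : M.Sm u) (c : ℝ) (p : X) : M.pre.dir b (fun q => u q ^ 2 / c) p
    - bX M b u p * xd M u (fun q => u q ^ 2 / c) p = 2 * u p / c * (vv M.pre u p * bX M b u p) := by
  have e1 : M.pre.dir b (fun q => u q ^ 2 / c) p = 2 * u p / c * (ww M.pre u p * bX M b u p) := by
    simp only [dir_apply, D_comp (hu.diffAt p) (hasDerivAt_sq_div c (u p)), bX, Finset.mul_sum,
      Pre.X, Pi.mul_apply]
    exact Finset.sum_congr rfl fun a _ => by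
      linear_combination (-(2 * u p / c * M.pre.D a u p * b a p)) * ww_mul_vv M u p
  rw [e1, xd_comp hu (hasDerivAt_sq_div c (u p)), xd_u, chi]
  linear_combination (2 * u p / c * bX M b u p * vv M.pre u p) * ww_mul_vv M u p

theorem step_gam_le (hu : M.Sm u) (hf : M.Sm f) (p : X) :
    (stepS M.pre u).gam f f p ≤ M.pre.gam f f p := by
  rw [step_gam hu hf hf]
  exact sub_le_self _ (mul_self_nonneg _)

theorem step_gam_div (hu : M.Sm u) (hf : M.Sm f) (hk : M.Sm k) (p : X) :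
    (stepS M.pre u).gam f k p =
      M.pre.gam f k p - M.pre.gam u f p * M.pre.gam u k p / (1 + M.pre.gam u u p) := by
  have h0 : 0 < 1 + M.pre.gam u u p := by linarith [gam_self_nonneg (M := M) u p]
  have h1 : vv M.pre u p ^ 2 = 1 / (1 + M.pre.gam u u p) :=
    (eq_div_iff h0.ne').2 (vv_sq_mul M u p)
  rw [step_gam hu hf hk]
  linear_combination (-(M.pre.gam u f p * M.pre.gam u k p)) * h1

theorem three_sq_le (x y z : ℝ) : (x + y + z) ^ 2 ≤ 2 * x ^ 2 + 4 * y ^ 2 + 4 * z ^ 2 := by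
  nlinarith [sq_nonneg (x - y - z), sq_nonneg (y - z)]

end Crest.Agent.N228.H

end
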