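import Crest.Agent.N228.H.St5

/-!
# Row 228, A' (helper28): `hs_pt`, `hs_imm` : the heat step satisfies `HS`
-/

set_option autoImplicit false
set_option linter.unusedSectionVars false
open Set Filter Topology Function
open scoped ContDiff
open Crest.Agent.N222 Crest.Agent.N222.Imm Crest.Agent.N222.A Crest.Agent.N228.Cf

noncomputable section

namespace Crest.Agent.N228.H

variable {d : ℕ} {ι : Type} [Fintype ι] [DecidableEq ι] {X : Type} [TopologicalSpace X]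
  {ch : X → OpenPartialHomeomorph X (E (Fin d))} {M : Imm d ι X} {b : ι → X → ℝ}
  {u f k P0 a v : X → ℝ} {h w K df η : ℝ} {p : X}

/-- the numbers of the step at `p` -/
abbrev NumP (M : Imm d ι X) (b : ι → X → ℝ) (K h w df η : ℝ) (P0 a v u : X → ℝ) (p : X) : Prop :=
  Num K h w df η (vv M.pre u p) (u p) (tu h w P0 u p) (a p / w) (v p) (xd M u (vv M.pre u) p)
    (bb M u p) (eH M b h w P0 v u p)

/-- the curvature gain at `p` -/
abbrev HHp (M : Imm d ι X) (u : X → ℝ) (p : X) : ℝ :=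
  HHn (vv M.pre u p) (u p) (xd M u (vv M.pre u) p) (bb M u p)

/-- the total gain at `p` -/
abbrev gp (M : Imm d ι X) (b : ι → X → ℝ) (h w : ℝ) (P0 v u : X → ℝ) (p : X) : ℝ :=
  gn h (vv M.pre u p) (u p) (tu h w P0 u p) (v p) (xd M u (vv M.pre u) p) (bb M u p)
    (eH M b h w P0 v u p)

theorem db_sq (N : NumP M b K h w df η P0 a v u p) (hu : M.Sm u) :
    bn (db M u (mH M b h w P0 a v u)) p ^ 2 ≤ 22 * K ^ 3 * gp M b h w P0 v u p := by
  have h1 := bn_db_sq_le (m := mH M b h w P0 a v u) hu p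
  rw [mH_eq, chi] at h1
  exact N.db_le h1

theorem st_tr (hu : M.Sm u) (u0 : 0 < u p) (hh : 0 < h) (hw : 0 < w) {n γ θ : ℝ} (hn : (d : ℝ) ≤ n)
    (hθ : 0 < θ) : γ * (1 - vv M.pre u p ^ 2) / w ≤
    γ * h * (stepS M.pre u).lap (fun z => u z ^ 2 / (4 * h * w)) p + θ * HHp M u p
      + n * γ ^ 2 * h * (u p ^ 2 / (4 * h * w)) / (4 * w * θ)
      + γ * (1 - vv M.pre u p ^ 2) ^ 2 / (2 * w) := by
  have h1 := mul_le_mul_of_nonneg_left (key_le hu p (1 / u p) (-(γ * u p / (4 * w * θ)))) hθ.le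
  have o1 : vv M.pre u p ^ 2 ≤ 1 := pow_le_one₀ (vv_pos' M u p).le (vv_le_one' M u p)
  have o0 : 0 ≤ vv M.pre u p ^ 2 := sq_nonneg _
  rw [lap_sq hu, HHp, HHn]
  generalize vv M.pre u p = o at *
  generalize hm M u p = H at *
  generalize xd M u (vv M.pre u) p = t at *
  generalize bb M u p = B at *
  have h2 : (o ^ 2) ^ 2 + (d - 1) * o ^ 2 ≤ n := by
    nlinarith [mul_le_of_le_one_right (Nat.cast_nonneg (α := ℝ) d) o1]
  have h3 := mul_le_mul_of_nonneg_left h2 (show 0 ≤ θ * (γ * u p / (4 * w * θ)) ^ 2 by positivity)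
  have e1 : n * γ ^ 2 * h * (u p ^ 2 / (4 * h * w)) / (4 * w * θ) =
      θ * (γ * u p / (4 * w * θ)) ^ 2 * n := by field_simp
  have e2 : γ * h * (2 * u p / (4 * h * w) * (o * H) + 2 / (4 * h * w) * (1 - o ^ 2))
      + θ * (B + 2 * t / u p + (1 - o ^ 2) ^ 2 / u p ^ 2) + γ * (1 - o ^ 2) ^ 2 / (2 * w)
      - γ * (1 - o ^ 2) / w =
      θ * (B - 2 * -(γ * u p / (4 * w * θ)) * o * H + 2 * (1 / u p) * t)
      - θ * -((-(γ * u p / (4 * w * θ)) * o ^ 2 + 1 / u p * (1 - o ^ 2)) ^ 2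
        + (d - 1) * (-(γ * u p / (4 * w * θ))) ^ 2 * o ^ 2)
      - θ * (γ * u p / (4 * w * θ)) ^ 2 * ((o ^ 2) ^ 2 + (d - 1) * o ^ 2) := by
    field_simp; ring
  rw [e1]
  linarith

theorem st_en (N : NumP M b K h w df η P0 a v u p) (hb : ∀ c, M.Sm (b c)) (tb : M.pre.Tan b)
    (hP : M.Sm P0) (ha : M.Sm a) (hv : M.Sm v) (hu : M.Sm u) (u0 : ∀ p, 0 < u p) (hdf : 0 ≤ df)
    (hP0 : df ≤ P0 p) (hwall : v p ≠ 0 → a p = 0 ∧ M.pre.gam P0 P0 p = 0) {ε' ε C : ℝ}
    (hε' : 0 ≤ ε') (hvv : M.pre.gam v v p ≤ v p ^ 3 * df / (2 * h) + ε')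
    (hC : 6000000 * K ^ 11 ≤ C)
    (hε : 16 * ε' + 2 * |-(1 - vv M.pre u p) / u p + vv M.pre u p * tu h w P0 u p / 4
      - a p / w * u p / 2| * |eH M b h w P0 v u p| + 2 * eH M b h w P0 v u p ^ 2 ≤ ε)
    {j0 α lam : ℝ} (hj : 0 ≤ j0) (hj' : M.pre.gam P0 P0 p ≤ j0 * P0 p) (hα : 0 ≤ α)
    (hα' : M.pre.gam a a p ≤ α ^ 2) (hl : 0 < lam) :
    M.pre.Eb b p - w / 2 * j0 - 2 * a p * P0 p
      + (1 - η) * (HHp M u p + (1 - vv M.pre u p ^ 2) ^ 2 / (8 * h)) + gp M b h w P0 v u p / C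
      - α * (1 - vv M.pre u p ^ 2) / (w * lam) - h * α * lam * (u p ^ 2 / (4 * h * w))
      - C * h ^ 3 - ε ≤
    (stepS M.pre u).Eb (gb M b u (mH M b h w P0 a v u)) p - (1 - vv M.pre u p ^ 2) / (2 * h)
      - 2 * a p * (u p ^ 2 / (4 * h * w)) := by
  have h0 := N.h0
  have w0 := N.w0
  have up := u0 p
  have c0 := N.c0
  have K0 : 0 < K := by linarith [N.K1]
  have eσ : 4 * h * w * P0 p / u p ^ 2 * (u p ^ 2 / (4 * h * w)) = P0 p := by field_simp
  have hσ : df ≤ 4 * h * w * P0 p / u p ^ 2 := by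
    rw [le_div_iff₀ (pow_pos up 2)]
    exact (mul_le_mul hP0 N.uu (sq_nonneg _) (hdf.trans hP0)).trans_eq (mul_comm _ _)
  have x1 := xd_sq_le M u P0 p
  have x2 := xd_sq_le M u v p
  have x3 := xd_sq_le M u a p
  rw [chi] at x1 x2 x3
  have hvP : v p * xd M u P0 p = 0 := by
    by_cases h1 : v p = 0
    · rw [h1, zero_mul]
    · rw [(hwall h1).2, mul_zero] at x1
      rw [pow_eq_zero_iff two_ne_zero |>.1 (le_antisymm x1 (sq_nonneg _)), mul_zero]
  have hAv : a p / w * v p = 0 := by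
    by_cases h1 : v p = 0
    · rw [h1, mul_zero]
    · rw [(hwall h1).1, zero_div, zero_mul]
  have n1 := en_le (XA := xd M u a p / w) (e := eH M b h w P0 v u p) N.o0 N.o1 up h0 w0 hdf hσ N.A0
    N.v0 N.B0 (show 0 < η / (384 * K) by have := N.η0; positivity) hε' hj N.ht
    (x1.trans (mul_le_mul_of_nonneg_left (by rw [eσ]; exact hj') c0)) hvP hAv
    (x2.trans (mul_le_mul_of_nonneg_left hvv c0))
  have n2 := N.en (x := 0) hC
  have n3 : |vv M.pre u p * u p * (xd M u a p / w)| ≤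
      α * (1 - vv M.pre u p ^ 2) / (w * lam) + h * α * lam * (u p ^ 2 / (4 * h * w)) := by
    refine abs_le_of_sq_le_four (by positivity) (by positivity) ?_
    have e1 : (vv M.pre u p * u p * (xd M u a p / w)) ^ 2 =
        (u p / w) ^ 2 * (vv M.pre u p ^ 2 * xd M u a p ^ 2) := by ring
    have e2 : 4 * (α * (1 - vv M.pre u p ^ 2) / (w * lam)) * (h * α * lam * (u p ^ 2 / (4 * h * w)))
        = (u p / w) ^ 2 * ((1 - vv M.pre u p ^ 2) * α ^ 2) := by field_simp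
    rw [e1, e2]
    refine mul_le_mul_of_nonneg_left ?_ (sq_nonneg _)
    exact (mul_le_of_le_one_left (sq_nonneg _) (pow_le_one₀ N.o0.le N.o1)).trans
      (x3.trans (mul_le_mul_of_nonneg_left hα' c0))
  have ea : w * (a p / w) = a p := by field_simp
  rw [(graph_id hb tb hu (sm_mH hb hP ha hv hu u0)).2 p, nf_mH, mH_eq, xd_nH hP ha hv hu u0,
    xd_tu hP hu u0, xd_u, ww_eq, chi, nH]
  rw [eσ, ea] at n1
  simp only [HHp, gp, HHn, tu] at n1 n2 hε ⊢
  linarith [(abs_le.1 n3).1]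

theorem st_heat (N : NumP M b K h w df η P0 a v u p) (hb : ∀ c, M.Sm (b c)) (tb : M.pre.Tan b)
    (hu : M.Sm u) (h0 : v p = 0) {C : ℝ} (hC : 93 * K ^ 4 ≤ C) :
    (h * ((stepS M.pre u).lap (fun z => u z ^ 2 / (4 * h * w)) p
      + (stepS M.pre u).dir (gb M b u (mH M b h w P0 a v u)) (fun z => u z ^ 2 / (4 * h * w)) p)
      - (u p ^ 2 / (4 * h * w) - P0 p)) ^ 2 ≤
      C * h * (1 - vv M.pre u p ^ 2) * gp M b h w P0 v u p + 4 * K * eH M b h w P0 v u p ^ 2 := by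
  have hs : M.Sm fun z => u z ^ 2 / (4 * h * w) := hu.comp (contDiff_sq_div _)
  have h1 := dir_sq_le (stepS M.pre u) (db M u (mH M b h w P0 a v u))
    (fun z => u z ^ 2 / (4 * h * w)) p
  have := N.h0
  have := N.w0
  have := N.u0
  have e0 : 2 * u p / (4 * h * w) = u p / (2 * h * w) := by field_simp; ring
  rw [gam_sq hu, e0] at h1
  refine le_trans (le_of_eq ?_) (N.heat hC (db_sq N hu) h1)
  have h2 := hh_eH (M := M) (b := b) (h := h) (w := w) (P0 := P0) (v := v) (u := u) p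
  rw [hh_eq, h0] at h2
  rw [lap_sq hu, step_dir hb tb hu hs, dir_sq hu]
  have h3 : hm M u p = vv M.pre u p * eH M b h w P0 v u p - (1 - vv M.pre u p ^ 2) / u p
      + (1 - (1 - vv M.pre u p ^ 2) / 2 + 0) * tu h w P0 u p / 2 - bX M b u p := by linarith
  rw [h3, tu]
  congr 1
  field_simp
  ring

theorem st_L (N : NumP M b K h w df η P0 a v u p) (hb : ∀ c, M.Sm (b c)) (tb : M.pre.Tan b)
    (hu : M.Sm u) (hf : M.Sm f) {C : ℝ} (hC : 112 * K ^ 3 ≤ C) :
    ((stepS M.pre u).lap f p + (stepS M.pre u).dir (gb M b u (mH M b h w P0 a v u)) f p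
      - (M.pre.lap f p + M.pre.dir b f p)) ^ 2 ≤
      2 * (1 - vv M.pre u p ^ 2) ^ 2 * hq M.pre f p
        + C * M.pre.gam f f p * gp M b h w P0 v u p := by
  obtain ⟨r, hr, e1⟩ := step_lap hu hf p
  have γ0 := gam_self_nonneg (M := M) f p
  have h1 := (dir_sq_le (stepS M.pre u) (db M u (mH M b h w P0 a v u)) f p).trans
    (mul_le_mul (db_sq N hu) (step_gam_le hu hf p) (gam_nonneg' _ _ _)
      ((sq_nonneg _).trans (db_sq N hu)))
  have h2 := N.hh_le
  rw [← hh_eH] at h2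
  have h3 := mul_le_mul_of_nonneg_left (xd_sq_le M u f p) (sq_nonneg (hh M b u p))
  have h4 := mul_le_mul_of_nonneg_right h2 γ0
  have q0 := mul_nonneg γ0 N.g0
  have h5 := mul_le_mul_of_nonneg_right hC q0
  have h6 := mul_le_mul_of_nonneg_right (N.K_le_sq.trans N.K_le_cube) q0
  have h7 := three_sq_le (-r) (-(hh M b u p * xd M u f p))
    ((stepS M.pre u).dir (db M u (mH M b h w P0 a v u)) f p)
  rw [chi] at hr h3
  rw [e1, step_dir hb tb hu hf]
  rw [hh_eq] at h3 h4 h7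
  refine le_trans (le_of_eq (by ring)) (h7.trans ?_)
  linarith

theorem st_lap (N : NumP M b K h w df η P0 a v u p) (hu : M.Sm u) (hf : M.Sm f) (dK : (d : ℝ) ≤ K)
    {C : ℝ} (hC : 6 * K ^ 2 ≤ C) : ((stepS M.pre u).lap f p - M.pre.lap f p) ^ 2 ≤
      2 * (1 - vv M.pre u p ^ 2) ^ 2 * hq M.pre f p
        + C * M.pre.gam f f p * gp M b h w P0 v u p := by
  obtain ⟨r, hr, e1⟩ := step_lap hu hf p
  have γ0 := gam_self_nonneg (M := M) f p
  have K0 : 0 ≤ K := by linarith [N.K1]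
  have h1 : hm M u p ^ 2 ≤ K * (3 * K * gp M b h w P0 v u p) := (hm_sq_le hu p).trans
    (mul_le_mul dK ((a2_le_bb M u p).trans N.B_le) (a2_nonneg' M u p) K0)
  have h2 : xd M u f p ^ 2 ≤ M.pre.gam f f p :=
    (xd_sq_le M u f p).trans (mul_le_of_le_one_left γ0 (chi_lt_one M u p).le)
  have h3 := mul_le_mul h1 h2 (sq_nonneg _) ((sq_nonneg _).trans h1)
  have h5 := mul_le_mul_of_nonneg_right hC (mul_nonneg γ0 N.g0)
  rw [chi] at hr
  rw [e1]
  nlinarith [sq_nonneg (r - hm M u p * xd M u f p)]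

theorem st_hq (N : NumP M b K h w df η P0 a v u p) (hu : M.Sm u) (hf : M.Sm f)
    {C : ℝ} (hC : 6 * K ≤ C) : hq (stepS M.pre u) f p ≤
      2 * hq M.pre f p + C * M.pre.gam f f p * gp M b h w P0 v u p := by
  have γ0 := gam_self_nonneg (M := M) f p
  have h1 := (a2_le_bb M u p).trans N.B_le
  have h2 : xd M u f p ^ 2 ≤ M.pre.gam f f p :=
    (xd_sq_le M u f p).trans (mul_le_of_le_one_left γ0 (chi_lt_one M u p).le)
  have h3 := mul_le_mul h1 h2 (sq_nonneg _) ((a2_nonneg' M u p).trans h1)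
  have h5 := mul_le_mul_of_nonneg_right hC (mul_nonneg γ0 N.g0)
  linarith [step_hq hu hf p]

theorem st_hqP (N : NumP M b K h w df η P0 a v u p) (hu : M.Sm u) {C : ℝ} (hC : 7 * K ^ 2 ≤ C) :
    h * hq (stepS M.pre u) (fun z => u z ^ 2 / (4 * h * w)) p ≤ C * gp M b h w P0 v u p := by
  have h0 := N.h0
  have w0 := N.w0
  have K0 : 0 ≤ K := by linarith [N.K1]
  have h1 := step_hq_comp hu p ((contDiff_sq_div (4 * h * w)).contDiffAt.of_le two_le_inf)
  rw [deriv2_sq_div, deriv_sq_div, chi] at h1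
  refine (mul_le_mul_of_nonneg_left h1 h0.le).trans ?_
  have e1 : h * (2 * ((2 * u p / (4 * h * w)) ^ 2 * M.pre.a2 u (vv M.pre u) p)
      + 2 * ((2 / (4 * h * w)) ^ 2 * (1 - vv M.pre u p ^ 2) ^ 2)) =
      u p ^ 2 / w ^ 2 / (2 * h) * M.pre.a2 u (vv M.pre u) p
        + w⁻¹ ^ 2 / 2 * ((1 - vv M.pre u p ^ 2) ^ 2 / h) := by field_simp; ring
  have h2 : u p ^ 2 / w ^ 2 / (2 * h) ≤ 2 * K := by
    rw [div_le_iff₀ (by positivity)]; linarith [N.uw_le]
  have h3 := mul_le_mul h2 ((a2_le_bb M u p).trans N.B_le) (a2_nonneg' M u p) (by positivity)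
  have h4 : w⁻¹ ^ 2 / 2 ≤ K ^ 2 := by
    have := pow_le_pow_left₀ (inv_pos.2 w0).le N.winv 2
    linarith [sq_nonneg K]
  have h5 := mul_le_mul h4 N.parts.2.1 (by positivity) (sq_nonneg K)
  have h6 := mul_le_mul_of_nonneg_right hC N.g0
  beta_reduce
  rw [e1]
  linarith

theorem st_bn (N : NumP M b K h w df η P0 a v u p) (hb : ∀ c, M.Sm (b c)) (tb : M.pre.Tan b)
    (hu : M.Sm u) (dK : (d : ℝ) ≤ K) {C : ℝ} (hC : 8 * K ^ 3 ≤ C) :
    1 + bn (gb M b u (mH M b h w P0 a v u)) p ≤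
      (1 + bn b p) * (1 + C * (h + gp M b h w P0 v u p)) := by
  have h1 := bn_db_le (m := mH M b h w P0 a v u) hu p
  have h2 := bX_sq_le M b u p
  rw [mH_eq, chi] at h1
  rw [chi] at h2
  refine le_trans (add_le_add_right (bn_gb_le hb tb hu p) 1) (N.gron hC (bn_nonneg b p)
    ((hm_sq_le hu p).trans (mul_le_mul dK (a2_le_bb M u p) (a2_nonneg' M u p)
      (by linarith [N.K1]))) h2 ?_ h1)
  rw [← hh_eq, hh_eH]

/-- **the heat step at a point** -/
theorem hs_pt (hM : M.ch = ch) (N : NumP M b K h w df η P0 a v u p) (hb : ∀ c, M.Sm (b c))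
    (tb : M.pre.Tan b) (hP : M.Sm P0) (ha : M.Sm a) (hv : M.Sm v) (hu : M.Sm u) (u0 : ∀ p, 0 < u p)
    (hdf : 0 ≤ df) (hP0 : df ≤ P0 p) (hwall : v p ≠ 0 → a p = 0 ∧ M.pre.gam P0 P0 p = 0)
    {ε' ε C n : ℝ} (hε' : 0 ≤ ε') (hvv : M.pre.gam v v p ≤ v p ^ 3 * df / (2 * h) + ε')
    (hC : 6000000 * K ^ 11 ≤ C) (dK : (d : ℝ) ≤ K) (hn : (d : ℝ) ≤ n)
    (hε : 16 * ε' + 2 * |-(1 - vv M.pre u p) / u p + vv M.pre u p * tu h w P0 u p / 4
      - a p / w * u p / 2| * |eH M b h w P0 v u p| + 2 * eH M b h w P0 v u p ^ 2 ≤ ε)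
    (hε2 : 4 * K * eH M b h w P0 v u p ^ 2 ≤ ε) {core : Prop} (hcore : core → v p = 0) :
    HS n C η h w ε core (psM M hM b p)
      (psM (M.graph u hu) hM (gb M b u (mH M b h w P0 a v u)) p) P0 a u (HHp M u p)
      (gp M b h w P0 v u p) := by
  have e := pre_graph hu
  have K1 := N.K1
  have k11 : ∀ m : ℕ, m ≤ 11 → K ^ m ≤ K ^ 11 := fun m hm => pow_le_pow_right₀ K1 hm
  have k0 : 0 ≤ K ^ 11 := by positivity
  have k1 := k11 1 (by norm_num)
  have k2 := k11 2 (by norm_num)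
  have k3 := k11 3 (by norm_num)
  have k4 := k11 4 (by norm_num)
  rw [pow_one] at k1
  have ε0 : 0 ≤ ε := le_trans (by positivity) hε2
  have C0 : 0 ≤ C := by linarith
  have ec : (M.graph u hu).pre.gam u u p = 1 - vv M.pre u p ^ 2 := by rw [e, step_gam_vv hu]
  have hm : ∀ f : X → ℝ, C * M.pre.gam f f p * gp M b h w P0 v u p ≤
      C * M.pre.gam f f p * (gp M b h w P0 v u p + ε) := fun f =>
    mul_le_mul_of_nonneg_left (le_add_of_nonneg_right ε0)
      (mul_nonneg C0 (gam_self_nonneg f p))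
  refine ⟨rfl, fun f k hf hk => ?_, N.HH0, N.g0, ?_, fun j0 α lam h1 h2 h3 h4 h5 => ?_,
    fun γ θ _ hθ => ?_, fun hc => ?_, fun f hf => ?_, fun f hf => ?_, fun f hf => ?_, ?_, ?_⟩
  · change (M.graph u hu).pre.gam f k p = _
    rw [e]
    exact step_gam_div hu (sm_of hM hf) (sm_of hM hk) p
  · change (M.graph u hu).pre.gam u u p ^ 2 ≤ _
    rw [ec, mul_comm]
    exact (div_le_iff₀ N.h0).1 N.parts.2.1
  · have := st_en N hb tb hP ha hv hu u0 hdf hP0 hwall hε' hvv hC hε h1 h2 h3 h4 h5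
    rw [← ec, ← e] at this
    exact this
  · have := st_tr (γ := γ) hu (u0 p) N.h0 N.w0 hn hθ
    rw [← ec, ← e] at this
    exact this
  · have := st_heat N hb tb hu (hcore hc) (C := C) (by linarith)
    rw [← ec, ← e] at this
    exact this.trans (add_le_add_right hε2 _)
  · have := st_L N hb tb hu (sm_of hM hf) (C := C) (by linarith)
    rw [← ec, ← e] at this
    exact this.trans (add_le_add_right (hm f) _)
  · have := st_lap N hu (sm_of hM hf) dK (C := C) (by linarith)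
    rw [← ec, ← e] at this
    exact this.trans (add_le_add_right (hm f) _)
  · have := st_hq N hu (sm_of hM hf) (C := C) (by linarith)
    rw [← e] at this
    exact this
  · have := st_hqP N hu (C := C) (by linarith)
    rw [← e] at this
    exact this
  · exact (st_bn N hb tb hu dK (C := C) (by linarith)).trans (mul_le_mul_of_nonneg_left
      (le_add_of_nonneg_right ε0) (by linarith [bn_nonneg b p]))

end Crest.Agent.N228.H

end
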