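import Crest.Agent.N228.H.St6

/-!
# Row 228, A' (helper28): `hs_imm`, the uniform form of `hs_pt`
-/

set_option autoImplicit false
set_option linter.unusedSectionVars false
open Set Filter Topology Function
open scoped ContDiff
open Crest.Agent.N222 Crest.Agent.N222.Imm Crest.Agent.N222.A Crest.Agent.N228.Cf

noncomputable section

namespace Crest.Agent.N228.H

theorem m0_bdd {h w df Am : ℝ} (hh : 0 < h) (hw : 0 < w) (hdf : 0 < df) :
    ∃ Mb : ℝ, 0 ≤ Mb ∧ ∀ o u P a : ℝ, 0 < o → o ≤ 1 → 0 < u → 4 * h * w * df ≤ u ^ 2 →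
      u ^ 2 ≤ 4 * h * w → 0 ≤ P → P ≤ 1 → 0 ≤ a → a ≤ Am →
      |-(1 - o) / u + o * (u * (1 - 4 * h * w * P / u ^ 2) / h) / 4 - a / w * u / 2| ≤ Mb := by
  have hs : 0 < √(4 * h * w * df) := Real.sqrt_pos.2 (by positivity)
  refine ⟨1 / √(4 * h * w * df) + √(4 * h * w) * (1 + 1 / df) / h + |Am| / w * √(4 * h * w),
    by positivity, fun o u P a o0 o1 u0 ul uu P0 P1 a0 a1 => ?_⟩
  have h1 : √(4 * h * w * df) ≤ u := Real.sqrt_le_iff.2 ⟨u0.le, ul⟩
  have h2 : u ≤ √(4 * h * w) := Real.le_sqrt_of_sq_le uu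
  have h3 : (1 - o) / u ≤ 1 / √(4 * h * w * df) := div_le_div₀ zero_le_one (by linarith) hs h1
  have h3' : 0 ≤ (1 - o) / u := div_nonneg (by linarith) u0.le
  have h4 : 4 * h * w * P / u ^ 2 ≤ 1 / df := by
    rw [div_le_div_iff₀ (pow_pos u0 2) hdf]
    nlinarith [mul_le_mul_of_nonneg_left P1 (show 0 ≤ 4 * h * w * df by positivity)]
  have h4' : 0 ≤ 4 * h * w * P / u ^ 2 := by positivity
  have h4'' : 0 < 1 / df := by positivity
  have h5 : |1 - 4 * h * w * P / u ^ 2| ≤ 1 + 1 / df := abs_le.2 ⟨by linarith, by linarith⟩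
  have h6 : |o * (u * (1 - 4 * h * w * P / u ^ 2) / h)| ≤ √(4 * h * w) * (1 + 1 / df) / h := by
    rw [abs_mul, abs_div, abs_mul, abs_of_pos o0, abs_of_pos u0, abs_of_pos hh]
    refine (mul_le_of_le_one_left (by positivity) o1).trans ?_
    gcongr
  have h7 : a / w * u ≤ |Am| / w * √(4 * h * w) := by
    have := a1.trans (le_abs_self Am)
    gcongr
  have h7' : 0 ≤ a / w * u := by positivity
  have h8 := abs_le.1 h6
  have h9 : 0 ≤ √(4 * h * w) * (1 + 1 / df) / h := by positivity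
  rw [neg_div]
  exact abs_le.2 ⟨by linarith, by linarith⟩

/-- **the heat step, uniform constants**: an approximate solution of the equation `eH = 0` with a
wall `v` satisfies `HS` at every point. -/
theorem hs_imm (d : ℕ) {n w0 df Am η : ℝ} (hn : (d : ℝ) ≤ n) (hw0 : 0 < w0) (hdf : 0 < df)
    (hdf1 : df ≤ 1) (hη : 0 < η) (hη1 : η < 1) : ∃ C : ℝ, 1 ≤ C ∧ ∀ h w ε : ℝ, 0 < h → h ≤ 1 →
    w0 ≤ w → 0 < ε → ∃ ε' : ℝ, 0 < ε' ∧ ∀ {ι : Type} [Fintype ι] [DecidableEq ι] {X : Type}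
    [TopologicalSpace X] {ch : X → OpenPartialHomeomorph X (E (Fin d))} {M : Imm d ι X}
    (hM : M.ch = ch) {b : ι → X → ℝ} {P0 a v u : X → ℝ} (_ : ∀ c, M.Sm (b c)) (_ : M.pre.Tan b)
    (_ : M.Sm P0) (_ : M.Sm a) (_ : M.Sm v) (hu : M.Sm u) (_ : ∀ p, 0 < u p) (p : X)
    (core : Prop), df ≤ P0 p → P0 p ≤ 1 → 0 ≤ a p → a p ≤ Am → 0 ≤ v p →
    df ≤ u p ^ 2 / (4 * h * w) → u p ^ 2 / (4 * h * w) ≤ 1 →
    (v p ≠ 0 → a p = 0 ∧ M.pre.gam P0 P0 p = 0) →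
    M.pre.gam v v p ≤ v p ^ 3 * df / (2 * h) + ε' → |eH M b h w P0 v u p| ≤ ε' →
    (core → v p = 0) → ∃ HH g, HS n C η h w ε core (psM M hM b p)
      (psM (M.graph u hu) hM (gb M b u (mH M b h w P0 a v u)) p) P0 a u HH g := by
  obtain ⟨K, K1, K2, K3, K4, K5⟩ : ∃ K : ℝ, 1 ≤ K ∧ 1 / (w0 * df) ≤ K ∧ Am ≤ K ∧ (d : ℝ) ≤ K ∧
      1 / η ≤ K := by
    have h1 : 0 < 1 / (w0 * df) := by positivity
    have h2 : 0 < 1 / η := by positivity
    have h3 := abs_nonneg Am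
    have h4 := le_abs_self Am
    have h5 := Nat.cast_nonneg (α := ℝ) d
    exact ⟨1 + 1 / (w0 * df) + |Am| + d + 1 / η, by linarith, by linarith, by linarith,
      by linarith, by linarith⟩
  have K0 : 0 < K := by linarith
  refine ⟨6000000 * K ^ 11, by linarith [one_le_pow₀ K1 (n := 11)], fun h w ε hh h1 hw hε => ?_⟩
  have wp : 0 < w := hw0.trans_le hw
  obtain ⟨Mb, M0, hMb⟩ := m0_bdd (Am := Am) hh wp hdf
  have D0 : 0 < 18 + 2 * Mb + 4 * K := by positivity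
  refine ⟨min 1 (ε / (18 + 2 * Mb + 4 * K)), lt_min one_pos (div_pos hε D0), ?_⟩
  intro ι _ _ X _ ch M hM b P0 a v u hb tb hP ha hv hu u0 p core p0 p1 a0 a1 v0 ul uu hwall hvv he
    hcore
  set ε' := min 1 (ε / (18 + 2 * Mb + 4 * K)) with hε'
  have e0 : 0 < ε' := lt_min one_pos (div_pos hε D0)
  have e1 : ε' ≤ 1 := min_le_left _ _
  have e2 : ε' * (18 + 2 * Mb + 4 * K) ≤ ε := (le_div_iff₀ D0).1 (min_le_right _ _)
  have hw4 : 0 < 4 * h * w := by positivity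
  have ul' : 4 * h * w * df ≤ u p ^ 2 := by rw [le_div_iff₀ hw4] at ul; linarith
  have uu' : u p ^ 2 ≤ 4 * h * w := by rwa [div_le_one hw4] at uu
  have kd : 1 ≤ K * (w * df) := by
    rw [div_le_iff₀ (by positivity)] at K2
    exact K2.trans (by gcongr)
  have N : NumP M b K h w df η P0 a v u p :=
    ⟨K1, hh, h1, wp, kd.trans (by nlinarith [mul_pos K0 wp]), kd, hη, hη1,
      (div_le_iff₀ hη).1 K5, vv_pos' M u p, vv_le_one' M u p, u0 p, ul', uu', by positivity,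
      by rw [mul_div_cancel₀ _ wp.ne']; exact a1.trans K3, v0, bb_nonneg M u p, tau_sq_le hu p⟩
  have hm := hMb _ _ _ _ (vv_pos' M u p) (vv_le_one' M u p) (u0 p) ul' uu' (hdf.le.trans p0) p1
    a0 a1
  have e3 : eH M b h w P0 v u p ^ 2 ≤ ε' := by
    rw [← sq_abs]
    nlinarith [abs_nonneg (eH M b h w P0 v u p)]
  have e4 := mul_le_mul hm he (abs_nonneg _) M0
  have e5 := mul_le_mul_of_nonneg_left e3 K0.le
  refine ⟨_, _, hs_pt hM N hb tb hP ha hv hu u0 hdf.le p0 hwall e0.le hvv le_rfl K4 hn ?_ ?_ hcore⟩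
  · rw [tu]
    nlinarith [mul_pos K0 e0]
  · nlinarith [mul_nonneg M0 e0.le]

end Crest.Agent.N228.H

end
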